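import Crest.Agent.R2.Group

/-!
The entropy decrement of one dyadic block and of one group of blocks.
-/

set_option autoImplicit false
set_option exponentiation.threshold 1000

namespace Crest.Agent.R2

open Finset Real

namespace Wk

variable (W : Wk)

/-- the walk avoids the residue `x p` modulo every `phi p` -/
def Avoid (x : (p : ℕ) → ZMod p) : Prop :=
  ∀ p : ℕ, p.Prime → p % 4 = 1 → ∀ t, phi p (W.X t) ≠ x p

/-- on average over the primes of a rich block, the windows leave little entropy -/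
lemma gain_avg {x : (p : ℕ) → ZMod p} (hx : W.Avoid x) {a dl e b : ℕ} {L : List ℕ} (ha : 100 ≤ a)
    (hdl : W.D ≤ 2 ^ dl) (hda : dl ≤ a) (he1 : 32 * 2 ^ a ≤ e) (he2 : e < 1024 * 2 ^ a)
    (hR : Rich a e) (hT : W.T L ≤ 2 ^ b) (hb : 2 ^ (26 + a) * b ≤ 2 ^ 2 ^ a)
    (hS : 2 ^ (9 * 2 ^ a) ≤ W.S + 1) (κ : FD ℕ) :
    (QQ e hR.ne).E (fun p => (om κ (W.P (Lb1 a L)) (2 ^ (e + 13 + a - 9 * 2 ^ a))).Hc
      (fun y => phi p y.1) (eta (2 ^ (9 * 2 ^ a)))) ≤ LL e hR.ne - 2 ^ a / 2 := by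
  classical
  have hA2 := big2 ha
  set g : ℝ := (2 * 2 ^ a - 1) * log 2 with hg
  have hl2 := log_two_gt_d9
  have hA : (1000 : ℝ) ≤ 2 ^ a := by
    have : 1000 ≤ 2 ^ a := by omega
    exact_mod_cast this
  have h1 : (QQ e hR.ne).AE fun p =>
      (om κ (W.P (Lb1 a L)) (2 ^ (e + 13 + a - 9 * 2 ^ a))).Hc (fun y => phi p y.1)
        (eta (2 ^ (9 * 2 ^ a))) ≤ κ.E fun c => log p -
          g * (1 - if 2 ^ (e - 2 * 2 ^ a) ≤ (rare (W.pos (Lb1 a L) c) p).card then 1 else 0) := by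
    refine (QQ_ae e hR.ne).mono fun p hp => ?_
    obtain ⟨⟨hp1, hp2⟩, hp3, hp4⟩ := mem_pool.1 hp
    have hp0 : (0 : ℝ) < p := by exact_mod_cast hp3.pos
    refine (gain_one κ (W.P (Lb1 a L)) p hp3 hp4 (x p) _ _ (2 ^ (e - 2 * 2 ^ a)) (2 * W.D)
      (by positivity) (fun c j => W.P_shift _ c j)
      (fun c => (W.P_ae _ c).mono fun ξ h => ⟨fun j => ?_, h.2.1,
        fun i hi j hj => h.2.2 i (by omega) j (by omega)⟩) ?_ ?_).trans (FD.E_mono fun c => ?_)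
    · obtain ⟨t, -, -, ht⟩ := h.1 j
      rw [ht]; exact hx p hp3 hp4 t
    · calc 2 * (2 * W.D * 2 ^ (9 * 2 ^ a)) ^ 2 ≤ 2 * (2 * 2 ^ dl * 2 ^ (9 * 2 ^ a)) ^ 2 := by gcongr
        _ = 2 ^ (3 + 2 * dl + 18 * 2 ^ a) := by ring
        _ < 2 ^ e := Nat.pow_lt_pow_right (by norm_num) (by omega)
        _ ≤ p := hp1
    · have h2 : log (p / ((2 ^ (e - 2 * 2 ^ a) : ℕ) : ℝ)) ≤ (2 * 2 ^ a + 1 : ℕ) := by
        refine log_le_of_le_pow (by positivity) ?_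
        rw [div_le_iff₀ (by positivity)]
        have : p ≤ 2 ^ (2 * 2 ^ a + 1) * 2 ^ (e - 2 * 2 ^ a) := by
          rw [← pow_add]; exact hp2.le.trans (p2 (by omega))
        exact_mod_cast this
      refine h2.trans ?_
      rw [le_div_iff₀ (by positivity)]
      have : (2 * 2 ^ a + 1) * (1024 * p) ≤
          2 ^ (e + 13 + a - 9 * 2 ^ a) * 2 ^ (9 * 2 ^ a) := by
        calc (2 * 2 ^ a + 1) * (1024 * p) ≤ (4 * 2 ^ a) * (1024 * 2 ^ (e + 1)) := by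
              gcongr; omega
          _ = 2 ^ (e + 13 + a) := by ring
          _ = _ := by rw [← pow_add]; exact congrArg (fun k => 2 ^ k) (by omega)
      exact_mod_cast this
    · change (if (rare (W.pos (Lb1 a L) c) p).card < _ then _ else _) ≤ _
      by_cases hc : (rare (W.pos (Lb1 a L) c) p).card < 2 ^ (e - 2 * 2 ^ a)
      · rw [if_pos hc, if_neg (by omega)]
        have h3 : log ((2 : ℝ) ^ e) ≤ log p := log_le_log (by positivity) (by exact_mod_cast hp1)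
        obtain ⟨f, rfl⟩ : ∃ f, e = f + 2 * 2 ^ a := ⟨e - 2 * 2 ^ a, by omega⟩
        rw [Nat.add_sub_cancel]
        push_cast
        rw [← pow_succ', log_pow]
        rw [log_pow] at h3
        push_cast at h3 ⊢
        rw [hg]; linarith
      · rw [if_neg hc, if_pos (by omega)]; simp
  refine (FD.E_mono_ae h1).trans ?_
  rw [FD.E_comm]
  refine FD.E_le_of_ae (FD.AE.of_forall fun c => ?_)
  have h2 := W.rare_half ha hdl hda he1 he2 hR hT hb c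
  rw [FD.pr_def] at h2
  rw [FD.E_sub, FD.E_const_mul, FD.E_sub, FD.E_const]
  have hg0 : 2 ^ a ≤ g := by rw [hg]; nlinarith
  have : (0 : ℝ) ≤ g := le_trans (by positivity) hg0
  unfold LL
  nlinarith

/-- decrement of the potential at a rich block -/
lemma block_step {x : (p : ℕ) → ZMod p} (hx : W.Avoid x) {a dl e b : ℕ} {L : List ℕ}
    (ha : 100 ≤ a) (hdl : W.D ≤ 2 ^ dl) (hda : dl ≤ a) (he1 : 32 * 2 ^ a ≤ e)
    (he2 : e < 1024 * 2 ^ a) (hR : Rich a e) (hT : W.T L ≤ 2 ^ b)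
    (hb : 2 ^ (26 + a) * b ≤ 2 ^ 2 ^ a) (hS : 2 ^ (9 * 2 ^ a) ≤ W.S + 1) (U : List ℕ)
    (L0 : Finset ℕ) (hL : ∑ p ∈ L0, log p ≤ (2 ^ (e - 540) : ℕ)) (hL0 : ∀ p ∈ L0, p ≠ 0) :
    ∃ T : Finset ℕ, (∀ p ∈ T, p ≠ 0) ∧ ∑ p ∈ T, log p ≤ (2 ^ (e - 540) : ℕ) ∧
      Psi (W.C (U ++ Ua a) 0) (W.P (Lb1 a L)) (2 ^ (9 * 2 ^ a)) (L0 ∪ T)
          (2 ^ (e + 13 + a - 9 * 2 ^ a)) ≤
        Psi (W.C (U ++ Ua a) 0) (W.P (Lb1 a L)) (2 ^ (9 * 2 ^ a)) L0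
          (2 ^ (e + 13 + a - 9 * 2 ^ a)) - (2 ^ (e - a - 550) : ℕ) * (2 ^ a / 4) := by
  have hA2 := big2 ha
  set κ := W.C (U ++ Ua a) 0 with hκ
  set K := W.P (Lb1 a L) with hK
  set μ := W.pos (U ++ (Ua a ++ Lb1 a L)) 0 with hμ
  have hμ' : (κ.bind K).map (fun ξ => ξ 0) = μ := by
    rw [hμ, hκ, hK, ← P_append, List.append_assoc]; rfl
  set J := 2 ^ (e - a - 550) with hJ
  set u : ℕ → ℝ := fun p => (om κ K (2 ^ (e + 13 + a - 9 * 2 ^ a))).Hc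
      (fun y => phi p y.1) (eta (2 ^ (9 * 2 ^ a))) with hu
  have h1 := W.gain_avg hx ha hdl hda he1 he2 hR hT hb hS κ
  have h2 : LL e hR.ne - aa μ L0 (QQ e hR.ne) J ≤ 2 ^ a / 4 :=
    W.near_unif ha hdl hda he1 he2 hR hT hb U L0 hL hL0
  have h3 := mul_aa_le μ L0 (QQ e hR.ne) J
  obtain ⟨l, hl, hle⟩ := (FD.iid (QQ e hR.ne) J).exists_le_E
    (fun l => (l.map u).sum - μ.H (Y (L0 ∪ l.toFinset)))
  rw [FD.E_sub, FD.E_iid_sum] at hle
  obtain ⟨hlen, hmem⟩ := FD.AE_iid (QQ_ae e hR.ne) J l hl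
  refine ⟨l.toFinset, fun p hp => (mem_pool.1 (hmem p (List.mem_toFinset.1 hp))).2.1.ne_zero,
    ?_, ?_⟩
  · refine (sum_toFinset_le l _ fun p => log_natCast_nonneg p).trans ?_
    refine (List.sum_le_card_nsmul _ (e + 1 : ℝ) fun y hy => ?_).trans ?_
    · obtain ⟨p, hp, rfl⟩ := List.mem_map.1 hy
      exact log_le_of_mem_pool' (hmem p hp)
    · rw [List.length_map, hlen, nsmul_eq_mul]
      have : J * (e + 1) ≤ 2 ^ (e - 540) := by
        calc J * (e + 1) ≤ J * (1024 * 2 ^ a) := Nat.mul_le_mul_left _ he2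
          _ = 2 ^ (e - a - 550 + 10 + a) := by rw [hJ]; ring
          _ ≤ _ := p2 (by omega)
      exact_mod_cast this
  · have h4 := Psi_step κ K (2 ^ (9 * 2 ^ a)) L0 l.toFinset (2 ^ (e + 13 + a - 9 * 2 ^ a))
    rw [hμ'] at h4
    have h5 := sum_toFinset_le l u fun p => FD.Hc_nonneg _ _ _
    have hJ0 : (0 : ℝ) ≤ J := Nat.cast_nonneg _
    have h6 := mul_le_mul_of_nonneg_left h1 hJ0
    have h7 := mul_le_mul_of_nonneg_left h2 hJ0
    rw [mul_sub] at h6 h7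
    have h8 : (J : ℝ) * (2 ^ a / 2) = 2 * (J * (2 ^ a / 4)) := by ring
    change (J : ℝ) * (QQ e hR.ne).E u ≤ _ at h6
    change _ ≤ _ - _ + ∑ p ∈ l.toFinset, u p at h4
    clear_value J u μ K κ
    generalize e + 13 + a - 9 * 2 ^ a = n at h4 ⊢
    clear hL h1 h2 hl hmem
    linarith

open Classical in
/-- the decrements of the blocks add up -/
lemma blocks {x : (p : ℕ) → ZMod p} (hx : W.Avoid x) {a dl b : ℕ} {L : List ℕ}
    (ha : 100 ≤ a) (hdl : W.D ≤ 2 ^ dl) (hda : dl ≤ a) (hT : W.T L ≤ 2 ^ b)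
    (hb : 2 ^ (26 + a) * b ≤ 2 ^ 2 ^ a) (hS : 2 ^ (9 * 2 ^ a) ≤ W.S + 1) (U : List ℕ)
    (e : ℕ) (he1 : 32 * 2 ^ a ≤ e) (he2 : e ≤ 1024 * 2 ^ a) :
    ∃ L0 : Finset ℕ, (∀ p ∈ L0, p ≠ 0) ∧ ∑ p ∈ L0, log p ≤ (2 ^ (e - 540) : ℕ) ∧
      Psi (W.C (U ++ Ua a) 0) (W.P (Lb1 a L)) (2 ^ (9 * 2 ^ a)) L0
          (2 ^ (e + 13 + a - 9 * 2 ^ a)) ≤ (2 ^ (e + 13 + a - 9 * 2 ^ a) : ℕ) *
        (Psi (W.C (U ++ Ua a) 0) (W.P (Lb1 a L)) (2 ^ (9 * 2 ^ a)) ∅ 1 -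
          ((Ico (32 * 2 ^ a) e).filter (Rich a)).card *
            ((2 ^ (9 * 2 ^ a) : ℕ) / (2 ^ 565 * 2 ^ a))) := by
  have hA2 := big2 ha
  induction e, he1 using Nat.le_induction with
  | base =>
    refine ⟨∅, by simp, by rw [sum_empty]; exact Nat.cast_nonneg _, ?_⟩
    have := Psi_mul (W.C (U ++ Ua a) 0) (W.P (Lb1 a L)) (2 ^ (9 * 2 ^ a)) ∅
      (2 ^ (32 * 2 ^ a + 13 + a - 9 * 2 ^ a)) 1
    simpa using this
  | succ e he1 ih =>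
    obtain ⟨L0, h1, h2, h3⟩ := ih (by omega)
    have hn : 2 ^ (e + 1 + 13 + a - 9 * 2 ^ a) = 2 * 2 ^ (e + 13 + a - 9 * 2 ^ a) := by
      rw [← pow_succ']; exact congrArg (fun k => 2 ^ k) (by omega)
    have hσ : 2 ^ (e + 1 - 540) = 2 * 2 ^ (e - 540) := by
      rw [← pow_succ']; exact congrArg (fun k => 2 ^ k) (by omega)
    rw [hn, hσ, Nat.Ico_succ_right_eq_insert_Ico he1, filter_insert]
    by_cases hR : Rich a e
    · obtain ⟨T, t1, t2, t3⟩ := W.block_step hx ha hdl hda he1 (by omega) hR hT hb hS U L0 h2 h1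
      refine ⟨L0 ∪ T, fun p hp => (mem_union.1 hp).elim (h1 p) (t1 p), ?_, ?_⟩
      · have := sum_union_inter (s₁ := L0) (s₂ := T) (f := fun p : ℕ => log p)
        have h0 : 0 ≤ ∑ p ∈ L0 ∩ T, log (p : ℝ) := sum_nonneg fun p _ => log_natCast_nonneg p
        push_cast at h2 t2 ⊢
        linarith
      · rw [if_pos hR, card_insert_of_notMem (by simp)]
        have h4 := Psi_mul (W.C (U ++ Ua a) 0) (W.P (Lb1 a L)) (2 ^ (9 * 2 ^ a)) (L0 ∪ T) 2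
          (2 ^ (e + 13 + a - 9 * 2 ^ a))
        have h5 : ((2 ^ (e - a - 550) : ℕ) : ℝ) * (2 ^ a / 4) =
            (2 ^ (e + 13 + a - 9 * 2 ^ a) : ℕ) *
              ((2 ^ (9 * 2 ^ a) : ℕ) / (2 ^ 565 * 2 ^ a)) := by
          have h6 : 2 ^ (e + 13 + a - 9 * 2 ^ a) * 2 ^ (9 * 2 ^ a) * 2 ^ 2 =
              2 ^ (e - a - 550) * 2 ^ a * (2 ^ 565 * 2 ^ a) := by
            simp only [← pow_add]; exact congrArg (fun k => 2 ^ k) (by omega)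
          have h7 : (((2 ^ (e + 13 + a - 9 * 2 ^ a) : ℕ) : ℝ) * ((2 ^ (9 * 2 ^ a) : ℕ) : ℝ) * 4) =
              ((2 ^ (e - a - 550) : ℕ) : ℝ) * 2 ^ a * (2 ^ 565 * 2 ^ a) := by exact_mod_cast h6
          have h8 : (0 : ℝ) < 2 ^ 565 * 2 ^ a := by positivity
          generalize (2 : ℝ) ^ 565 * 2 ^ a = q at h7 h8 ⊢
          field_simp
          linarith
        rw [h5] at t3
        generalize ((2 ^ (9 * 2 ^ a) : ℕ) : ℝ) / (2 ^ 565 * 2 ^ a) = q at h3 t3 ⊢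
        rw [Nat.cast_mul, Nat.cast_add]
        generalize ((2 ^ (e + 13 + a - 9 * 2 ^ a) : ℕ) : ℝ) = n at h3 t3 ⊢
        push_cast at h4 ⊢
        linarith
    · refine ⟨L0, h1, ?_, ?_⟩
      · have : (0 : ℝ) ≤ 2 ^ (e - 540) := by positivity
        push_cast at h2 ⊢
        linarith
      · rw [if_neg hR]
        have h4 := Psi_mul (W.C (U ++ Ua a) 0) (W.P (Lb1 a L)) (2 ^ (9 * 2 ^ a)) L0 2
          (2 ^ (e + 13 + a - 9 * 2 ^ a))
        rw [Nat.cast_mul]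
        generalize ((2 ^ (e + 13 + a - 9 * 2 ^ a) : ℕ) : ℝ) = n at h3 ⊢
        generalize ((2 ^ (9 * 2 ^ a) : ℕ) : ℝ) / (2 ^ 565 * 2 ^ a) = q at h3 ⊢
        push_cast at h4 ⊢
        linarith

end Wk

end Crest.Agent.R2
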