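import Crest.Agent.R2.Res

/-!
TASK (rid 2) Boost: for most primes only few residues have small mass.

Let `μ = κ.bind K`, `Q = QQ e hne`, `y = 2^e`, and let
`ω = κ.bind fun c => (K c).bind fun u => (iid (K c) m).map fun l => (u, l)`,
`Δ (u,l) = l.map (· - u)`.  The first coordinate has law `μ`, and so has each entry of `l`.

`kl_card`: for a law `μ'` and `p ≠ 0`, the set `E = {x ∈ zs p | μ'.pr (phi p · = x) < 1/(2p)}` has
`|E| ≤ 8 p (log p - μ'.H (phi p))`.  (By `E_comp`, with `r x = p * pr x`,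
`log p - H = ∑_{x ∈ zs p} (r log r - r + 1)/p`; every term is `≥ 0` and `≥ 1/8` for `r ≤ 1/2`
since `r log r ≥ r - 1/2 - r log 2`, from `1 - 1/t ≤ log t` at `t = 2r`.  `H` is irreducible:
use `unfold FD.H` or `delta`.)

`boost_one`: let `p ∈ pool e`, `k0 ≤ |rare μ p|`; choose `V ⊆ rare μ p`, `|V| = k0`.
`U δ = {x ∈ zs p | ∀ d ∈ δ, x + phi p d ∉ V}` for a list `δ`.  Conditional Gibbs (`Hc_gibbs`) with
`q δ x = 1/(2p) + if x ∈ U δ ∧ 16 |U δ| ≤ p then 8/p else 0` (total mass `≤ 1`, sums over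
`S ⊆ zs p`): `ω.Hc (phi p u) Δ ≤ log (2p) - log 16 * ω.pr G`, `G = {phi p u ∈ U Δ, 16 |U Δ| ≤ p}`.
`pr (phi p u ∉ U Δ) ≤ m μ(V) ≤ m k0/(1024 p) ≤ 1/16` (union bound, `E_iid_sum`).
`|U Δ| = #{x ∈ zs p | ∀ a ∈ l, x + phi p a ∉ V}` (translate by `phi p u`); given `c` its mean is
`∑_x (1 - (K c).pr (x + phi p · ∈ V))^m` (`pr_iid_all`, `pr_not`).  With `E = E_c` as above,
`∑_x |{v ∈ V | v - x ∈ E}| = k0 |E|`, so at most `2|E|` values of `x` have more than `k0/2` such
`v`; for the others the probability is `≥ k0/(4p)` and `(1 - k0/(4p))^m ≤ exp (-8) ≤ 1/256`.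
Markov: `pr (16 |U| > p) ≤ 256 κ_c + 1/16` on average, `κ_c = log p - (K c).H (phi p)`.
So `Hc ≤ log p + log 2 (1 - 4 (7/8 - 256 E κ_c)) ≤ log p - 1.7 + 710 E κ_c`.

`boost`: for the other primes `Hc ≤ log p` (`Hc_le_H`, `H_phi_le`), and `κ_c ≥ 0`.  Averaging
over `p` (`E_comm`, `aa_empty_zero`, `h1`): `Q.E Hc ≤ ℒ - 1.7 g + 710 δ`.  On the other side
`J (ℒ - δ) ≤ (iid Q J).E (μ.H (Y l.toFinset))` (`mul_aa_le`, `H_Y_empty`), and for each list
`μ.H (Y T) - ω.H Δ ≤ ω.Hc (Y T u) Δ ≤ ∑_{p ∈ l} ω.Hc (phi p u) Δ` (`H_sub_le_Hc`, `Hc_Y_le`,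
`sum_toFinset_le`, `E_iid_sum`).  Finally `ω.H Δ ≤ m * 2 log (4r+1)`: all entries of `Δ` have
`nm ≤ 2r` and the length is `m` (`AE_iid`); lists of length `m` with entries in `box (2r)`
form a finset of cardinality `≤ ((4r+1)^2)^m` (image of `Fintype.piFinset` under `List.ofFn`, or
induction on `m`), `H_le_log_card`.
-/

set_option autoImplicit false

namespace Crest.Agent.R2

open Finset Real

lemma boost_rlog_nonneg {r : ℝ} (hr : 0 ≤ r) : 0 ≤ r * log r - r + 1 := by
  rcases hr.eq_or_lt with rfl | h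
  · simp
  · have h1 := one_sub_inv_le_log_of_pos h
    have h2 : r * (1 - r⁻¹) = r - 1 := by field_simp
    nlinarith [mul_le_mul_of_nonneg_left h1 hr]

lemma boost_rlog_ge {r : ℝ} (hr : 0 ≤ r) (h2 : r ≤ 1 / 2) : 1 / 8 ≤ r * log r - r + 1 := by
  rcases hr.eq_or_lt with rfl | h
  · norm_num
  · have h1 := one_sub_inv_le_log_of_pos (show 0 < 2 * r by linarith)
    rw [log_mul two_ne_zero h.ne'] at h1
    have h3 : r * (1 - (2 * r)⁻¹) = r - 1 / 2 := by field_simp
    have h4 := mul_le_mul_of_nonneg_left h1 hr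
    have h5 := log_two_lt_d9
    have h6 : r * log 2 ≤ 1 / 2 * 0.6931471808 :=
      mul_le_mul h2 h5.le (log_nonneg one_le_two) (by norm_num)
    nlinarith

open Classical in
/-- residues of mass less than `1/(2p)` -/
noncomputable def boostE (ν : FD (ℤ × ℤ)) (p : ℕ) : Finset (ZMod p) :=
  (zs p).filter (fun x => ν.pr (fun u => phi p u = x) < 1 / (2 * p))

lemma boost_kl_card (ν : FD (ℤ × ℤ)) {p : ℕ} (hp : p ≠ 0) :
    ((boostE ν p).card : ℝ) ≤ 8 * p * (log p - ν.H (phi p)) := by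
  classical
  have hp' : (0 : ℝ) < p := by exact_mod_cast Nat.pos_of_ne_zero hp
  have hae : ν.AE (fun a => phi p a ∈ zs p) := FD.AE.of_forall fun a => mem_zs hp _
  set w : ZMod p → ℝ := fun x => ν.pr (fun u => phi p u = x) with hw
  have hw0 : ∀ x, 0 ≤ w x := fun x => FD.pr_nonneg _ _
  have h1 : ∑ x ∈ zs p, w x = 1 := by
    have := ν.E_comp (phi p) (fun _ => (1 : ℝ)) (zs p) hae
    simpa using this.symm
  have h2 : ν.H (phi p) = ∑ x ∈ zs p, w x * (- log (w x)) := by
    have := ν.E_comp (phi p) (fun x => - log (w x)) (zs p) hae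
    rw [← this]
    unfold FD.H
    rfl
  have h3 : ∑ x ∈ zs p, ((p * w x) * log (p * w x) - p * w x + 1) =
      p * (log p - ν.H (phi p)) := by
    have e1 : ∀ x, (p * w x) * log (p * w x) = p * log p * w x - p * (w x * (- log (w x))) := by
      intro x
      rcases (hw0 x).eq_or_lt with h | h
      · rw [← h]; simp
      · rw [log_mul hp'.ne' h.ne']; ring
    simp only [e1, sum_add_distrib, sum_sub_distrib, ← mul_sum, h1, ← h2, sum_const, card_zs,
      nsmul_eq_mul]
    ring
  have h4 : ∑ x ∈ boostE ν p, (1 / 8 : ℝ) ≤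
      ∑ x ∈ zs p, ((p * w x) * log (p * w x) - p * w x + 1) := by
    refine le_trans (sum_le_sum fun x hx => ?_) (sum_le_sum_of_subset_of_nonneg
      (filter_subset _ _) fun x _ _ => boost_rlog_nonneg (mul_nonneg hp'.le (hw0 x)))
    refine boost_rlog_ge (mul_nonneg hp'.le (hw0 x)) ?_
    have : w x < 1 / (2 * p) := (mem_filter.1 hx).2
    rw [lt_div_iff₀ (by positivity)] at this
    linarith
  rw [h3, sum_const, nsmul_eq_mul] at h4
  linarith

lemma boost_pr_mem (ν : FD (ℤ × ℤ)) (p : ℕ) (V : Finset (ZMod p)) (x : ZMod p) :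
    ν.pr (fun a => x + phi p a ∈ V) = ∑ v ∈ V, ν.pr (fun a => phi p a = v - x) := by
  classical
  simp only [FD.pr_def]
  rw [← FD.E_sum]
  refine FD.E_congr fun a => ?_
  have : ∀ v, (phi p a = v - x) ↔ (x + phi p a = v) := fun v =>
    ⟨fun h => by rw [h]; ring, fun h => by rw [← h]; ring⟩
  simp only [this]
  rw [sum_ite_eq]

open Classical in
/-- residues from which no displacement of `δ` leads into `V` -/
noncomputable def boostU (p : ℕ) (V : Finset (ZMod p)) (δ : List (ℤ × ℤ)) : Finset (ZMod p) :=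
  (zs p).filter (fun x => ∀ d ∈ δ, x + phi p d ∉ V)

lemma boost_mem_U {p : ℕ} (hp : p ≠ 0) {V : Finset (ZMod p)} {δ : List (ℤ × ℤ)} {x : ZMod p} :
    x ∈ boostU p V δ ↔ ∀ d ∈ δ, x + phi p d ∉ V := by
  classical
  unfold boostU
  rw [mem_filter]
  exact ⟨fun h => h.2, fun h => ⟨mem_zs hp _, h⟩⟩

lemma boost_card_U {p : ℕ} (hp : p ≠ 0) (V : Finset (ZMod p)) (l : List (ℤ × ℤ)) (u : ℤ × ℤ) :
    (boostU p V (l.map (· - u))).card = (boostU p V l).card := by
  refine card_equiv (Equiv.subRight (phi p u)) fun x => ?_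
  simp only [boost_mem_U hp, List.forall_mem_map, Equiv.subRight_apply, phi_sub]
  refine forall₂_congr fun a _ => ?_
  rw [show x + (phi p a - phi p u) = x - phi p u + phi p a by ring]

lemma boost_E_card_U (ν : FD (ℤ × ℤ)) (p : ℕ) (V : Finset (ZMod p)) (m : ℕ) :
    (FD.iid ν m).E (fun l => ((boostU p V l).card : ℝ)) =
      ∑ x ∈ zs p, (1 - ν.pr (fun a => x + phi p a ∈ V)) ^ m := by
  classical
  have : ∀ l : List (ℤ × ℤ), ((boostU p V l).card : ℝ) =
      ∑ x ∈ zs p, if ∀ d ∈ l, x + phi p d ∉ V then 1 else 0 := by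
    intro l
    unfold boostU
    rw [card_filter]
    push_cast
    exact sum_congr rfl fun x _ => by congr
  simp only [this]
  rw [FD.E_sum]
  refine sum_congr rfl fun x _ => ?_
  rw [← FD.pr_def, FD.pr_iid_all, FD.pr_not]

lemma boost_exp_neg_eight : exp (-8) ≤ 1 / 256 := by
  have h1 : (2 : ℝ) ≤ exp 1 := by have := add_one_le_exp (1 : ℝ); linarith
  have h2 : (2 : ℝ) ^ 8 ≤ exp 8 := by
    have := pow_le_pow_left₀ (by norm_num) h1 8
    rwa [← exp_nat_mul, mul_one] at this
  rw [exp_neg, one_div]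
  exact inv_anti₀ (by norm_num) (by norm_num at h2 ⊢; exact h2)

lemma boost_E_card_U_le (ν : FD (ℤ × ℤ)) {p : ℕ} (hp : p ≠ 0) (V : Finset (ZMod p)) (m : ℕ)
    (hm : 32 * p ≤ m * V.card) :
    (FD.iid ν m).E (fun l => ((boostU p V l).card : ℝ)) ≤
      16 * p * (log p - ν.H (phi p)) + p / 256 := by
  classical
  have hp' : (0 : ℝ) < p := by exact_mod_cast Nat.pos_of_ne_zero hp
  have hV : 0 < V.card := by
    rcases Nat.eq_zero_or_pos V.card with h | h
    · rw [h] at hm; omega
    · exact h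
  have hV' : (0 : ℝ) < V.card := by exact_mod_cast hV
  set E := boostE ν p with hE
  set n : ZMod p → ℕ := fun x => (V.filter (fun v => v - x ∈ E)).card with hn
  have hsum : ∑ x ∈ zs p, n x = V.card * E.card := by
    simp only [hn, card_filter]
    rw [sum_comm, ← smul_eq_mul, ← sum_const]
    refine sum_congr rfl fun v _ => ?_
    rw [← card_filter]
    refine card_equiv (Equiv.subLeft v) fun x => ?_
    simp [mem_zs hp]
  set B := (zs p).filter (fun x => V.card < 2 * n x) with hB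
  have hBc : (B.card : ℝ) ≤ 2 * E.card := by
    have h1 : B.card * V.card ≤ ∑ x ∈ B, 2 * n x := by
      rw [← smul_eq_mul]
      exact card_nsmul_le_sum _ _ _ fun x hx => (mem_filter.1 hx).2.le
    have h2 : ∑ x ∈ B, 2 * n x ≤ ∑ x ∈ zs p, 2 * n x :=
      sum_le_sum_of_subset (filter_subset _ _)
    rw [← mul_sum (zs p), hsum] at h2
    have h3 : B.card * V.card ≤ (2 * E.card) * V.card := by nlinarith
    exact_mod_cast Nat.le_of_mul_le_mul_right h3 hV
  have hgood : ∀ x ∈ zs p, (1 - ν.pr (fun a => x + phi p a ∈ V)) ^ m ≤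
      (if V.card < 2 * n x then 1 else 0) + 1 / 256 := by
    intro x _
    have h0 : 0 ≤ 1 - ν.pr (fun a => x + phi p a ∈ V) := sub_nonneg.2 (FD.pr_le_one _ _)
    split_ifs with hx
    · have : (1 - ν.pr (fun a => x + phi p a ∈ V)) ^ m ≤ 1 :=
        pow_le_one₀ h0 (by linarith [FD.pr_nonneg ν (fun a => x + phi p a ∈ V)])
      linarith
    · have h1 : (V.card : ℝ) / (4 * p) ≤ ν.pr (fun a => x + phi p a ∈ V) := by
        rw [boost_pr_mem]
        have h2 : ∑ v ∈ V.filter (fun v => ¬ v - x ∈ E), (1 / (2 * p) : ℝ) ≤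
            ∑ v ∈ V, ν.pr (fun a => phi p a = v - x) := by
          refine le_trans (sum_le_sum fun v hv => ?_) (sum_le_sum_of_subset_of_nonneg
            (filter_subset _ _) fun v _ _ => FD.pr_nonneg _ _)
          by_contra hlt
          exact (mem_filter.1 hv).2 (mem_filter.2 ⟨mem_zs hp _, not_le.1 hlt⟩)
        refine le_trans ?_ h2
        rw [sum_const, nsmul_eq_mul]
        have h3 := card_filter_add_card_filter_not (s := V) (fun v => v - x ∈ E)
        have h4 : V.card ≤ 2 * (V.filter (fun v => ¬ v - x ∈ E)).card := by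
          have : n x = (V.filter (fun v => v - x ∈ E)).card := rfl
          omega
        have h5 : (V.card : ℝ) ≤ 2 * (V.filter (fun v => ¬ v - x ∈ E)).card := by
          exact_mod_cast h4
        rw [mul_one_div, div_le_div_iff₀ (by positivity) (by positivity)]
        nlinarith
      have h6 : 1 - ν.pr (fun a => x + phi p a ∈ V) ≤ exp (-((V.card : ℝ) / (4 * p))) := by
        have := add_one_le_exp (-((V.card : ℝ) / (4 * p)))
        linarith
      have h7 : (8 : ℝ) ≤ m * ((V.card : ℝ) / (4 * p)) := by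
        have : (32 * p : ℝ) ≤ m * V.card := by exact_mod_cast hm
        rw [← mul_div_assoc, le_div_iff₀ (by positivity)]
        linarith
      calc _ ≤ exp (-((V.card : ℝ) / (4 * p))) ^ m := pow_le_pow_left₀ h0 h6 m
        _ = exp (-(m * ((V.card : ℝ) / (4 * p)))) := by rw [← exp_nat_mul, mul_neg]
        _ ≤ exp (-8) := exp_le_exp.2 (by linarith)
        _ ≤ 0 + 1 / 256 := by rw [zero_add]; exact boost_exp_neg_eight
  rw [boost_E_card_U]
  refine (sum_le_sum hgood).trans ?_
  rw [sum_add_distrib, sum_const, card_zs, nsmul_eq_mul, sum_boole]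
  have := boost_kl_card ν hp
  linarith

/-- a point and `m` further points of the same component -/
noncomputable def boostW (κ : FD ℕ) (K : ℕ → FD (ℤ × ℤ)) (m : ℕ) :
    FD ((ℤ × ℤ) × List (ℤ × ℤ)) :=
  κ.bind fun c => (K c).bind fun u => (FD.iid (K c) m).map fun l => (u, l)

/-- the displacements -/
def boostD (x : (ℤ × ℤ) × List (ℤ × ℤ)) : List (ℤ × ℤ) := x.2.map (· - x.1)

lemma boost_E_W (κ : FD ℕ) (K : ℕ → FD (ℤ × ℤ)) (m : ℕ) (F : (ℤ × ℤ) × List (ℤ × ℤ) → ℝ) :
    (boostW κ K m).E F =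
      κ.E fun c => (K c).E fun u => (FD.iid (K c) m).E fun l => F (u, l) := by
  simp [boostW]

lemma boost_one (κ : FD ℕ) (K : ℕ → FD (ℤ × ℤ)) (m k0 : ℕ) {p : ℕ} (hp : p ≠ 0)
    (hlo : 32 * p ≤ m * k0) (hhi : m * k0 ≤ 64 * p) (hk : k0 ≤ (rare (κ.bind K) p).card) :
    (boostW κ K m).Hc (fun x => phi p x.1) boostD ≤
      log p - 1.7 + 710 * κ.E (fun c => log p - (K c).H (phi p)) := by
  classical
  have hp' : (0 : ℝ) < p := by exact_mod_cast Nat.pos_of_ne_zero hp
  obtain ⟨V, hVs, hVc⟩ := exists_subset_card_eq hk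
  set ω := boostW κ K m with hω
  set A : ℝ := κ.E (fun c => log p - (K c).H (phi p)) with hA
  have hA0 : 0 ≤ A := FD.E_nonneg fun c => sub_nonneg.2 (H_phi_le (K c) id hp)
  set G : List (ℤ × ℤ) → ZMod p → Prop :=
    fun δ x => x ∈ boostU p V δ ∧ 16 * (boostU p V δ).card ≤ p with hG
  have hgibbs := FD.Hc_gibbs ω (fun x => phi p x.1) boostD
    (fun δ x => 1 / (2 * p) + if G δ x then (8 / p : ℝ) else 0)
    (fun δ x => by split_ifs <;> positivity) (fun δ S => ?_)
    (FD.AE.of_forall fun x => by split_ifs <;> positivity)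
  swap
  · have hS : S ⊆ zs p := fun x _ => mem_zs hp x
    refine (sum_le_sum_of_subset_of_nonneg hS fun x _ _ => by split_ifs <;> positivity).trans ?_
    rw [sum_add_distrib, sum_const, card_zs, nsmul_eq_mul, ← sum_filter, sum_const, nsmul_eq_mul]
    have h1 : (p : ℝ) * (1 / (2 * p)) = 1 / 2 := by field_simp
    have h2 : 16 * ((zs p).filter (G δ)).card ≤ p := by
      by_cases h : 16 * (boostU p V δ).card ≤ p
      · exact le_trans (Nat.mul_le_mul_left _ (card_le_card fun x hx => (mem_filter.1 hx).2.1)) h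
      · rw [filter_eq_empty_iff.2 fun x _ hx => h hx.2]; simp
    have h3 : (16 * ((zs p).filter (G δ)).card : ℝ) ≤ p := by exact_mod_cast h2
    have h4 : (((zs p).filter (G δ)).card : ℝ) * (8 / p) ≤ 1 / 2 := by
      rw [← mul_div_assoc, div_le_iff₀ hp']; linarith
    linarith
  have hlog : ∀ (δ : List (ℤ × ℤ)) (x : ZMod p),
      - log (1 / (2 * p) + if G δ x then (8 / p : ℝ) else 0) ≤
        log p + log 2 - 4 * log 2 * (if G δ x then 1 else 0) := by
    intro δ x
    split_ifs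
    · have h1 : (2 : ℝ) ^ 3 / p ≤ 1 / (2 * p) + 8 / p := by
        have : (0 : ℝ) ≤ 1 / (2 * p) := by positivity
        have e : (2 : ℝ) ^ 3 = 8 := by norm_num
        rw [e]; linarith
      have h2 := log_le_log (by positivity) h1
      rw [log_div (by positivity) hp'.ne', log_pow] at h2
      push_cast at h2
      linarith
    · rw [add_zero, one_div, log_inv, log_mul two_ne_zero hp'.ne']
      linarith
  have hH : ω.Hc (fun x => phi p x.1) boostD ≤
      log p + log 2 - 4 * log 2 * ω.pr (fun x => G (boostD x) (phi p x.1)) := by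
    refine hgibbs.trans ((FD.E_mono fun x => hlog _ _).trans (le_of_eq ?_))
    rw [FD.E_sub, FD.E_const, FD.E_const_mul, FD.pr_def]
  -- the two bad events
  have hb1 : ω.pr (fun x => phi p x.1 ∉ boostU p V (boostD x)) ≤ 1 / 16 := by
    have h1 : ω.pr (fun x => phi p x.1 ∉ boostU p V (boostD x)) ≤
        ω.E (fun x => (x.2.map fun a => if 0 + phi p a ∈ V then (1 : ℝ) else 0).sum) := by
      rw [FD.pr_def]
      refine FD.E_mono fun x => ?_
      have hnn : ∀ t ∈ (x.2.map fun a => if 0 + phi p a ∈ V then (1 : ℝ) else 0), 0 ≤ t := by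
        intro t ht
        obtain ⟨a, -, rfl⟩ := List.mem_map.1 ht
        split_ifs <;> norm_num
      split_ifs with h
      · exact List.sum_nonneg hnn
      · rw [boost_mem_U hp] at h
        push Not at h
        obtain ⟨d, hd, hdV⟩ := h
        obtain ⟨a, ha, rfl⟩ := List.mem_map.1 hd
        refine List.single_le_sum hnn _ (List.mem_map.2 ⟨a, ha, ?_⟩)
        rw [if_pos]
        rw [phi_sub] at hdV
        convert hdV using 1
        ring
    have h2 : ω.E (fun x => (x.2.map fun a => if 0 + phi p a ∈ V then (1 : ℝ) else 0).sum) =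
        m * (κ.bind K).pr (fun a => 0 + phi p a ∈ V) := by
      rw [hω, boost_E_W, FD.pr_bind, ← FD.E_const_mul]
      refine FD.E_congr fun c => ?_
      simp only [FD.E_iid_sum, FD.E_const]
      rw [FD.pr_def]
    have h3 : (κ.bind K).pr (fun a => 0 + phi p a ∈ V) ≤ k0 * (1 / (1024 * p)) := by
      rw [boost_pr_mem, ← hVc, ← nsmul_eq_mul]
      refine sum_le_card_nsmul _ _ _ fun v hv => ?_
      rw [sub_zero]
      exact (mem_filter.1 (hVs hv)).2.le
    have h4 : (m : ℝ) * (k0 * (1 / (1024 * p))) ≤ 1 / 16 := by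
      have : (m * k0 : ℝ) ≤ 64 * p := by exact_mod_cast hhi
      rw [← mul_assoc, mul_one_div, div_le_iff₀ (by positivity)]
      linarith
    refine h1.trans (h2.le.trans (le_trans ?_ h4))
    exact mul_le_mul_of_nonneg_left h3 (Nat.cast_nonneg _)
  have hb2 : ω.pr (fun x => ¬ 16 * (boostU p V (boostD x)).card ≤ p) ≤ 256 * A + 1 / 16 := by
    have h1 : ω.pr (fun x => ¬ 16 * (boostU p V (boostD x)).card ≤ p) ≤
        ω.E (fun x => 16 / p * ((boostU p V x.2).card : ℝ)) := by
      rw [FD.pr_def]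
      refine FD.E_mono fun x => ?_
      have e1 : (boostU p V (boostD x)).card = (boostU p V x.2).card := boost_card_U hp V _ _
      rw [e1]
      split_ifs with h
      · positivity
      · have : (p : ℝ) ≤ 16 * (boostU p V x.2).card := by exact_mod_cast (not_le.1 h).le
        rw [div_mul_eq_mul_div, le_div_iff₀ hp']
        linarith
    refine h1.trans ?_
    rw [hω, boost_E_W, hA, ← FD.E_const_mul, ← FD.E_const κ (1 / 16), ← FD.E_add]
    refine FD.E_mono fun c => ?_
    simp only [FD.E_const_mul, FD.E_const]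
    have h2 := boost_E_card_U_le (K c) hp V m (by rw [hVc]; exact hlo)
    calc 16 / (p : ℝ) * (FD.iid (K c) m).E (fun l => ((boostU p V l).card : ℝ))
        ≤ 16 / p * (16 * p * (log p - (K c).H (phi p)) + p / 256) :=
          mul_le_mul_of_nonneg_left h2 (by positivity)
      _ = _ := by field_simp; ring
  have hG' : 7 / 8 - 256 * A ≤ ω.pr (fun x => G (boostD x) (phi p x.1)) := by
    have h1 := ω.pr_not (fun x => G (boostD x) (phi p x.1))
    have h2 := ω.pr_or_le (fun x => phi p x.1 ∉ boostU p V (boostD x))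
      (fun x => ¬ 16 * (boostU p V (boostD x)).card ≤ p)
    have h3 : ω.pr (fun x => ¬ G (boostD x) (phi p x.1)) ≤
        ω.pr (fun x => phi p x.1 ∉ boostU p V (boostD x) ∨
          ¬ 16 * (boostU p V (boostD x)).card ≤ p) := FD.pr_mono fun x h => not_and_or.1 h
    linarith
  have l1 := log_two_lt_d9
  have l2 := log_two_gt_d9
  have h5 := mul_le_mul_of_nonneg_left hG' (show 0 ≤ 4 * log 2 by linarith)
  have h6 : log 2 * A ≤ 0.6931471808 * A := mul_le_mul_of_nonneg_right l1.le hA0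
  nlinarith

/-- lists of length `n` with entries in `S` -/
noncomputable def boostL {α : Type*} [DecidableEq α] (S : Finset α) : ℕ → Finset (List α)
  | 0 => {[]}
  | n + 1 => (S ×ˢ boostL S n).image (fun x => x.1 :: x.2)

lemma boost_card_L {α : Type*} [DecidableEq α] (S : Finset α) (n : ℕ) :
    (boostL S n).card = S.card ^ n := by
  induction n with
  | zero => simp [boostL]
  | succ n ih =>
    rw [boostL, card_image_of_injective, card_product, ih, pow_succ']
    intro x y h
    simp only [List.cons.injEq] at h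
    exact Prod.ext h.1 h.2

lemma boost_mem_L {α : Type*} [DecidableEq α] (S : Finset α) (l : List α)
    (h : ∀ a ∈ l, a ∈ S) : l ∈ boostL S l.length := by
  induction l with
  | nil => simp [boostL]
  | cons a l ih =>
    rw [List.length_cons, boostL]
    exact mem_image.2 ⟨(a, l), mem_product.2 ⟨h a (by simp),
      ih fun b hb => h b (List.mem_cons_of_mem _ hb)⟩, rfl⟩

lemma boost_H_D (κ : FD ℕ) (K : ℕ → FD (ℤ × ℤ)) (m r : ℕ)
    (hr : κ.AE fun c => ∃ z, (K c).AE fun u => nm (u - z) ≤ r) :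
    (boostW κ K m).H boostD ≤ m * (2 * log (4 * r + 1)) := by
  have h := (boostW κ K m).H_le_log_card boostD (boostL (box (2 * r)) m) ?_
  · rw [boost_card_L, card_box] at h
    push_cast at h
    rw [log_pow, log_pow] at h
    push_cast at h
    rwa [show (2 * (2 * r) + 1 : ℝ) = 4 * r + 1 by ring] at h
  · refine FD.AE_bind (hr.mono ?_)
    rintro c ⟨z, hz⟩
    refine FD.AE_bind (hz.mono fun u hu => FD.AE_map ((FD.AE_iid hz m).mono fun l hl => ?_))
    have h1 := boost_mem_L (box (2 * r)) (boostD (u, l)) ?_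
    · rwa [show (boostD (u, l)).length = m by simp [boostD, hl.1]] at h1
    · intro d hd
      obtain ⟨a, ha, rfl⟩ := List.mem_map.1 hd
      rw [mem_box]
      have h2 := nm_sub_le (a - z) (u - z)
      have h3 := hl.2 a ha
      rw [show a - z - (u - z) = a - u by abel] at h2
      dsimp only
      omega

theorem boost (κ : FD ℕ) (K : ℕ → FD (ℤ × ℤ)) (e : ℕ) (hne : (pool e).Nonempty)
    (k0 m J r : ℕ) (δ : ℝ) (hJ : 0 < J) (hk : m * k0 = 64 * 2 ^ e)
    (hr : κ.AE fun c => ∃ z, (K c).AE fun u => nm (u - z) ≤ r)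
    (h1 : κ.AE fun c => LL e hne - aa (K c) ∅ (QQ e hne) 0 ≤ δ)
    (h2 : LL e hne - aa (κ.bind K) ∅ (QQ e hne) J ≤ δ) :
    (QQ e hne).pr (fun p => k0 ≤ (rare (κ.bind K) p).card) ≤
      420 * δ + m * (2 * log (4 * r + 1)) / J := by
  classical
  set Q := QQ e hne with hQ
  set ω := boostW κ K m with hω
  set g : ℝ := Q.pr (fun p => k0 ≤ (rare (κ.bind K) p).card) with hg
  set A : ℕ → ℝ := fun p => κ.E (fun c => log p - (K c).H (phi p)) with hA
  set Hc : ℕ → ℝ := fun p => ω.Hc (fun x => phi p x.1) boostD with hHc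
  have hp0 : ∀ p ∈ pool e, p ≠ 0 := fun p hp => (mem_pool.1 hp).2.1.ne_zero
  have hA0 : ∀ p ∈ pool e, 0 ≤ A p := fun p hp =>
    FD.E_nonneg fun c => sub_nonneg.2 (H_phi_le (K c) id (hp0 p hp))
  have hEA : Q.E A ≤ δ := by
    rw [hA, FD.E_comm]
    refine FD.E_le_of_ae (h1.mono fun c hc => ?_)
    rw [FD.E_sub, ← aa_empty_zero]
    exact hc
  have hδ : 0 ≤ δ := le_trans (FD.le_E_of_ae ((QQ_ae e hne).mono hA0)) hEA
  have hpt : Q.AE fun p => Hc p ≤
      log p - 1.7 * (if k0 ≤ (rare (κ.bind K) p).card then 1 else 0) + 710 * A p := by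
    refine (QQ_ae e hne).mono fun p hp => ?_
    split_ifs with h
    · have hm := (mem_pool.1 hp).1
      rw [pow_succ] at hm
      rw [mul_one]
      exact boost_one κ K m k0 (hp0 p hp) (by omega) (by omega) h
    · have h3 := (ω.Hc_le_H (fun x => phi p x.1) boostD).trans (H_phi_le ω Prod.fst (hp0 p hp))
      have h4 := hA0 p hp
      simp only [hHc]
      linarith
  have hEH : Q.E Hc ≤ LL e hne - 1.7 * g + 710 * δ := by
    refine (FD.E_mono_ae hpt).trans ?_
    rw [FD.E_add, FD.E_sub, FD.E_const_mul, FD.E_const_mul, ← FD.pr_def]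
    have : Q.E (fun p => log (p : ℝ)) = LL e hne := rfl
    linarith
  have hD := boost_H_D κ K m r hr
  have hl : ∀ l : List ℕ, (κ.bind K).H (Y (∅ ∪ l.toFinset)) ≤
      m * (2 * log (4 * r + 1)) + (l.map Hc).sum := by
    intro l
    have e1 : (κ.bind K).H (Y (∅ ∪ l.toFinset)) = ω.H (fun x => Y l.toFinset x.1) := by
      rw [empty_union]
      refine FD.H_eq_of_law fun F => ?_
      rw [hω, boost_E_W, FD.E_bind]
      simp only [FD.E_const]
    have e2 := ω.H_sub_le_Hc (fun x => Y l.toFinset x.1) boostD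
    have e3 := Hc_Y_le ω Prod.fst boostD l.toFinset
    have e4 := sum_toFinset_le l Hc fun p => FD.Hc_nonneg _ _ _
    rw [e1]
    linarith
  have h3 := mul_aa_le (κ.bind K) ∅ Q J
  have h4 : (κ.bind K).H (Y ∅) = 0 := H_Y_empty (κ.bind K) id
  have h5 : (FD.iid Q J).E (fun l => (κ.bind K).H (Y (∅ ∪ l.toFinset))) ≤
      m * (2 * log (4 * r + 1)) + J * Q.E Hc := by
    refine (FD.E_mono hl).trans (le_of_eq ?_)
    rw [FD.E_add, FD.E_const, FD.E_iid_sum]
  have hJ' : (0 : ℝ) < J := by exact_mod_cast hJ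
  set D : ℝ := m * (2 * log (4 * r + 1)) with hDdef
  have hD0 : 0 ≤ D := le_trans (FD.H_nonneg _ _) hD
  have h6 : J * (LL e hne - δ) ≤ J * aa (κ.bind K) ∅ Q J :=
    mul_le_mul_of_nonneg_left (by linarith) hJ'.le
  have h7 : J * Q.E Hc ≤ J * (LL e hne - 1.7 * g + 710 * δ) :=
    mul_le_mul_of_nonneg_left hEH hJ'.le
  have h8 : J * (1.7 * g - 711 * δ) ≤ D := by nlinarith
  have h9 : 1.7 * g - 711 * δ ≤ D / J := by rw [le_div_iff₀ hJ']; linarith
  have h10 : 0 ≤ D / J := div_nonneg hD0 hJ'.le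
  linarith

end Crest.Agent.R2
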