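import Crest.Agent.R2.Defs

/-!
TASK (rid 2) Lattice: short vectors of the lattices `{u | phi p u = 0, p ∈ K}` in a strip.

Notation `z = nm Z ≥ 1`, `N = dot Z Z ≥ z^2`, `a u = dot u Z`, `b u = det u Z`, `q = ∏ K`.
Identities: `det u u' * N = ± (a u * b u' - a u' * b u)`, `u.1 * N = a Z.1 + b Z.2`,
`u.2 * N = a Z.2 - b Z.1`, `|a u| ≤ 2 nm u * z`.  So for `u, u'` in the strip (`|b| ≤ 2 w z`):
`|det u u'| ≤ 4 w (nm u + nm u')`, and for every `u`: `nm u * z ≤ |a u| + |b u|`.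

`good_step`.  Let `Λ` be the set of non-zero `u` in the strip killed by all `phi p`, `p ∈ K`.
If no `u ∈ Λ` has `8 w nm u < q`, take `Exc = K` (then `p q ≤ 2 y · 8 w nm u`).  Otherwise let
`u0 ∈ Λ` have minimal `nm` (`8 w nm u0 < q ≤ (2y)^|K|`, `y = 2^e`) and
`Exc = K ∪ {p ∈ pool e | phi p u0 = 0}`.  The primes of the second set divide
`0 < N(u0) ≤ 2 nm u0 ^2 < (2y)^(2|K|) ≤ y^(4|K|)` (`dvd_norm_of_phi`, `Finset.prod_primes_dvd`) and
are `≥ y`, so there are at most `4 |K|` of them.  Let `p ∈ pool e \ Exc` and `u ∈ Λ` with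
`phi p u = 0`.  If `q ≤ 8 w nm u` we are done.  Otherwise `|det u u0| ≤ 8 w nm u < q` and
`q ∣ det u u0` (`dvd_det_of_phi`), so `det u u0 = 0`.  Then `u = n • u0` with `n : ℤ`:
if `u0.1 ≠ 0` divide, `r = u - (u.1 / u0.1) • u0`, `r.1 = u.1 % u0.1`, `u0.1 • r = r.1 • u0`, so
`nm r < nm u0`, `|det r Z| ≤ |det u0 Z|`, `r` is killed by `K`, hence `r = 0` by minimality
(same with the second coordinate).  `phi p u = n * phi p u0 = 0` in the field `ZMod p` gives
`p ∣ n`, so `nm u ≥ p * nm u0` and `p q ≤ p * 16 w y nm u0 ≤ 16 w y nm u`.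

`good_class`.  Differences `u` of two distinct points of `S` are in `Λ`, so
`q ≤ 16 w y nm u`.  If `q < 64 w^2 y` use `S.card ≤ R`.  Otherwise `nm u ≥ 4 w` and
`|a u| ≥ (nm u - 2 w) z ≥ nm u * z / 2`, i.e. `q z ≤ 32 w y |a u|`: the integers
`32 w y (dot v Z + 4 R z) ∈ [0, 256 w y R z]` are `q z`-separated, so `v ↦ that / (q z)` is
injective on `S` and `(S.card - 1) q ≤ 256 w y R`.
-/

set_option autoImplicit false

namespace Crest.Agent.R2

open Finset

lemma lat_nm_pos {u : ℤ × ℤ} (hu : u ≠ 0) : 1 ≤ nm u :=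
  Nat.one_le_iff_ne_zero.2 fun h => hu (nm_eq_zero.1 h)

lemma lat_nm_cases (u : ℤ × ℤ) : (nm u : ℤ) = |u.1| ∨ (nm u : ℤ) = |u.2| := by
  unfold nm
  rcases max_choice u.1.natAbs u.2.natAbs with h | h
  · left; rw [h, Int.natCast_natAbs]
  · right; rw [h, Int.natCast_natAbs]

lemma lat_sq_le (u : ℤ × ℤ) : (nm u : ℤ) ^ 2 ≤ u.1 ^ 2 + u.2 ^ 2 := by
  rcases lat_nm_cases u with h | h <;> rw [h, sq_abs] <;> nlinarith [sq_nonneg u.1, sq_nonneg u.2]

lemma lat_le_two_sq (u : ℤ × ℤ) : u.1 ^ 2 + u.2 ^ 2 ≤ 2 * (nm u : ℤ) ^ 2 := by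
  have h1 := abs_fst_le u
  have h2 := abs_snd_le u
  have h3 : |u.1| ^ 2 ≤ (nm u : ℤ) ^ 2 := pow_le_pow_left₀ (abs_nonneg _) h1 2
  have h4 : |u.2| ^ 2 ≤ (nm u : ℤ) ^ 2 := pow_le_pow_left₀ (abs_nonneg _) h2 2
  rw [sq_abs] at h3 h4
  linarith

lemma lat_dot_le (u Z : ℤ × ℤ) : |dot u Z| ≤ 2 * nm u * nm Z := by
  have h1 : |u.1 * Z.1| ≤ nm u * nm Z := by
    rw [abs_mul]
    exact mul_le_mul (abs_fst_le u) (abs_fst_le Z) (abs_nonneg _) (Nat.cast_nonneg _)
  have h2 : |u.2 * Z.2| ≤ nm u * nm Z := by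
    rw [abs_mul]
    exact mul_le_mul (abs_snd_le u) (abs_snd_le Z) (abs_nonneg _) (Nat.cast_nonneg _)
  have := abs_add_le (u.1 * Z.1) (u.2 * Z.2)
  unfold dot
  linarith

lemma lat_det_strip {Z : ℤ × ℤ} (hZ : Z ≠ 0) {w : ℕ} {u u' : ℤ × ℤ}
    (hu : (det u Z).natAbs ≤ 2 * w * nm Z) (hu' : (det u' Z).natAbs ≤ 2 * w * nm Z) :
    (det u u').natAbs ≤ 4 * w * (nm u + nm u') := by
  have hz : (1 : ℤ) ≤ nm Z := by exact_mod_cast lat_nm_pos hZ
  have hN := lat_sq_le Z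
  have hb : |det u Z| ≤ 2 * w * nm Z := by rw [Int.abs_eq_natAbs]; exact_mod_cast hu
  have hb' : |det u' Z| ≤ 2 * w * nm Z := by rw [Int.abs_eq_natAbs]; exact_mod_cast hu'
  have e : det u u' * (Z.1 ^ 2 + Z.2 ^ 2) = dot u' Z * det u Z - dot u Z * det u' Z := by
    unfold det dot; ring
  have h1 : |dot u' Z * det u Z| ≤ (2 * nm u' * nm Z) * (2 * w * nm Z) := by
    rw [abs_mul]
    exact mul_le_mul (lat_dot_le _ _) hb (abs_nonneg _) (by positivity)
  have h2 : |dot u Z * det u' Z| ≤ (2 * nm u * nm Z) * (2 * w * nm Z) := by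
    rw [abs_mul]
    exact mul_le_mul (lat_dot_le _ _) hb' (abs_nonneg _) (by positivity)
  have h3 : |det u u'| * (Z.1 ^ 2 + Z.2 ^ 2) ≤ (4 * w * (nm u + nm u')) * (nm Z : ℤ) ^ 2 := by
    have h4 := abs_sub (dot u' Z * det u Z) (dot u Z * det u' Z)
    rw [← e, abs_mul, abs_of_nonneg (a := Z.1 ^ 2 + Z.2 ^ 2) (by positivity)] at h4
    linarith
  have h5 : |det u u'| * (nm Z : ℤ) ^ 2 ≤ (4 * w * (nm u + nm u')) * (nm Z : ℤ) ^ 2 :=
    (mul_le_mul_of_nonneg_left hN (abs_nonneg _)).trans h3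
  have h6 := le_of_mul_le_mul_right h5 (by positivity)
  rw [Int.abs_eq_natAbs] at h6
  exact_mod_cast h6

lemma lat_nm_mul_le {Z : ℤ × ℤ} (hZ : Z ≠ 0) (u : ℤ × ℤ) :
    (nm u : ℤ) * nm Z ≤ |dot u Z| + |det u Z| := by
  have hz : (1 : ℤ) ≤ nm Z := by exact_mod_cast lat_nm_pos hZ
  have hN := lat_sq_le Z
  have key : ∀ x s t : ℤ, |s| ≤ nm Z → |t| ≤ nm Z →
      x * (Z.1 ^ 2 + Z.2 ^ 2) = dot u Z * s + det u Z * t →
      |x| * nm Z ≤ |dot u Z| + |det u Z| := by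
    intro x s t hs ht e
    have h1 := abs_add_le (dot u Z * s) (det u Z * t)
    rw [← e, abs_mul, abs_mul, abs_mul,
      abs_of_nonneg (a := Z.1 ^ 2 + Z.2 ^ 2) (by positivity)] at h1
    have h2 := mul_le_mul_of_nonneg_left hs (abs_nonneg (dot u Z))
    have h3 := mul_le_mul_of_nonneg_left ht (abs_nonneg (det u Z))
    have h4 := mul_le_mul_of_nonneg_left hN (abs_nonneg x)
    have h5 : (|x| * nm Z) * nm Z ≤ (|dot u Z| + |det u Z|) * nm Z := by nlinarith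
    exact le_of_mul_le_mul_right h5 (by omega)
  rcases lat_nm_cases u with h | h <;> rw [h]
  · exact key _ Z.1 Z.2 (abs_fst_le Z) (abs_snd_le Z) (by unfold det dot; ring)
  · exact key _ Z.2 (-Z.1) (abs_snd_le Z) (by rw [abs_neg]; exact abs_fst_le Z)
      (by unfold det dot; ring)

lemma lat_nm_zsmul (n : ℤ) (u : ℤ × ℤ) : nm (n • u) = n.natAbs * nm u := by
  simp only [nm, Prod.smul_fst, Prod.smul_snd, smul_eq_mul, Int.natAbs_mul]
  exact (Nat.mul_max_mul_left _ _ _)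

lemma lat_det_zsmul (n : ℤ) (u Z : ℤ × ℤ) : det (n • u) Z = n * det u Z := by
  simp only [det, Prod.smul_fst, Prod.smul_snd, smul_eq_mul]; ring

lemma lat_div {u u0 : ℤ × ℤ} (h0 : u0 ≠ 0) (hdet : det u u0 = 0) :
    ∃ n s t : ℤ, s.natAbs < t.natAbs ∧ t • (u - n • u0) = s • u0 := by
  unfold det at hdet
  by_cases h1 : u0.1 = 0
  · have h2 : u0.2 ≠ 0 := fun h2 => h0 (Prod.ext h1 h2)
    refine ⟨u.2 / u0.2, u.2 % u0.2, u0.2, Int.natAbs_lt_natAbs_of_nonneg_of_lt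
      (Int.emod_nonneg _ h2) (Int.emod_lt_abs _ h2) |>.trans_eq (Int.natAbs_abs _), ?_⟩
    have e := Int.emod_def u.2 u0.2
    ext
    · simp only [Prod.smul_fst, Prod.fst_sub, smul_eq_mul]
      rw [e]; linear_combination hdet
    · simp only [Prod.smul_snd, Prod.snd_sub, smul_eq_mul]
      rw [e]; ring
  · refine ⟨u.1 / u0.1, u.1 % u0.1, u0.1, Int.natAbs_lt_natAbs_of_nonneg_of_lt
      (Int.emod_nonneg _ h1) (Int.emod_lt_abs _ h1) |>.trans_eq (Int.natAbs_abs _), ?_⟩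
    have e := Int.emod_def u.1 u0.1
    ext
    · simp only [Prod.smul_fst, Prod.fst_sub, smul_eq_mul]
      rw [e]; ring
    · simp only [Prod.smul_snd, Prod.snd_sub, smul_eq_mul]
      rw [e]; linear_combination -hdet

lemma lat_prod_dvd {K : Finset ℕ} (hK : ∀ p ∈ K, p.Prime) {n : ℤ} (h : ∀ p ∈ K, (p : ℤ) ∣ n) :
    ∏ p ∈ K, p ∣ n.natAbs :=
  Finset.prod_primes_dvd _ (fun p hp => (hK p hp).prime) fun p hp => Int.natCast_dvd.1 (h p hp)

lemma lat_sep {α : Type*} (S : Finset α) (g : α → ℤ) {M L : ℤ} (hM : 0 < M) (hL : 0 ≤ L)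
    (h0 : ∀ v ∈ S, 0 ≤ g v ∧ g v ≤ L)
    (hsep : ∀ v ∈ S, ∀ v' ∈ S, v ≠ v' → M ≤ |g v - g v'|) : S.card * M ≤ L + M := by
  have h1 : S.card ≤ (Finset.Icc 0 (L / M)).card := by
    refine Finset.card_le_card_of_injOn (fun v => g v / M) (fun v hv => ?_) ?_
    · have := h0 v hv
      simp only [Finset.coe_Icc, Set.mem_Icc]
      exact ⟨Int.ediv_nonneg this.1 hM.le, Int.ediv_le_ediv hM this.2⟩
    · intro v hv v' hv' e
      by_contra hne
      have h2 := hsep v hv v' hv' hne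
      have e1 := Int.emod_def (g v) M
      have e2 := Int.emod_def (g v') M
      have a1 := Int.emod_nonneg (g v) hM.ne'
      have a2 := Int.emod_nonneg (g v') hM.ne'
      have b1 := Int.emod_lt_of_pos (g v) hM
      have b2 := Int.emod_lt_of_pos (g v') hM
      simp only at e
      rw [e] at e1
      have : |g v - g v'| < M := by rw [abs_lt]; constructor <;> linarith
      linarith
  have h2 : 0 ≤ L / M := Int.ediv_nonneg hL hM.le
  have h3 : (S.card : ℤ) ≤ L / M + 1 := by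
    rw [Int.card_Icc] at h1
    omega
  have h4 := Int.ediv_mul_le L hM.ne'
  nlinarith

theorem good_empty (Z : ℤ × ℤ) (w y : ℕ) (hw : 1 ≤ w) (hy : 1 ≤ y) : Good Z w y ∅ := by
  intro u hu _ _
  rw [Finset.prod_empty]
  have := lat_nm_pos hu
  exact Nat.one_le_iff_ne_zero.2 (by positivity)

theorem good_step (Z : ℤ × ℤ) (hZ : Z ≠ 0) (w : ℕ) (hw : 1 ≤ w) (e : ℕ) (he : 1 ≤ e)
    (K : Finset ℕ) (hKp : K ⊆ pool e) (hK : Good Z w (2 ^ e) K) :
    ∃ Exc : Finset ℕ, Exc.card ≤ 5 * K.card ∧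
      ∀ p ∈ pool e, p ∉ Exc → p ∉ K ∧ Good Z w (2 ^ e) (insert p K) := by
  classical
  have hprime : ∀ p ∈ K, p.Prime := fun p hp => (mem_pool.1 (hKp hp)).2.1
  -- the easy estimate
  have easy : ∀ p ∈ pool e, p ∉ K → ∀ u : ℤ × ℤ, ∏ p ∈ K, p ≤ 8 * w * nm u →
      ∏ p ∈ insert p K, p ≤ 16 * w * 2 ^ e * nm u := by
    intro p hp hpK u hu
    rw [Finset.prod_insert hpK]
    have h1 := (mem_pool.1 hp).1.2
    calc p * ∏ p ∈ K, p ≤ 2 ^ (e + 1) * (8 * w * nm u) := Nat.mul_le_mul h1.le hu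
      _ = _ := by ring
  by_cases hex : ∃ u : ℤ × ℤ, (u ≠ 0 ∧ (det u Z).natAbs ≤ 2 * w * nm Z ∧
      ∀ p ∈ K, phi p u = 0) ∧ 8 * w * nm u < ∏ p ∈ K, p
  swap
  · refine ⟨K, by omega, fun p hp hpK => ⟨hpK, fun u hu hs hk => easy p hp hpK u ?_⟩⟩
    by_contra hlt
    exact hex ⟨u, ⟨hu, hs, fun q hq => hk q (Finset.mem_insert_of_mem hq)⟩, not_le.1 hlt⟩
  obtain ⟨u1, hu1, hlt1⟩ := hex
  obtain ⟨u0, ⟨h0, hs0, hk0⟩, hmin⟩ := exists_minimalFor_of_wellFoundedLT
    (fun u : ℤ × ℤ => u ≠ 0 ∧ (det u Z).natAbs ≤ 2 * w * nm Z ∧ ∀ p ∈ K, phi p u = 0) nm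
    ⟨u1, hu1⟩
  have hmin' : ∀ u : ℤ × ℤ, u ≠ 0 → (det u Z).natAbs ≤ 2 * w * nm Z → (∀ p ∈ K, phi p u = 0) →
      nm u0 ≤ nm u := by
    intro u a b c
    by_contra hlt
    have := hmin ⟨a, b, c⟩ (not_le.1 hlt).le
    omega
  have hlt0 : 8 * w * nm u0 < ∏ p ∈ K, p :=
    (Nat.mul_le_mul_left _ (hmin' u1 hu1.1 hu1.2.1 hu1.2.2)).trans_lt hlt1
  refine ⟨K ∪ (pool e).filter (fun p => phi p u0 = 0), ?_, fun p hp hpE => ?_⟩
  · have hF : ((pool e).filter (fun p => phi p u0 = 0)).card ≤ 4 * K.card := by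
      set F := (pool e).filter (fun p => phi p u0 = 0) with hFdef
      have hy : 2 ≤ 2 ^ e := by
        calc 2 = 2 ^ 1 := rfl
          _ ≤ 2 ^ e := Nat.pow_le_pow_right (by norm_num) he
      have h1 : (2 ^ e) ^ F.card ≤ ∏ p ∈ F, p :=
        Finset.pow_card_le_prod _ _ _ fun p hp =>
          (mem_pool.1 (Finset.mem_filter.1 hp).1).1.1
      have h2 : ∏ p ∈ F, p ∣ (u0.1 ^ 2 + u0.2 ^ 2).natAbs :=
        lat_prod_dvd (fun p hp => (mem_pool.1 (Finset.mem_filter.1 hp).1).2.1) fun p hp =>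
          dvd_norm_of_phi (mem_pool.1 (Finset.mem_filter.1 hp).1).2.1
            (mem_pool.1 (Finset.mem_filter.1 hp).1).2.2 (Finset.mem_filter.1 hp).2
      have hn0 : (1 : ℤ) ≤ nm u0 := by exact_mod_cast lat_nm_pos h0
      have h3 : (u0.1 ^ 2 + u0.2 ^ 2).natAbs ≠ 0 := by
        have := lat_sq_le u0
        rw [Int.natAbs_ne_zero]
        nlinarith
      have h4 : (u0.1 ^ 2 + u0.2 ^ 2).natAbs ≤ 2 * nm u0 ^ 2 := by
        have := lat_le_two_sq u0
        rw [← abs_of_nonneg (a := u0.1 ^ 2 + u0.2 ^ 2) (by positivity), Int.abs_eq_natAbs] at this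
        exact_mod_cast this
      have h5 : ∏ p ∈ K, p ≤ (2 ^ (e + 1)) ^ K.card :=
        Finset.prod_le_pow_card _ _ _ fun p hp => (mem_pool.1 (hKp hp)).1.2.le
      have h6 : 2 * nm u0 ^ 2 ≤ (∏ p ∈ K, p) ^ 2 := by
        calc 2 * nm u0 ^ 2 ≤ (8 * w) ^ 2 * nm u0 ^ 2 := by
              refine Nat.mul_le_mul_right _ ?_
              nlinarith
          _ = (8 * w * nm u0) ^ 2 := by ring
          _ ≤ _ := Nat.pow_le_pow_left hlt0.le 2
      have h7 : (2 ^ e) ^ F.card ≤ (2 ^ e) ^ (4 * K.card) := by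
        calc (2 ^ e) ^ F.card ≤ ∏ p ∈ F, p := h1
          _ ≤ _ := Nat.le_of_dvd (Nat.pos_of_ne_zero h3) h2
          _ ≤ _ := h4
          _ ≤ _ := h6
          _ ≤ ((2 ^ (e + 1)) ^ K.card) ^ 2 := Nat.pow_le_pow_left h5 2
          _ ≤ (((2 ^ e) ^ 2) ^ K.card) ^ 2 := by
              refine Nat.pow_le_pow_left (Nat.pow_le_pow_left ?_ _) 2
              rw [← pow_mul]
              exact Nat.pow_le_pow_right (by norm_num) (by omega)
          _ = _ := by rw [← pow_mul, ← pow_mul]; congr 1; ring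
      exact (Nat.pow_le_pow_iff_right (by omega)).1 h7
    have := Finset.card_union_le K ((pool e).filter (fun p => phi p u0 = 0))
    omega
  · rw [Finset.mem_union, not_or] at hpE
    obtain ⟨hpK, hpF⟩ := hpE
    have hp0 : phi p u0 ≠ 0 := fun h => hpF (Finset.mem_filter.2 ⟨hp, h⟩)
    have hpp := (mem_pool.1 hp).2.1
    refine ⟨hpK, fun u hu hs hk => ?_⟩
    have hkK : ∀ q ∈ K, phi q u = 0 := fun q hq => hk q (Finset.mem_insert_of_mem hq)
    by_cases hbig : ∏ p ∈ K, p ≤ 8 * w * nm u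
    · exact easy p hp hpK u hbig
    have hle := hmin' u hu hs hkK
    have hdet : det u u0 = 0 := by
      have h1 := lat_det_strip hZ hs hs0
      have h2 : ∏ p ∈ K, p ∣ (det u u0).natAbs :=
        lat_prod_dvd hprime fun q hq => dvd_det_of_phi (hkK q hq) (hk0 q hq)
      have h3 : 4 * w * (nm u + nm u0) ≤ 8 * w * nm u := by nlinarith
      exact Int.natAbs_eq_zero.1 (Nat.eq_zero_of_dvd_of_lt h2 (by omega))
    obtain ⟨n, s, t, hst, hr⟩ := lat_div h0 hdet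
    have hr0 : u - n • u0 = 0 := by
      by_contra hne
      have h1 := congrArg nm hr
      rw [lat_nm_zsmul, lat_nm_zsmul] at h1
      have h2 := congrArg (fun v => (det v Z).natAbs) hr
      simp only [lat_det_zsmul, Int.natAbs_mul] at h2
      have h3 : (det (u - n • u0) Z).natAbs ≤ (det u0 Z).natAbs := by
        have : t.natAbs * (det (u - n • u0) Z).natAbs ≤ t.natAbs * (det u0 Z).natAbs := by
          rw [h2]; exact Nat.mul_le_mul_right _ hst.le
        exact Nat.le_of_mul_le_mul_left this (by omega)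
      have h4 := hmin' _ hne (h3.trans hs0) fun q hq => by
        rw [phi_sub, phi_zsmul, hkK q hq, hk0 q hq]; simp
      have h5 := lat_nm_pos h0
      have h6 : t.natAbs * nm u0 ≤ t.natAbs * nm (u - n • u0) := Nat.mul_le_mul_left _ h4
      have h7 : s.natAbs * nm u0 < t.natAbs * nm u0 := Nat.mul_lt_mul_of_pos_right hst h5
      omega
    have hun : u = n • u0 := sub_eq_zero.1 hr0
    have hn0 : n ≠ 0 := by rintro rfl; exact hu (by simpa using hun)
    have hpn : p ≤ n.natAbs := by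
      have := Fact.mk hpp
      have h1 := hk p (Finset.mem_insert_self _ _)
      rw [hun, phi_zsmul, mul_eq_zero] at h1
      have h2 := (ZMod.intCast_zmod_eq_zero_iff_dvd n p).1 (h1.resolve_right hp0)
      exact Nat.le_of_dvd (Int.natAbs_pos.2 hn0) (Int.natCast_dvd.1 h2)
    rw [Finset.prod_insert hpK, hun, lat_nm_zsmul]
    calc p * ∏ p ∈ K, p ≤ n.natAbs * (16 * w * 2 ^ e * nm u0) :=
          Nat.mul_le_mul hpn (hK u0 h0 hs0 hk0)
      _ = _ := by ring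

theorem good_class (Z : ℤ × ℤ) (hZ : Z ≠ 0) (w y : ℕ) (hw : 1 ≤ w) (hy : 1 ≤ y) (K : Finset ℕ)
    (hK : Good Z w y K) (R : ℕ) (hq : ∏ p ∈ K, p ≤ R) (S : Finset (ℤ × ℤ)) (hcard : S.card ≤ R)
    (hS : ∀ v ∈ S, nm v ≤ 2 * R ∧ (det v Z).natAbs ≤ w * nm Z)
    (hcl : ∀ v ∈ S, ∀ v' ∈ S, ∀ p ∈ K, phi p v = phi p v') :
    S.card * ∏ p ∈ K, p ≤ 257 * w ^ 2 * y * R := by
  set q := ∏ p ∈ K, p with hqdef
  by_cases hsmall : q < 64 * w ^ 2 * y
  · calc S.card * q ≤ R * (64 * w ^ 2 * y) := Nat.mul_le_mul hcard hsmall.le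
      _ = 64 * (w ^ 2 * y * R) := by ring
      _ ≤ 257 * (w ^ 2 * y * R) := Nat.mul_le_mul_right _ (by norm_num)
      _ = _ := by ring
  rw [not_lt] at hsmall
  have hz : (1 : ℤ) ≤ nm Z := by exact_mod_cast lat_nm_pos hZ
  have hw' : (1 : ℤ) ≤ w := by exact_mod_cast hw
  have hy' : (1 : ℤ) ≤ y := by exact_mod_cast hy
  have hq0 : 0 < q := lt_of_lt_of_le (by positivity) hsmall
  have key := lat_sep S (fun v => 32 * w * y * (dot v Z + 4 * R * nm Z))
    (M := q * nm Z) (L := 256 * w * y * R * nm Z) (by positivity) (by positivity)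
    (fun v hv => by
      have h1 := lat_dot_le v Z
      have h2 : (nm v : ℤ) ≤ 2 * R := by exact_mod_cast (hS v hv).1
      have h3 : 2 * (nm v : ℤ) * nm Z ≤ 4 * R * nm Z := by nlinarith
      have h4 := abs_le.1 (h1.trans h3)
      have h5 : (0 : ℤ) ≤ 32 * w * y := by positivity
      constructor
      · exact mul_nonneg h5 (by linarith [h4.1])
      · calc (32 * w * y * (dot v Z + 4 * R * nm Z) : ℤ) ≤ 32 * w * y * (8 * R * nm Z) :=
              mul_le_mul_of_nonneg_left (by linarith [h4.2]) h5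
          _ = _ := by ring)
    (fun v hv v' hv' hne => by
      have hu : v - v' ≠ 0 := sub_ne_zero.2 hne
      have hd : (det (v - v') Z).natAbs ≤ 2 * w * nm Z := by
        have e : det (v - v') Z = det v Z - det v' Z := by
          simp only [det, Prod.fst_sub, Prod.snd_sub]; ring
        have h1 := Int.natAbs_sub_le (det v Z) (det v' Z)
        have h2 := (hS v hv).2
        have h3 := (hS v' hv').2
        rw [e, mul_assoc]
        omega
      have h1 := hK _ hu hd fun p hp => by rw [phi_sub, hcl v hv v' hv' p hp, sub_self]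
      have h2 : 4 * w ≤ nm (v - v') := by
        have h3 : (16 * w * y) * (4 * w) ≤ (16 * w * y) * nm (v - v') := by
          calc (16 * w * y) * (4 * w) = 64 * w ^ 2 * y := by ring
            _ ≤ _ := hsmall.trans h1
        exact Nat.le_of_mul_le_mul_left h3 (by positivity)
      have h3 := lat_nm_mul_le hZ (v - v')
      have hd' : |det (v - v') Z| ≤ 2 * w * nm Z := by
        rw [Int.abs_eq_natAbs]; exact_mod_cast hd
      have h2' : (4 * w : ℤ) ≤ nm (v - v') := by exact_mod_cast h2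
      have h1' : (q : ℤ) ≤ 16 * w * y * nm (v - v') := by exact_mod_cast h1
      have h4 : (nm (v - v') : ℤ) * nm Z ≤ 2 * |dot (v - v') Z| := by nlinarith
      have e : (32 * w * y * (dot v Z + 4 * R * nm Z) -
          32 * w * y * (dot v' Z + 4 * R * nm Z) : ℤ) = 32 * w * y * dot (v - v') Z := by
        simp only [dot, Prod.fst_sub, Prod.snd_sub]; ring
      rw [e, abs_mul, abs_of_nonneg (a := (32 * w * y : ℤ)) (by positivity)]
      calc (q : ℤ) * nm Z ≤ 16 * w * y * nm (v - v') * nm Z :=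
            mul_le_mul_of_nonneg_right h1' (by positivity)
        _ = 16 * w * y * (nm (v - v') * nm Z) := by ring
        _ ≤ 16 * w * y * (2 * |dot (v - v') Z|) :=
            mul_le_mul_of_nonneg_left h4 (by positivity)
        _ = _ := by ring)
  have h1 : ((S.card : ℤ) * q) * nm Z ≤ (256 * w * y * R + q) * nm Z := by linarith
  have h2 := le_of_mul_le_mul_right h1 (by omega)
  have h3 : S.card * q ≤ 256 * w * y * R + q := by exact_mod_cast h2
  have h4 : w * y * R ≤ w ^ 2 * y * R :=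
    Nat.mul_le_mul_right _ (Nat.mul_le_mul_right _ (by nlinarith))
  have h5 : R ≤ w ^ 2 * y * R := Nat.le_mul_of_pos_left _ (by positivity)
  calc S.card * q ≤ 256 * (w * y * R) + R := by linarith
    _ ≤ 256 * (w ^ 2 * y * R) + w ^ 2 * y * R := by omega
    _ = _ := by ring

end Crest.Agent.R2
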