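import Crest.Agent.R2.Res
import Crest.Agent.R2.Lattice

/-!
TASK (rid 2) Bwalk: distinct vectors of a thin strip are almost equidistributed modulo `M`
random primes of a dyadic block.

Let `ν = unif (range ℓ)`, `Ψ T = ν.H (fun k => Y T (v k)) + log (257 w^2 2^e R / ℓ)`; `Ψ` is
monotone in `T` (`H_le_of_det`, `Y_eq_iff`).  If `K ⊆ pool e` is `Good Z w (2^e)` and
`K.card ≤ M` then `∏ K ≤ 2^((e+1) M) ≤ R` and `∑_{p ∈ K} log p ≤ Ψ K`: for `k < ℓ` the class
`{k' < ℓ | Y K (v k') = Y K (v k)}` maps injectively by `v` onto a set `S` as in `good_class`,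
so its probability (`pr_def`, `E_unif`) is at most `θ = 257 w^2 2^e R / (ℓ ∏ K)`, and
`le_H_of_pr_le` applies.  Now prove by induction on `n`, for all good `K ⊆ pool e` with
`K.card + n ≤ M`:
`∑_{K} log p + n ℒ - n (5 M / m) lam ≤ (iid Q n).E (fun l => Ψ (K ∪ l.toFinset))`,
`m = (pool e).card`, `lam = (e+1) log 2`.  Step (`E_iid_succ`, `good_step`): for a new prime
`p ∉ Exc` use the hypothesis for `insert p K`, for `p ∈ Exc` use it for `K` and monotonicity,
losing `log p ≤ lam` (`log_le_of_mem_pool`); `Q.pr (· ∈ Exc) ≤ 5 M / m`.  Start from `K = ∅`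
(`good_empty`).
-/

set_option autoImplicit false

namespace Crest.Agent.R2

open Finset Real

theorem bwalk_base (Z : ℤ × ℤ) (hZ : Z ≠ 0) (w : ℕ) (hw : 1 ≤ w) (e : ℕ)
    (R M ℓ : ℕ) (hℓ : (range ℓ).Nonempty) (hℓR : ℓ ≤ R)
    (hM : 2 ^ ((e + 1) * M) ≤ R) (v : ℕ → ℤ × ℤ)
    (hv : ∀ k < ℓ, nm (v k) ≤ 2 * R ∧ (det (v k) Z).natAbs ≤ w * nm Z)
    (hinj : ∀ k < ℓ, ∀ k' < ℓ, v k = v k' → k = k') (K : Finset ℕ) (hKp : K ⊆ pool e)
    (hK : Good Z w (2 ^ e) K) (hKM : K.card ≤ M) :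
    ∑ p ∈ K, log p ≤ (FD.unif (range ℓ) hℓ).H (fun k => Y K (v k)) +
      log (257 * w ^ 2 * 2 ^ e * R / ℓ) := by
  classical
  have hℓ0 : 0 < ℓ := by
    obtain ⟨k, hk⟩ := hℓ
    have := mem_range.1 hk
    omega
  have hq : ∏ p ∈ K, p ≤ R := by
    calc ∏ p ∈ K, p ≤ (2 ^ (e + 1)) ^ K.card :=
          prod_le_pow_card _ _ _ fun p hp => (mem_pool.1 (hKp hp)).1.2.le
      _ ≤ (2 ^ (e + 1)) ^ M := Nat.pow_le_pow_right (by positivity) hKM
      _ = 2 ^ ((e + 1) * M) := by rw [← pow_mul]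
      _ ≤ R := hM
  have hp0 : ∀ p ∈ K, (0 : ℝ) < p := fun p hp => by
    exact_mod_cast (mem_pool.1 (hKp hp)).2.1.pos
  have hq0 : (0 : ℝ) < ∏ p ∈ K, (p : ℝ) := prod_pos hp0
  have hℓr : (0 : ℝ) < ℓ := by exact_mod_cast hℓ0
  have hRr : (0 : ℝ) < R := by exact_mod_cast lt_of_lt_of_le hℓ0 hℓR
  have hwr : (0 : ℝ) < w := by exact_mod_cast hw
  set A : ℝ := 257 * w ^ 2 * 2 ^ e * R / ℓ with hA
  have hA0 : 0 < A := by positivity
  have key := (FD.unif (range ℓ) hℓ).le_H_of_pr_le (fun k => Y K (v k))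
    (θ := A / ∏ p ∈ K, (p : ℝ)) (FD.AE_unif fun k _ => by
      rw [FD.pr_def, FD.E_unif, card_range, sum_boole]
      set F := (range ℓ).filter (fun k' => Y K (v k') = Y K (v k)) with hF
      have hFc : (F.image v).card = F.card := card_image_of_injOn fun a ha b hb hab =>
        hinj a (mem_range.1 (mem_filter.1 ha).1) b (mem_range.1 (mem_filter.1 hb).1) hab
      have hFℓ : F.card ≤ ℓ := (card_filter_le _ _).trans (card_range ℓ).le
      have h1 := good_class Z hZ w (2 ^ e) hw Nat.one_le_two_pow K hK R hq (F.image v)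
        (by rw [hFc]; exact hFℓ.trans hℓR)
        (fun u hu => by
          obtain ⟨a, ha, rfl⟩ := mem_image.1 hu
          exact hv a (mem_range.1 (mem_filter.1 ha).1))
        (fun u hu u' hu' => by
          obtain ⟨a, ha, rfl⟩ := mem_image.1 hu
          obtain ⟨b, hb, rfl⟩ := mem_image.1 hu'
          exact Y_eq_iff.1 ((mem_filter.1 ha).2.trans (mem_filter.1 hb).2.symm))
      rw [hFc] at h1
      have h2 : (F.card : ℝ) * ∏ p ∈ K, (p : ℝ) ≤ 257 * w ^ 2 * 2 ^ e * R := by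
        rw [← Nat.cast_prod]
        exact_mod_cast h1
      rw [le_div_iff₀ hq0, hA, div_mul_eq_mul_div]
      exact div_le_div_of_nonneg_right h2 hℓr.le)
  rw [log_div hA0.ne' hq0.ne', log_prod (fun p hp => (hp0 p hp).ne')] at key
  linarith

theorem bwalk_ind (Z : ℤ × ℤ) (hZ : Z ≠ 0) (w : ℕ) (hw : 1 ≤ w) (e : ℕ) (he : 1 ≤ e)
    (hne : (pool e).Nonempty) (M : ℕ) (Ψ : Finset ℕ → ℝ) (hmono : ∀ S T, S ⊆ T → Ψ S ≤ Ψ T)
    (hbase : ∀ K ⊆ pool e, Good Z w (2 ^ e) K → K.card ≤ M → ∑ p ∈ K, log p ≤ Ψ K) (n : ℕ) :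
    ∀ K ⊆ pool e, Good Z w (2 ^ e) K → K.card + n ≤ M →
      ∑ p ∈ K, log p + n * LL e hne - n * (5 * M / (pool e).card * ((e + 1) * log 2)) ≤
        (FD.iid (QQ e hne) n).E (fun l => Ψ (K ∪ l.toFinset)) := by
  classical
  induction n with
  | zero =>
    intro K hKp hK hc
    simpa using hbase K hKp hK (by omega)
  | succ n ih =>
    intro K hKp hK hc
    obtain ⟨Exc, hExc, hgood⟩ := good_step Z hZ w hw e he K hKp hK
    set lam : ℝ := (e + 1) * log 2 with hlam
    have hlam0 : 0 ≤ lam := mul_nonneg (by positivity) (log_nonneg (by norm_num))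
    set c : ℝ := 5 * M / (pool e).card * lam with hc'
    rw [FD.E_iid_succ]
    have h1 : (QQ e hne).E (fun p => (∑ p ∈ K, log p + n * LL e hne - n * c) + log p -
        (if p ∈ Exc then 1 else 0) * lam) ≤
        (QQ e hne).E (fun a => (FD.iid (QQ e hne) n).E
          (fun l => Ψ (K ∪ (a :: l).toFinset))) := by
      refine FD.E_mono_ae ((QQ_ae e hne).mono fun p hp => ?_)
      by_cases hpE : p ∈ Exc
      · have h2 := ih K hKp hK (by omega)
        have h3 := log_le_of_mem_pool hp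
        have h4 : (FD.iid (QQ e hne) n).E (fun l => Ψ (K ∪ l.toFinset)) ≤
            (FD.iid (QQ e hne) n).E (fun l => Ψ (K ∪ (p :: l).toFinset)) :=
          FD.E_mono fun l => hmono _ _ (by
            rw [List.toFinset_cons]
            exact union_subset_union_right (subset_insert _ _))
        rw [if_pos hpE]
        linarith
      · obtain ⟨hpK, hg⟩ := hgood p hp hpE
        have h2 := ih (insert p K) (insert_subset hp hKp) hg
          (by rw [card_insert_of_notMem hpK]; omega)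
        rw [sum_insert hpK] at h2
        have h4 : (fun l : List ℕ => Ψ (K ∪ (p :: l).toFinset)) =
            fun l => Ψ (insert p K ∪ l.toFinset) := by
          funext l
          rw [List.toFinset_cons, union_insert, insert_union]
        rw [if_neg hpE, h4]
        linarith
    rw [FD.E_sub, FD.E_add, FD.E_const, FD.E_mul_const] at h1
    have h5 : (QQ e hne).E (fun p => if p ∈ Exc then (1 : ℝ) else 0) ≤ 5 * M / (pool e).card := by
      unfold QQ
      rw [FD.E_unif, sum_boole]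
      refine div_le_div_of_nonneg_right ?_ (by positivity)
      have h6 : ((pool e).filter (fun p => p ∈ Exc)).card ≤ 5 * M :=
        (card_le_card fun p hp => (mem_filter.1 hp).2).trans (hExc.trans (by omega))
      exact_mod_cast h6
    have h7 := mul_le_mul_of_nonneg_right h5 hlam0
    have h8 : (QQ e hne).E (fun p => log p) = LL e hne := rfl
    rw [h8] at h1
    push_cast
    linarith

theorem bwalk (Z : ℤ × ℤ) (hZ : Z ≠ 0) (w : ℕ) (hw : 1 ≤ w) (e : ℕ) (he : 1 ≤ e)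
    (hne : (pool e).Nonempty) (R M ℓ : ℕ) (hℓ : (range ℓ).Nonempty) (hℓR : ℓ ≤ R)
    (hM : 2 ^ ((e + 1) * M) ≤ R) (v : ℕ → ℤ × ℤ)
    (hv : ∀ k < ℓ, nm (v k) ≤ 2 * R ∧ (det (v k) Z).natAbs ≤ w * nm Z)
    (hinj : ∀ k < ℓ, ∀ k' < ℓ, v k = v k' → k = k') :
    M * LL e hne - (log (257 * w ^ 2 * 2 ^ e * R / ℓ) +
        5 * M ^ 2 / (pool e).card * ((e + 1) * log 2)) ≤
      (FD.iid (QQ e hne) M).E
        (fun l => (FD.unif (range ℓ) hℓ).H (fun k => Y l.toFinset (v k))) := by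
  have h := bwalk_ind Z hZ w hw e he hne M
    (fun T => (FD.unif (range ℓ) hℓ).H (fun k => Y T (v k)) + log (257 * w ^ 2 * 2 ^ e * R / ℓ))
    (fun S T hST => add_le_add_left (FD.H_le_of_det fun a a' h => by
      rw [Y_eq_iff] at h ⊢
      exact fun p hp => h p (hST hp)) _)
    (fun K hKp hK hc => bwalk_base Z hZ w hw e R M ℓ hℓ hℓR hM v hv hinj K hKp hK hc) M ∅
    (empty_subset _) (good_empty Z w _ hw Nat.one_le_two_pow) (by simp)
  simp only [sum_empty, empty_union, FD.E_add, FD.E_const] at h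
  have e1 : (M : ℝ) * (5 * M / (pool e).card * ((e + 1) * log 2)) =
      5 * M ^ 2 / (pool e).card * ((e + 1) * log 2) := by ring
  linarith

end Crest.Agent.R2
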