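import Crest.Agent.R2.Defs

/-!
TASK (rid 2) Chord: many distinct differences of an injective bounded-step walk in a thin strip.

**Step 1 (discrete Poincaré–Miranda, `pm`).**  `f g : ℕ → ℕ → Bool`; put
`ι b = ∑ a < A, ([g (a+1) b] - [g a b]) * [f a b]` (integers, `[x] = if x then 1 else 0`).
`ι 0 = 0`, `ι B = [g A B] - [g 0 B] = 1`, so `ι (b+1) ≠ ι b` for some `b < B`.
With `τ a = -([g a (b+1)] - [g a b]) * [f a b]` one has `τ 0 = τ A = 0`, hence
`ι (b+1) - ι b = ∑ a < A, κ a`,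
`κ a = (g11 - g01) f01 - (g10 - g00) f00 - (g11 - g10) f10 + (g01 - g00) f00`
(`gij = [g (a+i) (b+j)]`), and `κ a = 0` as soon as `f` or `g` is constant on the cell
(case check on 8 booleans).

**Step 2 (`chord`).**  Let `n ≥ 1` be the first `n` with `R ≤ nm (X (c+n) - X c)` (it exists and
`n ≤ (2R-1)^2 ≤ 4R^2`: the `n` points `X (c+i) - X c`, `i < n`, are distinct and lie in
`box (R-1)`), `Z = X (c+n) - X c`, `z = nm Z ≥ R`, `N = dot Z Z ≥ z^2`.
Periodic extension `Y i = X (c + i % n) + (i / n) • Z`; its steps are still `≤ D`.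
`v i = det (Y i) Z` is `n`-periodic; take `b0 ∈ [2n,3n)` maximising `v` and `b1 ∈ [3n,4n)`
minimising `v`.  For `k < R/(18 D)+1` put `τ = k * 9 D z` (`0 ≤ τ ≤ R z / 2 < N`),
`F a b = v a - v (b0+b)`, `G a b = dot (Y a - Y (b0+b)) Z - τ`, `A = 7 n`, `B = b1 - b0 > 0`,
`f a b = (b = B ∨ 0 < F a b)`, `g a b = (0 < G a b)`.
Since `|dot (X (c+i) - X c) Z| ≤ 2 R z ≤ 2 N` for `i < n`, `G 0 b ≤ 0` and `G A b > 0`
for `b ≤ B`; `F a 0 ≤ 0 ≤ F a B`.  In the cell given by `pm` both `F` and `G` take a value `≥ 0`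
and a value `≤ 0`, one move changes `F`, `G` by at most `2 D z`, so at the corner
`|F a b|, |G a b| ≤ 4 D z`.  Take `a k = c + a % n`, `b k = c + (b0+b) % n`; the difference
`Dk = X (a k) - X (b k)` differs from `Y a - Y (b0+b)` by a multiple of `Z`, so
`det Dk Z = F a b` and `dot Dk Z ≡ τ_k + G_k (mod N)`.  If `Dk = Dk'`, `k ≠ k'` (then `18 D ≤ R`),
`N` divides `τ_k - τ_k' + G_k - G_k'` whose absolute value lies in
`[D z, R z / 2 + 8 D z] ⊂ (0, N)`: contradiction.
-/

set_option autoImplicit false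

namespace Crest.Agent.R2

open Finset

/-- integer value of a boolean -/
def chord_i (x : Bool) : ℤ := if x then 1 else 0

theorem chord_kappa (f00 f10 f01 f11 g00 g10 g01 g11 : Bool)
    (h : (f10 = f00 ∧ f01 = f00 ∧ f11 = f00) ∨ (g10 = g00 ∧ g01 = g00 ∧ g11 = g00)) :
    (chord_i g11 - chord_i g01) * chord_i f01 - (chord_i g10 - chord_i g00) * chord_i f00 =
      (chord_i g11 - chord_i g10) * chord_i f10 - (chord_i g01 - chord_i g00) * chord_i f00 := by
  rcases h with ⟨rfl, rfl, -⟩ | ⟨rfl, rfl, rfl⟩ <;> ring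

theorem pm (A B : ℕ) (f g : ℕ → ℕ → Bool) (hg0 : ∀ b ≤ B, g 0 b = false)
    (hgA : ∀ b ≤ B, g A b = true) (hf0 : ∀ a ≤ A, f a 0 = false) (hfB : ∀ a ≤ A, f a B = true) :
    ∃ a < A, ∃ b < B,
      ¬ (f (a + 1) b = f a b ∧ f a (b + 1) = f a b ∧ f (a + 1) (b + 1) = f a b) ∧
      ¬ (g (a + 1) b = g a b ∧ g a (b + 1) = g a b ∧ g (a + 1) (b + 1) = g a b) := by

  by_contra hcon
  let ι : ℕ → ℤ := fun b => ∑ a ∈ range A, (chord_i (g (a + 1) b) - chord_i (g a b)) * chord_i (f a b)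
  have hstep : ∀ b < B, ι (b + 1) = ι b := by
    intro b hb
    rw [← sub_eq_zero, ← Finset.sum_sub_distrib, Finset.sum_congr rfl (g := fun a =>
      (chord_i (g (a + 1) (b + 1)) - chord_i (g (a + 1) b)) * chord_i (f (a + 1) b) -
        (chord_i (g a (b + 1)) - chord_i (g a b)) * chord_i (f a b)) fun a ha => ?_,
      Finset.sum_range_sub (fun a => (chord_i (g a (b + 1)) - chord_i (g a b)) * chord_i (f a b)),
      hg0 b hb.le, hg0 (b + 1) hb, hgA b hb.le, hgA (b + 1) hb]
    · ring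
    · refine chord_kappa _ _ _ (f (a + 1) (b + 1)) _ _ _ _ ?_
      by_contra h
      rw [not_or] at h
      exact hcon ⟨a, Finset.mem_range.1 ha, b, hb, h⟩
  have hall : ∀ b ≤ B, ι b = ι 0 := by
    intro b hb
    induction b with
    | zero => rfl
    | succ b ih => rw [hstep b hb, ih (by omega)]
  have h0 : ι 0 = 0 := Finset.sum_eq_zero fun a ha => by
    rw [hf0 a (Finset.mem_range.1 ha).le]; simp [chord_i]
  have h1 : ι B = 1 := by
    simp only [ι]
    rw [Finset.sum_congr rfl (g := fun a => chord_i (g (a + 1) B) - chord_i (g a B)) fun a ha => by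
      rw [hfB a (Finset.mem_range.1 ha).le]; simp [chord_i],
      Finset.sum_range_sub (fun a => chord_i (g a B)), hg0 B le_rfl, hgA B le_rfl]
    simp [chord_i]
  have := hall B le_rfl
  omega

theorem chord_cell {F : ℕ → ℕ → ℤ} {M : ℤ} (h1 : ∀ a b, |F (a + 1) b - F a b| ≤ M)
    (h2 : ∀ a b, |F a (b + 1) - F a b| ≤ M) {f : ℕ → ℕ → Bool}
    (ht : ∀ a b, f a b = true → 0 ≤ F a b) (hf : ∀ a b, f a b = false → F a b ≤ 0) {a b : ℕ}
    (h : ¬ (f (a + 1) b = f a b ∧ f a (b + 1) = f a b ∧ f (a + 1) (b + 1) = f a b)) :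
    |F a b| ≤ 2 * M := by
  have e1 := abs_le.1 (h1 a b)
  have e2 := abs_le.1 (h2 a b)
  have e3 := abs_le.1 (h1 a (b + 1))
  have t1 := ht a b
  have t2 := ht (a + 1) b
  have t3 := ht a (b + 1)
  have t4 := ht (a + 1) (b + 1)
  have f1 := hf a b
  have f2 := hf (a + 1) b
  have f3 := hf a (b + 1)
  have f4 := hf (a + 1) (b + 1)
  rw [abs_le]
  cases h00 : f a b <;> cases h10 : f (a + 1) b <;> cases h01 : f a (b + 1) <;>
    cases h11 : f (a + 1) (b + 1) <;> simp only [h00, h10, h01, h11, forall_const] at * <;>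
    first | omega | simp at h

theorem chord_det_le (u Z : ℤ × ℤ) {D : ℕ} (h : nm u ≤ D) : |det u Z| ≤ 2 * D * nm Z := by
  obtain ⟨h1, h2⟩ := nm_le_iff.1 h
  have h3 := mul_le_mul h1 (abs_snd_le Z) (abs_nonneg _) (by positivity)
  have h4 := mul_le_mul h2 (abs_fst_le Z) (abs_nonneg _) (by positivity)
  rw [← abs_mul] at h3 h4
  refine (abs_sub _ _).trans ?_
  linarith

theorem chord_dot_le (u Z : ℤ × ℤ) {D : ℕ} (h : nm u ≤ D) : |dot u Z| ≤ 2 * D * nm Z := by
  obtain ⟨h1, h2⟩ := nm_le_iff.1 h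
  have h3 := mul_le_mul h1 (abs_fst_le Z) (abs_nonneg _) (by positivity)
  have h4 := mul_le_mul h2 (abs_snd_le Z) (abs_nonneg _) (by positivity)
  rw [← abs_mul] at h3 h4
  refine (abs_add_le _ _).trans ?_
  linarith

theorem chord_sq_le (Z : ℤ × ℤ) : (nm Z : ℤ) * nm Z ≤ dot Z Z := by
  unfold nm dot
  rcases le_total Z.1.natAbs Z.2.natAbs with h | h
  · rw [max_eq_right h, Int.natAbs_mul_self']; nlinarith [mul_self_nonneg Z.1]
  · rw [max_eq_left h, Int.natAbs_mul_self']; nlinarith [mul_self_nonneg Z.2]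

theorem chord_exit (X : ℕ → ℤ × ℤ) (hinj : Function.Injective X) (R : ℕ) (hR : 1 ≤ R) (c : ℕ) :
    ∃ n, 0 < n ∧ n ≤ 4 * R ^ 2 ∧ R ≤ nm (X (c + n) - X c) ∧ ∀ i < n, nm (X (c + i) - X c) < R := by
  have key : ∀ n, (∀ i < n, nm (X (c + i) - X c) < R) → n ≤ 4 * R ^ 2 := by
    intro n hn
    have h1 : (range n).card ≤ (box (R - 1)).card :=
      Finset.card_le_card_of_injOn (fun i => X (c + i) - X c)
        (fun i hi => mem_coe.2 (mem_box.2 (by
          have := hn i (Finset.mem_range.1 (mem_coe.1 hi)); beta_reduce; omega)))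
        fun i _ j _ hij => by
          have := hinj (sub_left_injective hij)
          omega
    rw [Finset.card_range, card_box] at h1
    have h2 : (2 * (R - 1) + 1) ^ 2 ≤ (2 * R) ^ 2 := Nat.pow_le_pow_left (by omega) 2
    nlinarith
  have hex : ∃ n, R ≤ nm (X (c + n) - X c) := by
    by_contra h
    push Not at h
    have := key (4 * R ^ 2 + 1) fun i _ => h i
    omega
  have h2 : ∀ i < Nat.find hex, nm (X (c + i) - X c) < R := fun i hi =>
    not_le.1 (Nat.find_min hex hi)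
  refine ⟨Nat.find hex, Nat.pos_of_ne_zero fun h => ?_, key _ h2, Nat.find_spec hex, h2⟩
  have := Nat.find_spec hex
  rw [h] at this
  simp at this
  omega

theorem chord (D : ℕ) (hD : 1 ≤ D) (X : ℕ → ℤ × ℤ) (hinj : Function.Injective X)
    (hstep : ∀ t, nm (X (t + 1) - X t) ≤ D) (R : ℕ) (hR : 1 ≤ R) (c : ℕ) :
    ∃ (Z : ℤ × ℤ) (a b : ℕ → ℕ), Z ≠ 0 ∧
      (∀ k < R / (18 * D) + 1, c ≤ a k ∧ a k ≤ c + 4 * R ^ 2 ∧ c ≤ b k ∧ b k ≤ c + 4 * R ^ 2 ∧
        nm (X (a k) - X (b k)) ≤ 2 * R ∧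
        (det (X (a k) - X (b k)) Z).natAbs ≤ 4 * D * nm Z) ∧
      ∀ k < R / (18 * D) + 1, ∀ k' < R / (18 * D) + 1,
        X (a k) - X (b k) = X (a k') - X (b k') → k = k' := by
  obtain ⟨n, hn0, hn4, hnR, hlt⟩ := chord_exit X hinj R hR c
  obtain ⟨Z, hZ⟩ : ∃ Z, Z = X (c + n) - X c := ⟨_, rfl⟩
  rw [← hZ] at hnR
  obtain ⟨Y, hY⟩ : ∃ Y : ℕ → ℤ × ℤ, ∀ i, Y i = X (c + i % n) + ((i / n : ℕ) : ℤ) • Z :=
    ⟨_, fun _ => rfl⟩
  have hYstep : ∀ i, nm (Y (i + 1) - Y i) ≤ D := by
    intro i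
    have e : Y (i + 1) - Y i = X (c + i % n + 1) - X (c + i % n) := by
      rw [hY, hY]
      by_cases h : i % n + 1 = n
      · have h1 : i + 1 = n * (i / n + 1) := by
          have := Nat.div_add_mod i n
          rw [Nat.mul_succ]; omega
        rw [h1, Nat.mul_mod_right, Nat.mul_div_cancel_left _ hn0, add_assoc c, h]
        push_cast
        rw [add_smul, one_smul, hZ, add_zero]
        abel
      · have h0 := Nat.mod_lt i hn0
        have h1 : i + 1 = (i % n + 1) + n * (i / n) := by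
          have := Nat.div_add_mod i n
          omega
        rw [h1, Nat.add_mul_mod_self_left, Nat.add_mul_div_left _ _ hn0,
          Nat.mod_eq_of_lt (a := i % n + 1) (by omega), Nat.div_eq_of_lt (a := i % n + 1) (by omega),
          zero_add, add_assoc c]
        abel
    rw [e]
    exact hstep _
  have hRz : (R : ℤ) ≤ nm Z := by exact_mod_cast hnR
  have hR' : (1 : ℤ) ≤ R := by exact_mod_cast hR
  have hD' : (1 : ℤ) ≤ D := by exact_mod_cast hD
  have hN : (R : ℤ) * nm Z ≤ dot Z Z :=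
    (mul_le_mul_of_nonneg_right hRz (by positivity)).trans (chord_sq_le Z)
  have hz0 : (0 : ℤ) < R * nm Z := mul_pos (by linarith) (by linarith)
  have hdet : ∀ i, det (Y i) Z = det (X (c + i % n)) Z := fun i => by
    rw [hY]; simp only [det, Prod.fst_add, Prod.snd_add, Prod.smul_fst, Prod.smul_snd, smul_eq_mul]
    ring
  have hdot : ∀ i, dot (Y i) Z = dot (X (c + i % n)) Z + (i / n : ℕ) * dot Z Z := fun i => by
    rw [hY]; simp only [dot, Prod.fst_add, Prod.snd_add, Prod.smul_fst, Prod.smul_snd, smul_eq_mul]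
    ring
  have det_sub : ∀ u v, det (u - v) Z = det u Z - det v Z := fun u v => by
    simp only [det, Prod.fst_sub, Prod.snd_sub]; ring
  have dot_sub : ∀ u v, dot (u - v) Z = dot u Z - dot v Z := fun u v => by
    simp only [dot, Prod.fst_sub, Prod.snd_sub]; ring
  have sdet : ∀ i, |det (Y (i + 1)) Z - det (Y i) Z| ≤ 2 * D * nm Z := fun i => by
    rw [← det_sub]; exact chord_det_le _ _ (hYstep i)
  have sdot : ∀ i, |dot (Y (i + 1)) Z - dot (Y i) Z| ≤ 2 * D * nm Z := fun i => by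
    rw [← dot_sub]; exact chord_dot_le _ _ (hYstep i)
  obtain ⟨i0, hi0, hmax⟩ := Finset.exists_max_image (range n) (fun i => det (X (c + i)) Z)
    ⟨0, Finset.mem_range.2 hn0⟩
  obtain ⟨i1, hi1, hmin⟩ := Finset.exists_min_image (range n) (fun i => det (X (c + i)) Z)
    ⟨0, Finset.mem_range.2 hn0⟩
  rw [Finset.mem_range] at hi0 hi1
  have hk : ∀ k < R / (18 * D) + 1, (k : ℤ) * (18 * D) ≤ R := fun k hk => by
    have : k * (18 * D) ≤ R := (Nat.le_div_iff_mul_le (by omega)).1 (by omega)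
    exact_mod_cast this
  have main : ∀ k : ℕ, ∃ a b : ℕ, k < R / (18 * D) + 1 →
      |det (Y a) Z - det (Y b) Z| ≤ 2 * (2 * D * nm Z) ∧
      |dot (Y a) Z - dot (Y b) Z - k * (9 * D * nm Z)| ≤ 2 * (2 * D * nm Z) := by
    intro k
    by_cases hkk : k < R / (18 * D) + 1
    swap
    · exact ⟨0, 0, fun h => absurd h hkk⟩
    have hk1 := mul_le_mul_of_nonneg_right (hk k hkk) (show (0 : ℤ) ≤ nm Z by positivity)
    have hk2 : (0 : ℤ) ≤ k * (9 * D * nm Z) := by positivity
    have hb : ∀ b ≤ n + i1 - i0, |dot (X (c + (i0 + n * 2 + b) % n)) Z - dot (X c) Z| ≤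
        2 * R * nm Z ∧ (2 : ℤ) ≤ ((i0 + n * 2 + b) / n : ℕ) ∧
        (((i0 + n * 2 + b) / n : ℕ) : ℤ) ≤ 3 := by
      intro b hb
      refine ⟨?_, ?_, ?_⟩
      · rw [← dot_sub]
        exact chord_dot_le _ _ (hlt _ (Nat.mod_lt _ hn0)).le
      · have : 2 ≤ (i0 + n * 2 + b) / n := (Nat.le_div_iff_mul_le hn0).2 (by omega)
        exact_mod_cast this
      · have : (i0 + n * 2 + b) / n < 4 := (Nat.div_lt_iff_lt_mul hn0).2 (by omega)
        exact_mod_cast Nat.le_of_lt_succ this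
    have hB : ∀ a, 0 ≤ det (Y a) Z - det (Y (i0 + n * 2 + (n + i1 - i0))) Z := fun a => by
      have e : i0 + n * 2 + (n + i1 - i0) = i1 + n * 3 := by omega
      rw [hdet, hdet, e, Nat.add_mul_mod_self_left, Nat.mod_eq_of_lt hi1, sub_nonneg]
      exact hmin _ (Finset.mem_range.2 (Nat.mod_lt _ hn0))
    refine (pm (n * 7) (n + i1 - i0)
      (fun a b => decide (b = n + i1 - i0 ∨ 0 < det (Y a) Z - det (Y (i0 + n * 2 + b)) Z))
      (fun a b => decide (0 < dot (Y a) Z - dot (Y (i0 + n * 2 + b)) Z - k * (9 * D * nm Z)))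
      (fun b h => ?_) (fun b h => ?_) (fun a _ => ?_) (fun a _ => by simp)).elim
      fun a ⟨_, b, _, h1, h2⟩ => ?_
    rotate_right
    · refine ⟨a, i0 + n * 2 + b, fun _ => ⟨?_, ?_⟩⟩
      · refine chord_cell (F := fun a b => det (Y a) Z - det (Y (i0 + n * 2 + b)) Z)
          (f := fun a b =>
            decide (b = n + i1 - i0 ∨ 0 < det (Y a) Z - det (Y (i0 + n * 2 + b)) Z))
          (fun a b => ?_) (fun a b => ?_) (fun a b h => ?_) (fun a b h => ?_) h1
        · rw [sub_sub_sub_cancel_right]; exact sdet a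
        · rw [sub_sub_sub_cancel_left, abs_sub_comm]; exact sdet _
        · rcases of_decide_eq_true h with h | h
          · rw [h]; exact hB a
          · exact h.le
        · exact not_lt.1 fun h' => of_decide_eq_false h (Or.inr h')
      · refine chord_cell
          (F := fun a b => dot (Y a) Z - dot (Y (i0 + n * 2 + b)) Z - k * (9 * D * nm Z))
          (f := fun a b =>
            decide (0 < dot (Y a) Z - dot (Y (i0 + n * 2 + b)) Z - k * (9 * D * nm Z)))
          (fun a b => ?_) (fun a b => ?_) (fun a b h => (of_decide_eq_true h).le)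
          (fun a b h => not_lt.1 (of_decide_eq_false h)) h2
        · rw [sub_sub_sub_cancel_right, sub_sub_sub_cancel_right]; exact sdot a
        · rw [sub_sub_sub_cancel_right, sub_sub_sub_cancel_left, abs_sub_comm]; exact sdot _
    · obtain ⟨h1, h2, -⟩ := hb b h
      refine decide_eq_false (not_lt.2 ?_)
      rw [hdot, hdot, Nat.zero_mod, Nat.zero_div, add_zero]
      have := mul_le_mul_of_nonneg_right h2 (hz0.le.trans hN)
      push_cast at this ⊢
      linarith [(abs_le.1 h1).1]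
    · obtain ⟨h1, -, h2⟩ := hb b h
      refine decide_eq_true ?_
      rw [hdot, hdot, Nat.mul_mod_right, Nat.mul_div_cancel_left _ hn0, add_zero]
      have := mul_le_mul_of_nonneg_right h2 (hz0.le.trans hN)
      push_cast at this ⊢
      linarith [(abs_le.1 h1).2]
    · refine decide_eq_false ?_
      rintro (h | h)
      · omega
      · rw [hdet, hdet, add_zero, Nat.add_mul_mod_self_left, Nat.mod_eq_of_lt hi0, sub_pos] at h
        exact absurd (hmax _ (Finset.mem_range.2 (Nat.mod_lt _ hn0))) (not_le.2 h)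
  choose a b hab using main
  refine ⟨Z, fun k => c + a k % n, fun k => c + b k % n, fun h => ?_, fun k hkk => ?_, ?_⟩
  · rw [h, nm_zero] at hnR; omega
  · have h1 := Nat.mod_lt (a k) hn0
    have h2 := Nat.mod_lt (b k) hn0
    beta_reduce
    refine ⟨by omega, by omega, by omega, by omega, ?_, ?_⟩
    · have e : X (c + a k % n) - X (c + b k % n) =
          (X (c + a k % n) - X c) - (X (c + b k % n) - X c) := by abel
      have := nm_sub_le (X (c + a k % n) - X c) (X (c + b k % n) - X c)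
      have := hlt _ h1
      have := hlt _ h2
      rw [e]; omega
    · have h3 := (hab k hkk).1
      rw [hdet, hdet, ← det_sub, Int.abs_eq_natAbs] at h3
      have h4 : (((det (X (c + a k % n) - X (c + b k % n)) Z).natAbs : ℕ) : ℤ) ≤
          ((4 * D * nm Z : ℕ) : ℤ) := by push_cast at h3 ⊢; linarith
      exact_mod_cast h4
  · have key : ∀ k < R / (18 * D) + 1, ∀ k' < R / (18 * D) + 1,
        X (c + a k % n) - X (c + b k % n) = X (c + a k' % n) - X (c + b k' % n) → ¬ k' < k := by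
      intro k hkk k' hkk' h hlt
      have h1 := abs_le.1 (hab k hkk).2
      have h2 := abs_le.1 (hab k' hkk').2
      have h3 := congrArg (fun u => dot u Z) h
      simp only [dot_sub] at h3
      rw [hdot, hdot] at h1 h2
      have h4 := mul_le_mul_of_nonneg_right (hk k hkk) (show (0 : ℤ) ≤ nm Z by positivity)
      have h5 : (k' : ℤ) + 1 ≤ k := by exact_mod_cast hlt
      have h6 : (0 : ℤ) < D * nm Z := mul_pos (by linarith) (by linarith)
      have h7 := mul_le_mul_of_nonneg_right h5 h6.le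
      have h8 : (0 : ℤ) ≤ k' * (D * nm Z) := by positivity
      obtain ⟨m, hm⟩ : ∃ m : ℤ, m = ((a k / n : ℕ) : ℤ) - (b k / n : ℕ) - (a k' / n : ℕ) +
        (b k' / n : ℕ) := ⟨_, rfl⟩
      have h9 : 0 < m * dot Z Z := by rw [hm]; linarith [h1.1, h2.2]
      have h10 : m * dot Z Z < 1 * dot Z Z := by rw [hm]; linarith [h1.2, h2.1]
      have h11 := (pos_iff_pos_of_mul_pos h9).2 (hz0.trans_le hN)
      have h12 := lt_of_mul_lt_mul_right h10 (hz0.le.trans hN)
      omega
    intro k hkk k' hkk' h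
    exact le_antisymm (not_lt.1 (key k hkk k' hkk' h)) (not_lt.1 (key k' hkk' k hkk h.symm))

end Crest.Agent.R2
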