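import Mathlib

/-!
Gaussian moat (S0002): basic definitions.  Points of the plane lattice are pairs of integers,
`nm` is the sup norm, `phi p` is the reduction `a + b i ↦ a + ι b` modulo a Gaussian prime above
the rational prime `p ≡ 1 (mod 4)`.
-/

set_option autoImplicit false

namespace Crest.Agent.R2

open Finset

/-- sup norm -/
def nm (u : ℤ × ℤ) : ℕ := max u.1.natAbs u.2.natAbs

/-- determinant -/
def det (u v : ℤ × ℤ) : ℤ := u.1 * v.2 - u.2 * v.1

/-- scalar product -/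
def dot (u v : ℤ × ℤ) : ℤ := u.1 * v.1 + u.2 * v.2

open Classical in
/-- a square root of `-1` modulo `p`, when there is one -/
noncomputable def io (p : ℕ) : ZMod p := if h : ∃ x : ZMod p, x * x = -1 then h.choose else 0

/-- reduction modulo a Gaussian prime above `p` -/
noncomputable def phi (p : ℕ) (u : ℤ × ℤ) : ZMod p := (u.1 : ZMod p) + io p * (u.2 : ZMod p)

/-- the primes `≡ 1 (mod 4)` of the dyadic block `[2^e, 2^(e+1))` -/
def pool (e : ℕ) : Finset ℕ :=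
  (Finset.Ico (2 ^ e) (2 ^ (e + 1))).filter (fun p => p.Prime ∧ p % 4 = 1)

lemma mem_pool {e p : ℕ} :
    p ∈ pool e ↔ (2 ^ e ≤ p ∧ p < 2 ^ (e + 1)) ∧ p.Prime ∧ p % 4 = 1 := by
  simp [pool]

lemma io_sq {p : ℕ} (hp : p.Prime) (h4 : p % 4 = 1) : io p * io p = -1 := by
  have := Fact.mk hp
  have h : ∃ x : ZMod p, x * x = -1 := by
    obtain ⟨x, hx⟩ := (ZMod.exists_sq_eq_neg_one_iff (p := p)).2 (by omega)
    exact ⟨x, hx.symm⟩
  unfold io
  rw [dif_pos h]
  exact h.choose_spec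

@[simp] lemma phi_zero (p : ℕ) : phi p 0 = 0 := by simp [phi]

lemma phi_add (p : ℕ) (u v : ℤ × ℤ) : phi p (u + v) = phi p u + phi p v := by
  simp only [phi, Prod.fst_add, Prod.snd_add, Int.cast_add]; ring

lemma phi_sub (p : ℕ) (u v : ℤ × ℤ) : phi p (u - v) = phi p u - phi p v := by
  simp only [phi, Prod.fst_sub, Prod.snd_sub, Int.cast_sub]; ring

lemma phi_neg (p : ℕ) (u : ℤ × ℤ) : phi p (-u) = - phi p u := by
  simp only [phi, Prod.fst_neg, Prod.snd_neg, Int.cast_neg]; ring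

lemma phi_zsmul (p : ℕ) (n : ℤ) (u : ℤ × ℤ) : phi p (n • u) = (n : ZMod p) * phi p u := by
  simp only [phi, Prod.smul_fst, Prod.smul_snd, smul_eq_mul, Int.cast_mul]; ring

/-- `phi p u = 0` forces `p ∣ N(u)` -/
lemma dvd_norm_of_phi {p : ℕ} (hp : p.Prime) (h4 : p % 4 = 1) {u : ℤ × ℤ} (h : phi p u = 0) :
    (p : ℤ) ∣ u.1 ^ 2 + u.2 ^ 2 := by
  rw [← ZMod.intCast_zmod_eq_zero_iff_dvd]
  have h1 := io_sq hp h4
  unfold phi at h
  push_cast
  linear_combination ((u.1 : ZMod p) - io p * (u.2 : ZMod p)) * h + (u.2 : ZMod p) ^ 2 * h1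

/-- two vectors killed by `phi p` have determinant divisible by `p` -/
lemma dvd_det_of_phi {p : ℕ} {u v : ℤ × ℤ} (hu : phi p u = 0) (hv : phi p v = 0) :
    (p : ℤ) ∣ det u v := by
  rw [← ZMod.intCast_zmod_eq_zero_iff_dvd]
  unfold phi at hu hv
  unfold det
  push_cast
  linear_combination (v.2 : ZMod p) * hu - (u.2 : ZMod p) * hv

lemma nm_le_iff {u : ℤ × ℤ} {n : ℕ} : nm u ≤ n ↔ |u.1| ≤ n ∧ |u.2| ≤ n := by
  unfold nm
  rw [max_le_iff]
  constructor
  · rintro ⟨h1, h2⟩; constructor <;> (rw [Int.abs_eq_natAbs]; exact_mod_cast ‹_›)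
  · rintro ⟨h1, h2⟩
    rw [Int.abs_eq_natAbs] at h1 h2
    exact ⟨by exact_mod_cast h1, by exact_mod_cast h2⟩

lemma abs_fst_le (u : ℤ × ℤ) : |u.1| ≤ nm u := (nm_le_iff.1 le_rfl).1
lemma abs_snd_le (u : ℤ × ℤ) : |u.2| ≤ nm u := (nm_le_iff.1 le_rfl).2

@[simp] lemma nm_zero : nm 0 = 0 := by simp [nm]

lemma nm_neg (u : ℤ × ℤ) : nm (-u) = nm u := by simp [nm]

lemma nm_sub_comm (u v : ℤ × ℤ) : nm (u - v) = nm (v - u) := by
  rw [← nm_neg, neg_sub]

lemma nm_add_le (u v : ℤ × ℤ) : nm (u + v) ≤ nm u + nm v := by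
  rw [nm_le_iff]
  have h1 := abs_fst_le u
  have h2 := abs_snd_le u
  have h3 := abs_fst_le v
  have h4 := abs_snd_le v
  constructor
  · calc |(u + v).1| = |u.1 + v.1| := rfl
      _ ≤ |u.1| + |v.1| := abs_add_le _ _
      _ ≤ _ := by push_cast; omega
  · calc |(u + v).2| = |u.2 + v.2| := rfl
      _ ≤ |u.2| + |v.2| := abs_add_le _ _
      _ ≤ _ := by push_cast; omega

lemma nm_sub_le (u v : ℤ × ℤ) : nm (u - v) ≤ nm u + nm v := by
  rw [sub_eq_add_neg]
  exact (nm_add_le _ _).trans (by rw [nm_neg])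

lemma nm_eq_zero {u : ℤ × ℤ} : nm u = 0 ↔ u = 0 := by
  constructor
  · intro h
    have := nm_le_iff.1 h.le
    ext
    · simpa using this.1
    · simpa using this.2
  · rintro rfl; simp

/-- a walk with steps at most `D` moves at most `D n` in `n` steps -/
lemma nm_walk_le {D : ℕ} {X : ℕ → ℤ × ℤ} (hstep : ∀ t, nm (X (t + 1) - X t) ≤ D) (c n : ℕ) :
    nm (X (c + n) - X c) ≤ D * n := by
  induction n with
  | zero => simp
  | succ n ih =>
    have : X (c + (n + 1)) - X c = (X (c + n + 1) - X (c + n)) + (X (c + n) - X c) := by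
      rw [← add_assoc]; abel
    rw [this]
    refine (nm_add_le _ _).trans ?_
    have := hstep (c + n)
    rw [Nat.mul_succ]; omega

/-- the box of radius `r` -/
noncomputable def box (r : ℕ) : Finset (ℤ × ℤ) := Finset.Icc (-(r : ℤ)) r ×ˢ Finset.Icc (-(r : ℤ)) r

lemma mem_box {r : ℕ} {u : ℤ × ℤ} : u ∈ box r ↔ nm u ≤ r := by
  rw [nm_le_iff, box, mem_product, mem_Icc, mem_Icc, abs_le, abs_le]

lemma card_box (r : ℕ) : (box r).card = (2 * r + 1) ^ 2 := by
  have : (Finset.Icc (-(r : ℤ)) r).card = 2 * r + 1 := by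
    rw [Int.card_Icc]; omega
  rw [box, card_product, this]; ring

/-- `Good Z w y K`: every non-zero vector of the strip of width `2 w` around `ℝ Z` that is killed
by all `phi p`, `p ∈ K`, has length at least `∏ K / (16 w y)`. -/
def Good (Z : ℤ × ℤ) (w y : ℕ) (K : Finset ℕ) : Prop :=
  ∀ u : ℤ × ℤ, u ≠ 0 → (det u Z).natAbs ≤ 2 * w * nm Z → (∀ p ∈ K, phi p u = 0) →
    ∏ p ∈ K, p ≤ 16 * w * y * nm u

/-- The main statement about walks: an injective walk with bounded steps cannot avoid one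
residue class modulo every `phi p`. -/
def WalkThm : Prop :=
  ∀ (D : ℕ) (X : ℕ → ℤ × ℤ), 1 ≤ D → Function.Injective X → (∀ t, nm (X (t + 1) - X t) ≤ D) →
    ∀ x : (p : ℕ) → ZMod p, (∀ p : ℕ, p.Prime → p % 4 = 1 → ∀ t, phi p (X t) ≠ x p) → False

end Crest.Agent.R2
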