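import Crest.Agent.R2.FD

/-!
Shannon entropy of random variables on a finitely supported law.
-/

set_option autoImplicit false

namespace Crest.Agent.R2

open Finset Real

namespace FD

variable {α β γ δ : Type*}

open Classical in
/-- probability of an event -/
noncomputable def pr (μ : FD α) (P : α → Prop) : ℝ := μ.E (fun a => if P a then 1 else 0)

/-- entropy of the random variable `f` -/
noncomputable def H (μ : FD α) (f : α → β) : ℝ :=
  μ.E (fun a => - log (μ.pr (fun a' => f a' = f a)))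

/-- conditional entropy of `f` given `g` -/
noncomputable def Hc (μ : FD α) (f : α → β) (g : α → γ) : ℝ :=
  μ.H (fun a => (f a, g a)) - μ.H g

lemma pr_nonneg (μ : FD α) (P : α → Prop) : 0 ≤ μ.pr P :=
  E_nonneg fun a => by split_ifs <;> norm_num

lemma pr_le_one (μ : FD α) (P : α → Prop) : μ.pr P ≤ 1 :=
  E_le_of_ae (AE.of_forall fun a => by split_ifs <;> norm_num)

lemma pr_mono_ae {μ : FD α} {P Q : α → Prop} (h : μ.AE (fun a => P a → Q a)) :
    μ.pr P ≤ μ.pr Q :=
  E_mono_ae (h.mono fun a ha => by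
    by_cases hP : P a
    · simp [hP, ha hP]
    · simp only [hP, if_false]; split_ifs <;> norm_num)

lemma pr_mono {μ : FD α} {P Q : α → Prop} (h : ∀ a, P a → Q a) : μ.pr P ≤ μ.pr Q :=
  pr_mono_ae (AE.of_forall h)

lemma pr_congr {μ : FD α} {P Q : α → Prop} (h : ∀ a, P a ↔ Q a) : μ.pr P = μ.pr Q :=
  le_antisymm (pr_mono fun a => (h a).1) (pr_mono fun a => (h a).2)

lemma pr_pos {μ : FD α} {P : α → Prop} {a : α} (ha : μ.w a ≠ 0) (hP : P a) : 0 < μ.pr P := by
  classical
  have := single_le_E (μ := μ) (f := fun a => if P a then 1 else 0)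
    (AE.of_forall fun a => by split_ifs <;> norm_num) a
  simp only [hP, if_true, mul_one] at this
  refine lt_of_lt_of_le (lt_of_le_of_ne (μ.nn a) (Ne.symm ha)) ?_
  exact this

lemma pr_not (μ : FD α) (P : α → Prop) : μ.pr (fun a => ¬ P a) = 1 - μ.pr P := by
  unfold pr
  rw [← E_const μ 1, ← E_sub]
  exact E_congr fun a => by by_cases h : P a <;> simp [h]

lemma pr_or_le (μ : FD α) (P Q : α → Prop) : μ.pr (fun a => P a ∨ Q a) ≤ μ.pr P + μ.pr Q := by
  unfold pr
  rw [← E_add]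
  exact E_mono fun a => by by_cases h : P a <;> by_cases h' : Q a <;> simp [h, h']

@[simp] lemma pr_map (g : α → β) (μ : FD α) (P : β → Prop) :
    (μ.map g).pr P = μ.pr (fun a => P (g a)) := by
  simp [pr]

lemma pr_bind (μ : FD α) (K : α → FD β) (P : β → Prop) :
    (μ.bind K).pr P = μ.E (fun a => (K a).pr P) := by
  simp [pr]

lemma pr_iid_all (ν : FD α) (n : ℕ) (P : α → Prop) :
    (iid ν n).pr (fun l => ∀ a ∈ l, P a) = (ν.pr P) ^ n := by
  have := E_iid_all ν n P
  unfold pr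
  convert this

lemma sum_pr_le_one (μ : FD α) (f : α → β) (S : Finset β) :
    ∑ b ∈ S, μ.pr (fun a => f a = b) ≤ 1 := by
  classical
  unfold pr
  rw [← E_sum]
  refine E_le_of_ae (AE.of_forall fun a => ?_)
  have : ∑ b ∈ S, (if f a = b then (1 : ℝ) else 0) = if f a ∈ S then 1 else 0 := by
    rw [sum_ite_eq]
  refine le_trans (le_of_eq ?_) (this.le.trans (by split_ifs <;> norm_num))
  exact sum_congr rfl fun b _ => by congr

open Classical in
lemma E_comp (μ : FD α) (f : α → β) (g : β → ℝ) (S : Finset β) (hS : μ.AE (fun a => f a ∈ S)) :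
    μ.E (fun a => g (f a)) = ∑ b ∈ S, μ.pr (fun a => f a = b) * g b := by
  unfold pr
  simp only [← E_mul_const]
  rw [← E_sum]
  refine E_congr_ae (hS.mono fun a ha => ?_)
  simp only [ite_mul, one_mul, zero_mul]
  rw [sum_ite_eq, if_pos ha]

@[simp] lemma H_map (g : α → β) (μ : FD α) (f : β → γ) :
    (μ.map g).H f = μ.H (fun a => f (g a)) := by
  simp [H]

@[simp] lemma Hc_map (g : α → β) (μ : FD α) (f : β → γ) (k : β → δ) :
    (μ.map g).Hc f k = μ.Hc (fun a => f (g a)) (fun a => k (g a)) := by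
  simp [Hc]

/-- the entropy only depends on the law -/
lemma H_eq_of_law {μ : FD α} {ν : FD β} {f : α → γ} {g : β → γ}
    (h : ∀ F : γ → ℝ, μ.E (fun a => F (f a)) = ν.E (fun b => F (g b))) : μ.H f = ν.H g := by
  have h1 : μ.map f = ν.map g := ext_E fun F => by simp [h]
  have h2 := H_map f μ id
  have h3 := H_map g ν id
  rw [h1, h3] at h2
  exact h2.symm

lemma Hc_eq_of_law {μ : FD α} {ν : FD β} {f : α → γ} {g : β → γ} {f' : α → δ} {g' : β → δ}
    (h : ∀ F : γ × δ → ℝ, μ.E (fun a => F (f a, f' a)) = ν.E (fun b => F (g b, g' b))) :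
    μ.Hc f f' = ν.Hc g g' := by
  unfold Hc
  rw [H_eq_of_law h, H_eq_of_law (fun F => h (fun x => F x.2))]

lemma H_nonneg (μ : FD α) (f : α → β) : 0 ≤ μ.H f :=
  E_nonneg fun _ => neg_nonneg.2 (log_nonpos (pr_nonneg _ _) (pr_le_one _ _))

/-- if `g` determines `f` then `H f ≤ H g` -/
lemma H_le_of_det {μ : FD α} {f : α → β} {g : α → γ} (h : ∀ a a', g a = g a' → f a = f a') :
    μ.H f ≤ μ.H g :=
  E_mono_ae fun a ha => neg_le_neg
    (log_le_log (pr_pos ha rfl) (pr_mono fun a' h' => h a' a h'))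

lemma H_eq_of_det {μ : FD α} {f : α → β} {g : α → γ} (h : ∀ a a', g a = g a' ↔ f a = f a') :
    μ.H f = μ.H g :=
  le_antisymm (H_le_of_det fun a a' => (h a a').1) (H_le_of_det fun a a' => (h a a').2)

lemma H_const (μ : FD α) {f : α → β} (h : ∀ a a', f a = f a') : μ.H f = 0 := by
  unfold H
  refine (E_congr fun a => ?_).trans (E_const μ 0)
  have : μ.pr (fun a' => f a' = f a) = 1 := by
    unfold pr
    exact (E_congr fun a' => by simp [h a' a]).trans (E_const μ 1)
  simp [this]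

/-- Gibbs' inequality -/
theorem gibbs (μ : FD α) (f : α → β) (q : β → ℝ) (hq : ∀ S : Finset β, ∑ b ∈ S, q b ≤ 1)
    (hpos : μ.AE (fun a => 0 < q (f a))) : μ.H f ≤ μ.E (fun a => - log (q (f a))) := by
  classical
  have h1 : μ.E (fun a => q (f a) / μ.pr (fun a' => f a' = f a)) ≤ 1 := by
    rw [E_comp μ f (fun b => q b / μ.pr (fun a' => f a' = b)) (μ.w.support.image f)
      (fun a ha => mem_image_of_mem f (Finsupp.mem_support_iff.2 ha))]
    refine le_trans (le_of_eq (sum_congr rfl fun b hb => ?_)) (hq _)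
    obtain ⟨a, ha, rfl⟩ := mem_image.1 hb
    have := (pr_pos (P := fun a' => f a' = f a) (Finsupp.mem_support_iff.1 ha) rfl).ne'
    field_simp
  have h2 : μ.H f - μ.E (fun a => - log (q (f a))) ≤
      μ.E (fun a => q (f a) / μ.pr (fun a' => f a' = f a) - 1) := by
    unfold H
    rw [← E_sub]
    refine E_mono_ae fun a ha => ?_
    have hp := pr_pos (P := fun a' => f a' = f a) ha rfl
    have := log_le_sub_one_of_pos (div_pos (hpos a ha) hp)
    rw [log_div (hpos a ha).ne' hp.ne'] at this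
    linarith
  rw [E_sub, E_const] at h2
  linarith

/-- conditional Gibbs inequality -/
theorem Hc_gibbs (μ : FD α) (f : α → β) (g : α → γ) (q : γ → β → ℝ)
    (hnn : ∀ c b, 0 ≤ q c b) (hq : ∀ c, ∀ S : Finset β, ∑ b ∈ S, q c b ≤ 1)
    (hpos : μ.AE (fun a => 0 < q (g a) (f a))) :
    μ.Hc f g ≤ μ.E (fun a => - log (q (g a) (f a))) := by
  classical
  have h := gibbs μ (fun a => (f a, g a)) (fun x => μ.pr (fun a => g a = x.2) * q x.2 x.1) ?_
    (fun a ha => mul_pos (pr_pos ha rfl) (hpos a ha))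
  · unfold Hc
    rw [sub_le_iff_le_add]
    refine h.trans (le_of_eq ?_)
    unfold H
    rw [← E_add]
    refine E_congr_ae fun a ha => ?_
    dsimp only
    rw [log_mul (pr_pos (P := fun a' => g a' = g a) ha rfl).ne' (hpos a ha).ne']
    ring
  · intro S
    calc ∑ x ∈ S, μ.pr (fun a => g a = x.2) * q x.2 x.1
        ≤ ∑ x ∈ S.image Prod.fst ×ˢ S.image Prod.snd, μ.pr (fun a => g a = x.2) * q x.2 x.1 :=
          sum_le_sum_of_subset_of_nonneg subset_product
            fun x _ _ => mul_nonneg (pr_nonneg _ _) (hnn _ _)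
      _ = ∑ c ∈ S.image Prod.snd, μ.pr (fun a => g a = c) * ∑ b ∈ S.image Prod.fst, q c b := by
          rw [sum_product_right]; simp only [mul_sum]
      _ ≤ ∑ c ∈ S.image Prod.snd, μ.pr (fun a => g a = c) :=
          sum_le_sum fun c _ => mul_le_of_le_one_right (pr_nonneg _ _) (hq _ _)
      _ ≤ 1 := sum_pr_le_one _ _ _

lemma Hc_nonneg (μ : FD α) (f : α → β) (g : α → γ) : 0 ≤ μ.Hc f g :=
  sub_nonneg.2 (H_le_of_det fun _ _ h => (Prod.ext_iff.1 h).2)

lemma Hc_pair_le (μ : FD α) (f : α → β) (g : α → γ) (k : α → δ) :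
    μ.Hc f (fun a => (g a, k a)) ≤ μ.Hc f k := by
  classical
  refine (Hc_gibbs μ f (fun a => (g a, k a))
    (fun c b => μ.pr (fun a => (f a, k a) = (b, c.2)) / μ.pr (fun a => k a = c.2))
    (fun c b => div_nonneg (pr_nonneg _ _) (pr_nonneg _ _)) (fun c S => ?_)
    (fun a ha => div_pos (pr_pos ha rfl) (pr_pos ha rfl))).trans (le_of_eq ?_)
  · rw [← sum_div]
    refine div_le_one_of_le₀ ?_ (pr_nonneg _ _)
    unfold pr
    rw [← E_sum]
    refine E_mono fun a => ?_
    by_cases h : k a = c.2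
    · simp only [h, Prod.mk.injEq, and_true, if_true]
      rw [sum_ite_eq]; split_ifs <;> norm_num
    · simp [h]
  · unfold Hc H
    rw [← E_sub]
    refine E_congr_ae fun a ha => ?_
    dsimp only
    rw [log_div (pr_pos (P := fun a' => (f a', k a') = (f a, k a)) ha rfl).ne'
      (pr_pos (P := fun a' => k a' = k a) ha rfl).ne']
    ring

/-- conditioning on more reduces entropy -/
theorem Hc_anti {μ : FD α} (f : α → β) {g : α → γ} {k : α → δ}
    (h : ∀ a a', g a = g a' → k a = k a') : μ.Hc f g ≤ μ.Hc f k := by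
  refine le_trans (le_of_eq ?_) (Hc_pair_le μ f g k)
  unfold Hc
  congr 1
  · refine H_eq_of_det fun a a' => ?_
    simp only [Prod.mk.injEq]
    exact ⟨fun h' => ⟨h'.1, h'.2.1⟩, fun h' => ⟨h'.1, h'.2, h _ _ h'.2⟩⟩
  · refine H_eq_of_det fun a a' => ?_
    simp only [Prod.mk.injEq]
    exact ⟨fun h' => h'.1, fun h' => ⟨h', h _ _ h'⟩⟩

/-- if `(f', g)` determines `f` then `H(f | g) ≤ H(f' | g)` -/
lemma Hc_le_of_det {μ : FD α} {f : α → β} {f' : α → δ} {g : α → γ}
    (h : ∀ a a', f' a = f' a' → g a = g a' → f a = f a') : μ.Hc f g ≤ μ.Hc f' g := by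
  unfold Hc
  refine sub_le_sub_right (H_le_of_det fun a a' h' => ?_) _
  simp only [Prod.mk.injEq] at h' ⊢
  exact ⟨h _ _ h'.1 h'.2, h'.2⟩

lemma Hc_const (μ : FD α) (f : α → β) {g : α → γ} (h : ∀ a a', g a = g a') :
    μ.Hc f g = μ.H f := by
  unfold Hc
  rw [H_const μ h, sub_zero]
  exact H_eq_of_det fun a a' => by simp [h a a']

lemma Hc_le_H (μ : FD α) (f : α → β) (g : α → γ) : μ.Hc f g ≤ μ.H f := by
  rw [← Hc_const μ f (g := fun _ => ()) (fun _ _ => rfl)]
  exact Hc_anti f fun _ _ _ => rfl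

lemma H_pair_le (μ : FD α) (f : α → β) (g : α → γ) :
    μ.H (fun a => (f a, g a)) ≤ μ.H f + μ.H g := by
  have := Hc_le_H μ f g
  unfold Hc at this; linarith

lemma H_sub_le_Hc (μ : FD α) (f : α → β) (g : α → γ) : μ.H f - μ.H g ≤ μ.Hc f g := by
  have := H_le_of_det (μ := μ) (f := f) (g := fun a => (f a, g a))
    fun _ _ h => (Prod.ext_iff.1 h).1
  unfold Hc; linarith

/-- chain rule -/
lemma Hc_chain (μ : FD α) (f : α → β) (f' : α → δ) (g : α → γ) :
    μ.Hc (fun a => (f a, f' a)) g = μ.Hc f (fun a => (f' a, g a)) + μ.Hc f' g := by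
  unfold Hc
  have : μ.H (fun a => ((f a, f' a), g a)) = μ.H (fun a => (f a, f' a, g a)) :=
    H_eq_of_det fun a a' => by simp only [Prod.mk.injEq, and_assoc]
  rw [this]; ring

lemma Hc_pair_le_add (μ : FD α) (f : α → β) (f' : α → δ) (g : α → γ) :
    μ.Hc (fun a => (f a, f' a)) g ≤ μ.Hc f g + μ.Hc f' g := by
  rw [Hc_chain]
  have := Hc_pair_le μ f f' g
  linarith

/-- extra conditioning costs at most its entropy -/
lemma Hc_sub_le (μ : FD α) (f : α → β) (k : α → δ) (g : α → γ) :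
    μ.Hc f g - μ.H k ≤ μ.Hc f (fun a => (k a, g a)) := by
  have h1 := Hc_chain μ f k g
  have h2 : μ.Hc f g ≤ μ.Hc (fun a => (f a, k a)) g :=
    Hc_le_of_det fun _ _ h _ => (Prod.ext_iff.1 h).1
  have h3 := Hc_le_H μ k g
  linarith

theorem Hc_le_log_card (μ : FD α) (f : α → β) (g : α → γ) (U : γ → Finset β)
    (h : μ.AE (fun a => f a ∈ U (g a))) :
    μ.Hc f g ≤ μ.E (fun a => log (U (g a)).card) := by
  classical
  refine (Hc_gibbs μ f g (fun c b => if b ∈ U c then ((U c).card : ℝ)⁻¹ else 0)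
    (fun c b => by split_ifs <;> positivity) (fun c S => ?_) (h.mono fun a ha => ?_)).trans
    (le_of_eq (E_congr_ae (h.mono fun a ha => by simp [ha])))
  · rw [← sum_filter, sum_const, nsmul_eq_mul, ← div_eq_mul_inv]
    refine div_le_one_of_le₀ ?_ (by positivity)
    exact_mod_cast card_le_card fun b hb => (mem_filter.1 hb).2
  · simp only [ha, if_true]
    have : 0 < (U (g a)).card := card_pos.2 ⟨_, ha⟩
    positivity

theorem H_le_log_card (μ : FD α) (f : α → β) (S : Finset β) (h : μ.AE (fun a => f a ∈ S)) :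
    μ.H f ≤ log S.card := by
  rw [← Hc_const μ f (g := fun _ => ()) (fun _ _ => rfl)]
  simpa using Hc_le_log_card μ f (fun _ => ()) (fun _ => S) h

/-- min-entropy bound -/
theorem le_H_of_pr_le (μ : FD α) (f : α → β) {θ : ℝ}
    (h : μ.AE (fun a => μ.pr (fun a' => f a' = f a) ≤ θ)) : - log θ ≤ μ.H f :=
  le_E_of_ae fun a ha => neg_le_neg (log_le_log (pr_pos ha rfl) (h a ha))

/-- concavity of entropy -/
theorem E_H_le_bind (μ : FD α) (K : α → FD β) (f : β → γ) :
    μ.E (fun a => (K a).H f) ≤ (μ.bind K).H f := by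
  unfold H
  rw [E_bind]
  have hae := AE_of_bind (AE_self (μ.bind K))
  refine E_mono_ae (hae.mono fun a ha => ?_)
  exact gibbs (K a) f (fun c => (μ.bind K).pr (fun b => f b = c)) (sum_pr_le_one _ _)
    (ha.mono fun b hb => pr_pos hb rfl)

lemma pr_def (μ : FD α) (P : α → Prop) [DecidablePred P] :
    μ.pr P = μ.E (fun a => if P a then 1 else 0) := by
  unfold pr; exact E_congr fun a => by congr

lemma Hc_def (μ : FD α) (f : α → β) (g : α → γ) :
    μ.Hc f g = μ.H (fun a => (f a, g a)) - μ.H g := rfl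

attribute [irreducible] pr H Hc

end FD

end Crest.Agent.R2
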