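import Mathlib

/-!
Finitely supported probability distributions as a monad, with expectations.
-/

set_option autoImplicit false

namespace Crest.Agent.R2

open Finset

/-- finitely supported probability distribution -/
structure FD (α : Type*) where
  w : α →₀ ℝ
  nn : ∀ a, 0 ≤ w a
  one : ∑ a ∈ w.support, w a = 1

namespace FD

variable {α β γ : Type*}

/-- expectation -/
noncomputable def E (μ : FD α) (f : α → ℝ) : ℝ := ∑ a ∈ μ.w.support, μ.w a * f a

/-- almost surely -/
def AE (μ : FD α) (P : α → Prop) : Prop := ∀ a, μ.w a ≠ 0 → P a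

lemma E_eq_lc (μ : FD α) (f : α → ℝ) : μ.E f = Finsupp.linearCombination ℝ f μ.w := by
  rw [Finsupp.linearCombination_apply, Finsupp.sum]; rfl

lemma AE.of_forall {μ : FD α} {P : α → Prop} (h : ∀ a, P a) : μ.AE P := fun a _ => h a

lemma AE.mono {μ : FD α} {P Q : α → Prop} (h : μ.AE P) (hPQ : ∀ a, P a → Q a) : μ.AE Q :=
  fun a ha => hPQ a (h a ha)

lemma AE.and {μ : FD α} {P Q : α → Prop} (h : μ.AE P) (h' : μ.AE Q) :
    μ.AE (fun a => P a ∧ Q a) := fun a ha => ⟨h a ha, h' a ha⟩

lemma AE_self (μ : FD α) : μ.AE (fun a => μ.w a ≠ 0) := fun _ h => h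

@[simp] lemma E_const (μ : FD α) (c : ℝ) : μ.E (fun _ => c) = c := by
  unfold E; rw [← sum_mul, μ.one, one_mul]

lemma E_add (μ : FD α) (f g : α → ℝ) : μ.E (fun a => f a + g a) = μ.E f + μ.E g := by
  unfold E; rw [← sum_add_distrib]; exact sum_congr rfl fun _ _ => mul_add _ _ _

lemma E_sub (μ : FD α) (f g : α → ℝ) : μ.E (fun a => f a - g a) = μ.E f - μ.E g := by
  unfold E; rw [← sum_sub_distrib]; exact sum_congr rfl fun _ _ => mul_sub _ _ _

lemma E_neg (μ : FD α) (f : α → ℝ) : μ.E (fun a => - f a) = - μ.E f := by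
  unfold E; rw [← sum_neg_distrib]; exact sum_congr rfl fun _ _ => mul_neg _ _

lemma E_const_mul (μ : FD α) (c : ℝ) (f : α → ℝ) : μ.E (fun a => c * f a) = c * μ.E f := by
  unfold E; rw [mul_sum]; exact sum_congr rfl fun _ _ => by ring

lemma E_mul_const (μ : FD α) (c : ℝ) (f : α → ℝ) : μ.E (fun a => f a * c) = μ.E f * c := by
  unfold E; rw [sum_mul]; exact sum_congr rfl fun _ _ => by ring

lemma E_div_const (μ : FD α) (c : ℝ) (f : α → ℝ) : μ.E (fun a => f a / c) = μ.E f / c := by
  simp only [div_eq_mul_inv, E_mul_const]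

lemma E_sum {ι : Type*} (μ : FD α) (s : Finset ι) (f : ι → α → ℝ) :
    μ.E (fun a => ∑ i ∈ s, f i a) = ∑ i ∈ s, μ.E (f i) := by
  unfold E; simp only [mul_sum]; exact sum_comm

lemma E_mono_ae {μ : FD α} {f g : α → ℝ} (h : μ.AE (fun a => f a ≤ g a)) : μ.E f ≤ μ.E g :=
  sum_le_sum fun a ha => mul_le_mul_of_nonneg_left (h a (Finsupp.mem_support_iff.1 ha)) (μ.nn a)

lemma E_mono {μ : FD α} {f g : α → ℝ} (h : ∀ a, f a ≤ g a) : μ.E f ≤ μ.E g :=
  E_mono_ae (AE.of_forall h)

lemma E_congr_ae {μ : FD α} {f g : α → ℝ} (h : μ.AE (fun a => f a = g a)) : μ.E f = μ.E g :=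
  le_antisymm (E_mono_ae (h.mono fun _ h => h.le)) (E_mono_ae (h.mono fun _ h => h.ge))

lemma E_congr {μ : FD α} {f g : α → ℝ} (h : ∀ a, f a = g a) : μ.E f = μ.E g :=
  E_congr_ae (AE.of_forall h)

lemma E_le_of_ae {μ : FD α} {f : α → ℝ} {c : ℝ} (h : μ.AE (fun a => f a ≤ c)) : μ.E f ≤ c := by
  simpa using E_mono_ae (g := fun _ => c) h

lemma le_E_of_ae {μ : FD α} {f : α → ℝ} {c : ℝ} (h : μ.AE (fun a => c ≤ f a)) : c ≤ μ.E f := by
  simpa using E_mono_ae (f := fun _ => c) h

lemma E_nonneg {μ : FD α} {f : α → ℝ} (h : ∀ a, 0 ≤ f a) : 0 ≤ μ.E f :=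
  le_E_of_ae (AE.of_forall h)

lemma E_comm (μ : FD α) (ν : FD β) (f : α → β → ℝ) :
    μ.E (fun a => ν.E (fun b => f a b)) = ν.E (fun b => μ.E (fun a => f a b)) := by
  unfold E
  simp only [mul_sum]
  rw [sum_comm]
  exact sum_congr rfl fun _ _ => sum_congr rfl fun _ _ => by ring

lemma single_le_E {μ : FD α} {f : α → ℝ} (h : μ.AE (fun a => 0 ≤ f a)) (a : α) :
    μ.w a * f a ≤ μ.E f := by
  by_cases ha : μ.w a = 0
  · rw [ha, zero_mul]; exact le_E_of_ae h
  · exact single_le_sum (f := fun a => μ.w a * f a)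
      (fun b hb => mul_nonneg (μ.nn b) (h b (Finsupp.mem_support_iff.1 hb)))
      (Finsupp.mem_support_iff.2 ha)

lemma exists_le_E (μ : FD α) (f : α → ℝ) : ∃ a, μ.w a ≠ 0 ∧ f a ≤ μ.E f := by
  have hne : μ.w.support.Nonempty := by
    rw [nonempty_iff_ne_empty]; intro h; have := μ.one; rw [h] at this; simp at this
  obtain ⟨a, ha, hmin⟩ := exists_min_image μ.w.support f hne
  exact ⟨a, Finsupp.mem_support_iff.1 ha,
    le_E_of_ae fun b hb => hmin b (Finsupp.mem_support_iff.2 hb)⟩

open Classical in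
lemma w_eq_E (μ : FD α) (a : α) : μ.w a = μ.E (fun b => if b = a then 1 else 0) := by
  unfold E
  simp only [mul_ite, mul_one, mul_zero, sum_ite_eq', Finsupp.mem_support_iff]
  split_ifs with h
  · rfl
  · simpa using h

theorem ext_E {μ ν : FD α} (h : ∀ f, μ.E f = ν.E f) : μ = ν := by
  have : μ.w = ν.w := by ext a; rw [w_eq_E, w_eq_E, h]
  cases μ; cases ν; simp only at this; subst this; rfl

lemma one_of_lc {v : α →₀ ℝ} (h : Finsupp.linearCombination ℝ (fun _ => (1 : ℝ)) v = 1) :
    ∑ a ∈ v.support, v a = 1 := by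
  rw [Finsupp.linearCombination_apply, Finsupp.sum] at h
  simpa using h

/-- point mass -/
noncomputable def pure (a : α) : FD α where
  w := Finsupp.single a 1
  nn := fun b => by classical rw [Finsupp.single_apply]; split_ifs <;> norm_num
  one := one_of_lc (by simp)

@[simp] lemma E_pure (a : α) (f : α → ℝ) : (pure a).E f = f a := by
  rw [E_eq_lc]; simp [pure]

lemma lc_bind (μ : FD α) (K : α → FD β) (f : β → ℝ) :
    Finsupp.linearCombination ℝ f (∑ a ∈ μ.w.support, μ.w a • (K a).w) =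
      μ.E (fun a => (K a).E f) := by
  rw [map_sum]
  exact sum_congr rfl fun a _ => by rw [map_smul, ← E_eq_lc, smul_eq_mul]

/-- mixture -/
noncomputable def bind (μ : FD α) (K : α → FD β) : FD β where
  w := ∑ a ∈ μ.w.support, μ.w a • (K a).w
  nn := fun b => by
    rw [Finsupp.finsetSum_apply]
    exact sum_nonneg fun a _ => by
      rw [Finsupp.smul_apply, smul_eq_mul]; exact mul_nonneg (μ.nn a) ((K a).nn b)
  one := one_of_lc (by rw [lc_bind]; simp)

@[simp] lemma E_bind (μ : FD α) (K : α → FD β) (f : β → ℝ) :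
    (μ.bind K).E f = μ.E (fun a => (K a).E f) := by
  rw [E_eq_lc, ← lc_bind]; rfl

/-- image law -/
noncomputable def map (g : α → β) (μ : FD α) : FD β := μ.bind (fun a => pure (g a))

@[simp] lemma E_map (g : α → β) (μ : FD α) (f : β → ℝ) :
    (μ.map g).E f = μ.E (fun a => f (g a)) := by
  simp [map]

/-- uniform law on a non-empty finite set -/
noncomputable def unif (s : Finset α) (hs : s.Nonempty) : FD α where
  w := ∑ a ∈ s, Finsupp.single a ((s.card : ℝ)⁻¹)
  nn := fun b => by
    classical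
    rw [Finsupp.finsetSum_apply]
    exact sum_nonneg fun a _ => by rw [Finsupp.single_apply]; split_ifs <;> positivity
  one := one_of_lc (by
    rw [map_sum]
    have : (s.card : ℝ) ≠ 0 := by exact_mod_cast hs.card_pos.ne'
    simp [this])

lemma E_unif (s : Finset α) (hs : s.Nonempty) (f : α → ℝ) :
    (unif s hs).E f = (∑ a ∈ s, f a) / s.card := by
  rw [E_eq_lc]
  simp only [unif, map_sum, Finsupp.linearCombination_single, smul_eq_mul]
  rw [← mul_sum, div_eq_inv_mul]

open Classical in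
lemma AE_iff {μ : FD α} {P : α → Prop} :
    μ.AE P ↔ μ.E (fun a => if P a then 0 else 1) = 0 := by
  constructor
  · intro h
    exact (E_congr_ae (h.mono fun a ha => by simp [ha])).trans (E_const μ 0)
  · intro h a ha
    by_contra hP
    have := single_le_E (μ := μ) (f := fun a => if P a then 0 else 1)
      (AE.of_forall fun a => by split_ifs <;> norm_num) a
    rw [h] at this
    simp only [hP, if_false, mul_one] at this
    exact ha (le_antisymm this (μ.nn a))

lemma AE_pure {a : α} {P : α → Prop} (h : P a) : (pure a).AE P := by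
  rw [AE_iff]; simp [h]

lemma AE_bind {μ : FD α} {K : α → FD β} {P : β → Prop} (h : μ.AE (fun a => (K a).AE P)) :
    (μ.bind K).AE P := by
  rw [AE_iff, E_bind]
  exact (E_congr_ae (h.mono fun a ha => AE_iff.1 ha)).trans (E_const μ 0)

lemma AE_of_bind {μ : FD α} {K : α → FD β} {P : β → Prop} (h : (μ.bind K).AE P) :
    μ.AE (fun a => (K a).AE P) := by
  classical
  intro a ha
  rw [AE_iff, E_bind] at h
  rw [AE_iff]
  have h0 : ∀ a, 0 ≤ (K a).E (fun b => if P b then 0 else 1) :=
    fun a => E_nonneg fun b => by split_ifs <;> norm_num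
  have := single_le_E (μ := μ) (AE.of_forall h0) a
  have hw : 0 < μ.w a := lt_of_le_of_ne (μ.nn a) (Ne.symm ha)
  have h2 : μ.w a * (K a).E (fun b => if P b then 0 else 1) ≤ 0 := by
    convert this using 1; exact h.symm
  exact le_antisymm (by
    by_contra hc
    exact absurd h2 (not_le.2 (mul_pos hw (not_le.1 hc)))) (h0 a)

lemma AE_map {μ : FD α} {g : α → β} {P : β → Prop} (h : μ.AE (fun a => P (g a))) :
    (μ.map g).AE P :=
  AE_bind (h.mono fun _ ha => AE_pure ha)

lemma AE_unif {s : Finset α} {hs : s.Nonempty} {P : α → Prop} (h : ∀ a ∈ s, P a) :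
    (unif s hs).AE P := by
  rw [AE_iff, E_unif, sum_eq_zero, zero_div]
  intro a ha; simp [h a ha]

lemma bind_assoc (μ : FD α) (K : α → FD β) (L : β → FD γ) :
    (μ.bind K).bind L = μ.bind (fun a => (K a).bind L) :=
  ext_E fun f => by simp

@[simp] lemma pure_bind (a : α) (K : α → FD β) : (pure a).bind K = K a :=
  ext_E fun f => by simp

/-- independent copies, as a list -/
noncomputable def iid (ν : FD α) : ℕ → FD (List α)
  | 0 => pure []
  | n + 1 => ν.bind (fun a => (iid ν n).map (fun l => a :: l))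

@[simp] lemma E_iid_zero (ν : FD α) (F : List α → ℝ) : (iid ν 0).E F = F [] := by
  simp [iid]

lemma E_iid_succ (ν : FD α) (n : ℕ) (F : List α → ℝ) :
    (iid ν (n + 1)).E F = ν.E (fun a => (iid ν n).E (fun l => F (a :: l))) := by
  simp [iid]

lemma E_iid_add (ν : FD α) (n m : ℕ) (F : List α → ℝ) :
    (iid ν (n + m)).E F = (iid ν n).E (fun l => (iid ν m).E (fun l' => F (l ++ l'))) := by
  induction n generalizing F with
  | zero => simp
  | succ n ih =>
    rw [show n + 1 + m = (n + m) + 1 by ring, E_iid_succ, E_iid_succ]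
    exact E_congr fun a => by rw [ih]; rfl

lemma AE_iid {ν : FD α} {P : α → Prop} (h : ν.AE P) (n : ℕ) :
    (iid ν n).AE (fun l => l.length = n ∧ ∀ a ∈ l, P a) := by
  induction n with
  | zero => exact AE_pure (by simp)
  | succ n ih =>
    refine AE_bind (h.mono fun a ha => AE_map (ih.mono fun l hl => ⟨by simp [hl.1], ?_⟩))
    intro b hb
    rcases List.mem_cons.1 hb with rfl | hb
    · exact ha
    · exact hl.2 b hb

lemma E_iid_sum (ν : FD α) (n : ℕ) (f : α → ℝ) :
    (iid ν n).E (fun l => (l.map f).sum) = n * ν.E f := by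
  induction n with
  | zero => simp
  | succ n ih =>
    rw [E_iid_succ]
    simp only [List.map_cons, List.sum_cons, E_add, E_const, ih]
    push_cast; ring

open Classical in
lemma E_iid_all (ν : FD α) (n : ℕ) (P : α → Prop) :
    (iid ν n).E (fun l => if ∀ a ∈ l, P a then 1 else 0) =
      (ν.E (fun a => if P a then 1 else 0)) ^ n := by
  induction n with
  | zero => simp
  | succ n ih =>
    rw [E_iid_succ, pow_succ', ← E_mul_const]
    refine E_congr fun a => ?_
    rw [← ih, ← E_const_mul]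
    refine E_congr fun l => ?_
    by_cases h : P a <;> simp [h]

attribute [irreducible] E

end FD

end Crest.Agent.R2
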