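import Crest.Agent.R2.Win

/-!
TASK (rid 2) Gain: `n` windows of length `h` leave few residues uncovered.

For a list `η` of windows let `U η = {x ∈ zs p | ∀ w ∈ η, ∀ j < h, x + phi p (w j) ≠ xp}`.
Almost surely `phi p u ∈ U (eta h (u,l))` (`phi p u + phi p (ξ j - u) = phi p (ξ j) ≠ xp`;
`AE_iid`), so `Hc ≤ E log |U|` (`Hc_le_log_card`, `E_om`).  The bijection
`x ↦ xp - x + phi p u` of `ZMod p` shows `|U (eta h (u,l))| = N l :=
#{r ∈ zs p | ∀ ξ ∈ l, ∀ j < h, phi p (ξ j) ≠ r}`, and `1 ≤ N l ≤ p` a.s.  Fix `c`.  If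
`μ = (K c).map (· 0)` has `|rare μ p| < k0`: `log N ≤ log (2 k0) + N/(2 k0) - 1`
(`log_le_sub_one_of_pos`), and `E N = ∑_r (1 - hit r)^n` (`E_sum`, `pr_iid_all`, `pr_not`) with
`hit r = (K c).pr (∃ j < h, phi p (ξ j) = r)`.  Almost surely the residues `phi p (ξ j)`, `j < h`,
are distinct (`0 < N(ξ i - ξ j) ≤ 2 (D h)^2 < p`, `dvd_norm_of_phi`, `nm_walk_le`), so
`hit r = ∑_{j<h} (K c).pr (phi p (ξ j) = r) = h μ.pr (phi p · = r)` by shift invariance;
for `r ∉ rare μ p` this is `≥ h/(1024 p)` and `(1 - hit r)^n ≤ exp (- n h/(1024 p)) ≤ k0/p`.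
Hence `E N ≤ k0 + k0`.  Otherwise use `log N ≤ log p`.
-/

set_option autoImplicit false

namespace Crest.Agent.R2

open Finset Real

open Classical in
/-- residues compatible with the windows -/
noncomputable def gain_U (p : ℕ) (xp : ZMod p) (h : ℕ) (η : List Seq) : Finset (ZMod p) :=
  (zs p).filter (fun x => ∀ w ∈ η, ∀ j < h, x + phi p (w j) ≠ xp)

open Classical in
/-- uncovered residues -/
noncomputable def gain_N (p : ℕ) (h : ℕ) (l : List Seq) : Finset (ZMod p) :=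
  (zs p).filter (fun r => ∀ ξ ∈ l, ∀ j < h, phi p (ξ j) ≠ r)

lemma gain_mem_U {p : ℕ} (hp : p ≠ 0) (xp : ZMod p) (h : ℕ) (u : ℤ × ℤ) (l : List Seq)
    (x : ZMod p) :
    x ∈ gain_U p xp h (eta h (u, l)) ↔ xp - x + phi p u ∈ gain_N p h l := by
  classical
  unfold gain_U gain_N eta
  simp only [mem_filter, mem_zs hp, true_and, List.forall_mem_map]
  refine forall_congr' fun ξ => forall_congr' fun _ => forall_congr' fun j =>
    forall_congr' fun hj => ?_
  simp only [win, hj, if_true, phi_sub]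
  constructor
  · intro H H'; apply H; rw [H']; ring
  · intro H H'; apply H; rw [← H']; ring

lemma gain_card_U {p : ℕ} (hp : p ≠ 0) (xp : ZMod p) (h : ℕ) (u : ℤ × ℤ) (l : List Seq) :
    (gain_U p xp h (eta h (u, l))).card = (gain_N p h l).card := by
  refine card_bij (fun x _ => xp - x + phi p u) (fun x hx => (gain_mem_U hp xp h u l x).1 hx)
    (fun x _ y _ hxy => ?_) (fun r hr => ⟨xp - r + phi p u, ?_, by ring⟩)
  · have : xp - x + phi p u = xp - y + phi p u := hxy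
    linear_combination -this
  · rw [gain_mem_U hp]
    convert hr using 1
    ring

/-- the residues of a short piece of walk are distinct -/
lemma gain_inj {p : ℕ} (hp : p.Prime) (h4 : p % 4 = 1) {h D : ℕ} (hcol : 2 * (D * h) ^ 2 < p)
    {ξ : Seq} (hs : ∀ j, nm (ξ (j + 1) - ξ j) ≤ D) (hi : ∀ i < h, ∀ j < h, ξ i = ξ j → i = j)
    {i j : ℕ} (hih : i < h) (hjh : j < h) (he : phi p (ξ i) = phi p (ξ j)) : i = j := by
  wlog hij : i ≤ j generalizing i j
  · exact (this hjh hih he.symm (by omega)).symm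
  obtain ⟨d, rfl⟩ := Nat.exists_eq_add_of_le hij
  refine hi i hih (i + d) hjh ?_
  have h1 : nm (ξ (i + d) - ξ i) ≤ D * h :=
    (nm_walk_le hs i d).trans (Nat.mul_le_mul_left _ (by omega))
  have h2 : phi p (ξ (i + d) - ξ i) = 0 := by rw [phi_sub, he, sub_self]
  have h3 := dvd_norm_of_phi hp h4 h2
  rw [nm_le_iff] at h1
  set v := ξ (i + d) - ξ i with hv
  have h5 : v.1 ^ 2 ≤ ((D * h : ℕ) : ℤ) ^ 2 := sq_le_sq' (abs_le.1 h1.1).1 (abs_le.1 h1.1).2
  have h6 : v.2 ^ 2 ≤ ((D * h : ℕ) : ℤ) ^ 2 := sq_le_sq' (abs_le.1 h1.2).1 (abs_le.1 h1.2).2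
  have h7 : 2 * ((D * h : ℕ) : ℤ) ^ 2 < p := by exact_mod_cast hcol
  have h8 : v.1 ^ 2 + v.2 ^ 2 = 0 :=
    Int.eq_zero_of_dvd_of_nonneg_of_lt (by positivity) (by linarith) h3
  have h9 : v.1 = 0 := by nlinarith [sq_nonneg v.1, sq_nonneg v.2]
  have h10 : v.2 = 0 := by nlinarith [sq_nonneg v.1, sq_nonneg v.2]
  have : v = 0 := Prod.ext h9 h10
  rw [hv, sub_eq_zero] at this
  exact this.symm

lemma gain_miss (ν : FD Seq) {p : ℕ} {h : ℕ} (hsh : ∀ j, ν.map (sh j) = ν)
    (hinj : ν.AE fun ξ => ∀ i < h, ∀ j < h, phi p (ξ i) = phi p (ξ j) → i = j) (r : ZMod p) :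
    ν.pr (fun ξ => ∀ j < h, phi p (ξ j) ≠ r) ≤
      1 - h * (ν.map (fun ξ => ξ 0)).pr (fun u => phi p u = r) := by
  classical
  have h1 : ∀ j, ν.pr (fun ξ => phi p (ξ j) = r) =
      (ν.map (fun ξ => ξ 0)).pr (fun u => phi p u = r) := fun j => by
    conv_rhs => rw [← hsh j]
    simp [sh]
  have h2 : (h : ℝ) * (ν.map (fun ξ => ξ 0)).pr (fun u => phi p u = r) =
      ∑ j ∈ range h, ν.pr (fun ξ => phi p (ξ j) = r) := by
    simp only [h1, sum_const, card_range, nsmul_eq_mul]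
  rw [h2]
  simp only [FD.pr_def]
  rw [← FD.E_sum, le_sub_iff_add_le, ← FD.E_add]
  refine FD.E_le_of_ae (hinj.mono fun ξ hξ => ?_)
  split_ifs with hall
  · rw [sum_eq_zero fun j hj => if_neg (hall j (mem_range.1 hj))]; simp
  · rw [zero_add, ← sum_filter, sum_const, nsmul_eq_mul, mul_one]
    have : ((range h).filter fun j => phi p (ξ j) = r).card ≤ 1 := by
      refine card_le_one.2 fun a ha b hb => ?_
      rw [mem_filter, mem_range] at ha hb
      exact hξ a ha.1 b hb.1 (ha.2.trans hb.2.symm)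
    exact_mod_cast this

lemma gain_EN (ν : FD Seq) {p : ℕ} (h n : ℕ) :
    (FD.iid ν n).E (fun l => ((gain_N p h l).card : ℝ)) =
      ∑ r ∈ zs p, (ν.pr (fun ξ => ∀ j < h, phi p (ξ j) ≠ r)) ^ n := by
  classical
  simp only [← FD.pr_iid_all]
  simp only [FD.pr_def]
  rw [← FD.E_sum]
  refine FD.E_congr fun l => ?_
  unfold gain_N
  rw [card_filter]
  push_cast
  refine sum_congr rfl fun r _ => ?_
  congr

lemma gain_EN_le (ν : FD Seq) {p : ℕ} (hp : p ≠ 0) {h n k0 : ℕ} (hk0 : 0 < k0)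
    (hsh : ∀ j, ν.map (sh j) = ν)
    (hinj : ν.AE fun ξ => ∀ i < h, ∀ j < h, phi p (ξ i) = phi p (ξ j) → i = j)
    (hn : log (p / k0) ≤ n * h / (1024 * p))
    (hr : (rare (ν.map (fun ξ => ξ 0)) p).card < k0) :
    (FD.iid ν n).E (fun l => ((gain_N p h l).card : ℝ)) ≤ 2 * k0 := by
  classical
  have hp0 : (0 : ℝ) < p := by exact_mod_cast Nat.pos_of_ne_zero hp
  have hk : (0 : ℝ) < k0 := by exact_mod_cast hk0
  rw [gain_EN]
  set R := rare (ν.map (fun ξ => ξ 0)) p with hR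
  have key : ∀ r ∈ zs p, (ν.pr (fun ξ => ∀ j < h, phi p (ξ j) ≠ r)) ^ n ≤
      (if r ∈ R then 1 else 0) + k0 / p := by
    intro r hr'
    split_ifs with hrR
    · have := pow_le_one₀ (n := n) (ν.pr_nonneg (fun ξ => ∀ j < h, phi p (ξ j) ≠ r))
        (ν.pr_le_one _)
      have : (0 : ℝ) ≤ k0 / p := by positivity
      linarith
    · rw [zero_add]
      have hm : 1 / (1024 * p) ≤ (ν.map (fun ξ => ξ 0)).pr (fun u => phi p u = r) := by
        by_contra hc
        exact hrR (by rw [hR, rare, mem_filter]; exact ⟨hr', not_le.1 hc⟩)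
      have h1 := gain_miss ν hsh hinj r
      have h2 : ν.pr (fun ξ => ∀ j < h, phi p (ξ j) ≠ r) ≤ exp (- (h / (1024 * p))) := by
        have h3 := add_one_le_exp (- ((h : ℝ) / (1024 * p)))
        have h4 : (h : ℝ) * (1 / (1024 * p)) ≤
            h * (ν.map (fun ξ => ξ 0)).pr (fun u => phi p u = r) :=
          mul_le_mul_of_nonneg_left hm (Nat.cast_nonneg h)
        have h5 : (h : ℝ) * (1 / (1024 * p)) = h / (1024 * p) := by ring
        linarith
      refine (pow_le_pow_left₀ (ν.pr_nonneg _) h2 n).trans ?_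
      rw [← exp_nat_mul]
      have h6 : (k0 : ℝ) / p = exp (- log (p / k0)) := by
        rw [exp_neg, exp_log (by positivity), inv_div]
      rw [h6, exp_le_exp]
      have h7 : (n : ℝ) * -(h / (1024 * p)) = - (n * h / (1024 * p)) := by ring
      linarith
  refine (sum_le_sum key).trans ?_
  rw [sum_add_distrib, sum_const, card_zs, nsmul_eq_mul, ← sum_filter, sum_const, nsmul_eq_mul,
    mul_one, mul_div_cancel₀ _ hp0.ne']
  have h1 : ((zs p).filter (fun r => r ∈ R)).card ≤ R.card :=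
    card_le_card fun r hr => (mem_filter.1 hr).2
  have h2 : (((zs p).filter (fun r => r ∈ R)).card : ℝ) ≤ k0 := by exact_mod_cast (h1.trans hr.le)
  linarith

theorem gain_one (κ : FD ℕ) (K : ℕ → FD Seq) (p : ℕ) (hp : p.Prime) (h4 : p % 4 = 1)
    (xp : ZMod p) (h n k0 D : ℕ) (hk0 : 0 < k0) (hsh : ∀ c j, (K c).map (sh j) = K c)
    (hK : ∀ c, (K c).AE fun ξ => (∀ j, phi p (ξ j) ≠ xp) ∧ (∀ j, nm (ξ (j + 1) - ξ j) ≤ D) ∧
      ∀ i < h, ∀ j < h, ξ i = ξ j → i = j)
    (hcol : 2 * (D * h) ^ 2 < p) (hn : log (p / k0) ≤ n * h / (1024 * p)) :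
    (om κ K n).Hc (fun x => phi p x.1) (eta h) ≤
      κ.E fun c => if (rare ((K c).map (fun ξ => ξ 0)) p).card < k0 then log (2 * k0)
        else log p := by
  classical
  have hp0 : p ≠ 0 := hp.ne_zero
  have hk : (0 : ℝ) < k0 := by exact_mod_cast hk0
  have hN : ∀ c, (FD.iid (K c) n).AE fun l => xp ∈ gain_N p h l := fun c =>
    (FD.AE_iid (hK c) n).mono fun l hl => by
      unfold gain_N
      exact mem_filter.2 ⟨mem_zs hp0 _, fun ξ hξ j _ => (hl.2 ξ hξ).1 j⟩
  have hae : (om κ K n).AE fun x => phi p x.1 ∈ gain_U p xp h (eta h x) := by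
    refine FD.AE_bind (FD.AE.of_forall fun c => FD.AE_bind (FD.AE.of_forall fun ξ =>
      FD.AE_map ((hN c).mono fun l hl => ?_)))
    rw [gain_mem_U hp0]
    simpa using hl
  refine (FD.Hc_le_log_card _ _ _ _ hae).trans ?_
  rw [E_om]
  refine FD.E_mono fun c => ?_
  simp only [gain_card_U hp0, FD.E_const]
  have hpos : (FD.iid (K c) n).AE fun l => (0 : ℝ) < (gain_N p h l).card :=
    (hN c).mono fun l hl => by exact_mod_cast card_pos.2 ⟨_, hl⟩
  split_ifs with hr
  · have h1 := gain_EN_le (K c) hp0 hk0 (hsh c) ((hK c).mono fun ξ hξ i hi j hj he =>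
      gain_inj hp h4 hcol hξ.2.1 hξ.2.2 hi hj he) hn hr
    have h2 : (FD.iid (K c) n).E (fun l => log ((gain_N p h l).card : ℝ)) ≤
        (FD.iid (K c) n).E (fun l => log (2 * k0) +
          (((gain_N p h l).card : ℝ) / (2 * k0) - 1)) := by
      refine FD.E_mono_ae (hpos.mono fun l hl => ?_)
      have := log_le_sub_one_of_pos (div_pos hl (show (0 : ℝ) < 2 * k0 by positivity))
      rw [log_div hl.ne' (by positivity)] at this
      linarith
    rw [FD.E_add, FD.E_sub, FD.E_const, FD.E_const, FD.E_div_const] at h2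
    have h3 : (FD.iid (K c) n).E (fun l => ((gain_N p h l).card : ℝ)) / (2 * k0) ≤ 1 :=
      div_le_one_of_le₀ h1 (by positivity)
    linarith
  · refine FD.E_le_of_ae (hpos.mono fun l hl => log_le_log hl ?_)
    have : (gain_N p h l).card ≤ (zs p).card := card_filter_le _ _
    rw [card_zs] at this
    exact_mod_cast this

end Crest.Agent.R2
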