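import Crest.Agent.R2.Win

/-!
TASK (rid 2) Psi: formal properties of the potential `Psi`.

All laws are compared with `Hc_eq_of_law` / `H_eq_of_law` / `ext_E` and `E_om`, `E_iid_add`,
`E_iid_succ`, `E_comm`.

`Psi_add`: on `ω' = κ.bind fun c => (K c).bind fun ξ => (iid n).bind fun l => (iid m).map
fun l' => (ξ 0, l, l')`, `Psi (n+m) = Hc (eta (u, l ++ l') | Y) ≤ Hc ((eta (u,l), eta (u,l')) | Y)
≤ Psi n + Psi m` (`Hc_le_of_det`, `Hc_pair_le_add`).  `Psi_mul`: induction (`Psi 0 = 0`).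

`Psi_one_le`: `Hc ≤ H`; the window `win h u ξ` is determined by `(gam h ξ, ξ 0 - u)`,
`nm (ξ 0 - u) ≤ 2 r` a.s. (`H_box_le`), and `ξ` has law `κ.bind K`.

`H_gam_le`: induction on `h`: `gam (h+1) ξ` is determined by `(gam h ξ, ξ h - ξ (h-1))`
(or by `gam h` and `ξ (h+1) - ξ h` for `gam (h+2)`), `H_box_le`.

`Psi_step`: with `ω = om κ K n`, `Psi L n - Psi (L ∪ T) n =
[H(Y (L ∪ T)) - H(Y L)] - [H(η, Y (L ∪ T)) - H(η, Y L)]` and the last bracket equals
`Hc (Y T | (η, Y L)) ≤ Hc (Y T | η) ≤ ∑_{p ∈ T} Hc (phi p | η)` (`Hc_anti`, `Hc_Y_le`).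

`Psi_ge`: induction on `n`.  On `ω' = κ.bind fun c => (K c).bind fun ξ0 => (K c).bind fun ξ =>
(iid (K c) n).map fun l => (ξ0 0, ξ, l)` put `Z = (eta (u,l), Y L u)`.  Chain rule:
`Psi (n+1) = Hc (win h u ξ | Z) + Psi n`.  For every `i`, `Hc (win h u (sh (i h) ξ) | Z) =
Hc (win h u ξ | Z)` by shift invariance (`hsh`).  By induction on `k ≥ 0`,
`Hc (win (k h) u ξ | Z) ≤ k Hc (win h u ξ | Z)` (`win ((k+1) h) u ξ` is determined by
`win (k h) u ξ` and `win h u (sh (k h) ξ)`); `gam (k h) ξ` is determined by `win (k h) u ξ`, so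
`H (gam (k h)) - H Z ≤ Hc (gam (k h) ξ | Z) ≤ k Hc (win h u ξ | Z)`, and
`H Z = Psi n + H (Y L) ≤ β`.
-/

set_option autoImplicit false

namespace Crest.Agent.R2

open Finset Real

theorem Psi_add (κ : FD ℕ) (K : ℕ → FD Seq) (h : ℕ) (L : Finset ℕ) (n m : ℕ) :
    Psi κ K h L (n + m) ≤ Psi κ K h L n + Psi κ K h L m := by
  let ω : FD ((ℤ × ℤ) × List Seq × List Seq) := κ.bind fun c => (K c).bind fun ξ =>
    (FD.iid (K c) n).bind fun l => (FD.iid (K c) m).map fun l' => (ξ 0, l, l')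
  have h1 : Psi κ K h L (n + m) =
      ω.Hc (fun x => eta h (x.1, x.2.1 ++ x.2.2)) (fun x => Y L x.1) :=
    FD.Hc_eq_of_law fun F => by simp [ω, E_om, FD.E_iid_add]
  have h2 : Psi κ K h L n = ω.Hc (fun x => eta h (x.1, x.2.1)) (fun x => Y L x.1) :=
    FD.Hc_eq_of_law fun F => by simp [ω, E_om]
  have h3 : Psi κ K h L m = ω.Hc (fun x => eta h (x.1, x.2.2)) (fun x => Y L x.1) :=
    FD.Hc_eq_of_law fun F => by simp [ω, E_om]
  rw [h1, h2, h3]
  refine le_trans (FD.Hc_le_of_det ?_) (FD.Hc_pair_le_add _ _ _ _)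
  intro a a' hh _
  simp only [Prod.mk.injEq, eta] at hh
  simp only [eta, List.map_append, hh.1, hh.2]

lemma psi_zero (κ : FD ℕ) (K : ℕ → FD Seq) (h : ℕ) (L : Finset ℕ) : Psi κ K h L 0 = 0 := by
  have h1 : Psi κ K h L 0 =
      (κ.bind K).Hc (fun _ => ([] : List Seq)) (fun ξ => Y L (ξ 0)) :=
    FD.Hc_eq_of_law fun F => by simp [E_om, eta]
  rw [h1]
  refine le_antisymm ((FD.Hc_le_H _ _ _).trans (FD.H_const _ fun _ _ => rfl).le)
    (FD.Hc_nonneg _ _ _)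

theorem Psi_mul (κ : FD ℕ) (K : ℕ → FD Seq) (h : ℕ) (L : Finset ℕ) (k n : ℕ) :
    Psi κ K h L (k * n) ≤ k * Psi κ K h L n := by
  induction k with
  | zero => simp [psi_zero]
  | succ k ih =>
    have := Psi_add κ K h L (k * n) n
    rw [Nat.succ_mul]
    push_cast
    linarith

theorem Psi_one_le (κ : FD ℕ) (K : ℕ → FD Seq) (h : ℕ) (L : Finset ℕ) (r : ℕ)
    (hr : κ.AE fun c => ∃ z, (K c).AE fun ξ => nm (ξ 0 - z) ≤ r) :
    Psi κ K h L 1 ≤ (κ.bind K).H (gam h) + 2 * log (4 * r + 1) := by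
  let ω : FD ((ℤ × ℤ) × Seq) := κ.bind fun c => (K c).bind fun ξ0 =>
    (K c).map fun ξ => (ξ0 0, ξ)
  have h1 : Psi κ K h L 1 = ω.Hc (fun x => [win h x.1 x.2]) (fun x => Y L x.1) :=
    FD.Hc_eq_of_law fun F => by simp [ω, E_om, FD.E_iid_succ, eta]
  have h2 : (κ.bind K).H (gam h) = ω.H (fun x => gam h x.2) :=
    FD.H_eq_of_law fun F => by simp [ω]
  have h3 : ω.H (fun x => [win h x.1 x.2]) ≤ ω.H (fun x => (gam h x.2, x.2 0 - x.1)) := by
    refine FD.H_le_of_det fun a a' hh => ?_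
    simp only [Prod.mk.injEq, gam, win_eq_iff] at hh
    congr 1
    rw [win_eq_iff]
    intro j hj
    linear_combination hh.1 j hj + hh.2
  have h4 : ω.AE (fun x => nm (x.2 0 - x.1) ≤ 2 * r) := by
    refine FD.AE_bind (hr.mono fun c hc => ?_)
    obtain ⟨z, hz⟩ := hc
    refine FD.AE_bind (hz.mono fun ξ0 h0 => FD.AE_map (hz.mono fun ξ hξ => ?_))
    have := nm_sub_le (ξ 0 - z) (ξ0 0 - z)
    rw [sub_sub_sub_cancel_right] at this
    change nm (ξ 0 - ξ0 0) ≤ 2 * r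
    omega
  have h5 := H_box_le ω _ _ h4
  have h6 := ω.H_pair_le (fun x => gam h x.2) (fun x => x.2 0 - x.1)
  have h7 := ω.Hc_le_H (fun x => [win h x.1 x.2]) (fun x => Y L x.1)
  have h8 : (2 * ((2 * r : ℕ) : ℝ) + 1) = 4 * r + 1 := by push_cast; ring
  rw [h8] at h5
  linarith

theorem H_gam_le (μ : FD Seq) (D h : ℕ) (hD : μ.AE fun ξ => ∀ j, nm (ξ (j + 1) - ξ j) ≤ D) :
    μ.H (gam h) ≤ h * (2 * log (2 * D + 1)) := by
  induction h with
  | zero =>
    rw [μ.H_const (f := gam 0) fun a a' => win_eq_iff.2 (by simp)]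
    simp
  | succ h ih =>
    have h3 : μ.H (gam (h + 1)) ≤ μ.H (fun ξ => (gam h ξ, ξ h - ξ (h - 1))) := by
      refine FD.H_le_of_det fun a a' hh => ?_
      simp only [Prod.mk.injEq, gam, win_eq_iff] at hh ⊢
      intro j hj
      rcases Nat.lt_succ_iff_lt_or_eq.1 hj with hj | rfl
      · exact hh.1 j hj
      · rcases Nat.eq_zero_or_pos j with rfl | hj0
        · simp
        · linear_combination hh.1 (j - 1) (by omega) + hh.2
    have h4 : μ.AE (fun ξ => nm (ξ h - ξ (h - 1)) ≤ D) := by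
      refine hD.mono fun ξ hξ => ?_
      rcases h with _ | h
      · simp
      · exact hξ h
    have h5 := H_box_le μ _ _ h4
    have h6 := μ.H_pair_le (gam h) (fun ξ => ξ h - ξ (h - 1))
    push_cast
    linarith

lemma psi_H_pos (κ : FD ℕ) (K : ℕ → FD Seq) (L : Finset ℕ) (n : ℕ) :
    ((κ.bind K).map (fun ξ => ξ 0)).H (Y L) = (om κ K n).H (fun x => Y L x.1) :=
  FD.H_eq_of_law fun F => by simp [E_om]

theorem Psi_step (κ : FD ℕ) (K : ℕ → FD Seq) (h : ℕ) (L T : Finset ℕ) (n : ℕ) :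
    Psi κ K h (L ∪ T) n ≤ Psi κ K h L n -
      (((κ.bind K).map (fun ξ => ξ 0)).H (Y (L ∪ T)) - ((κ.bind K).map (fun ξ => ξ 0)).H (Y L)) +
      ∑ p ∈ T, (om κ K n).Hc (fun x => phi p x.1) (eta h) := by
  rw [psi_H_pos κ K _ n, psi_H_pos κ K _ n]
  unfold Psi
  rw [FD.Hc_def, FD.Hc_def]
  have h1 := Hc_Y_le (om κ K n) (fun x => x.1) (eta h) T
  have h2 : (om κ K n).Hc (fun x => Y T x.1) (fun x => (eta h x, Y L x.1)) ≤
      (om κ K n).Hc (fun x => Y T x.1) (eta h) :=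
    FD.Hc_anti _ fun _ _ hh => (Prod.ext_iff.1 hh).1
  rw [FD.Hc_def] at h2
  have h3 : (om κ K n).H (fun x => (eta h x, Y (L ∪ T) x.1)) ≤
      (om κ K n).H (fun x => (Y T x.1, eta h x, Y L x.1)) := by
    refine FD.H_le_of_det fun a a' hh => ?_
    simp only [Prod.mk.injEq, Y_eq_iff] at hh ⊢
    refine ⟨hh.2.1, fun p hp => ?_⟩
    rcases mem_union.1 hp with hp | hp
    · exact hh.2.2 p hp
    · exact hh.1 p hp
  linarith

lemma psi_succ (κ : FD ℕ) (K : ℕ → FD Seq) (h : ℕ) (L : Finset ℕ)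
    (hsh : ∀ c j, (K c).map (sh j) = K c) (k : ℕ) (n : ℕ) :
    (κ.bind K).H (gam (k * h)) - (Psi κ K h L n + ((κ.bind K).map (fun ξ => ξ 0)).H (Y L)) ≤
      k * (Psi κ K h L (n + 1) - Psi κ K h L n) := by
  let ω : FD ((ℤ × ℤ) × Seq × List Seq) := κ.bind fun c => (K c).bind fun ξ0 =>
    (K c).bind fun ξ => (FD.iid (K c) n).map fun l => (ξ0 0, ξ, l)
  let Z : (ℤ × ℤ) × Seq × List Seq → List Seq × ((p : ℕ) → ZMod p) :=
    fun x => (eta h (x.1, x.2.2), Y L x.1)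
  have h1 : Psi κ K h L (n + 1) =
      ω.Hc (fun x => win h x.1 x.2.1 :: eta h (x.1, x.2.2)) (fun x => Y L x.1) :=
    FD.Hc_eq_of_law fun F => by simp [ω, E_om, FD.E_iid_succ, eta]
  have h2 : Psi κ K h L n = ω.Hc (fun x => eta h (x.1, x.2.2)) (fun x => Y L x.1) :=
    FD.Hc_eq_of_law fun F => by simp [ω, E_om]
  have h3 : ω.Hc (fun x => (win h x.1 x.2.1, eta h (x.1, x.2.2))) (fun x => Y L x.1) ≤
      ω.Hc (fun x => win h x.1 x.2.1 :: eta h (x.1, x.2.2)) (fun x => Y L x.1) := by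
    refine FD.Hc_le_of_det fun a a' hh _ => ?_
    simp only [List.cons.injEq] at hh
    rw [hh.1, hh.2]
  rw [FD.Hc_chain] at h3
  have h4 : ω.Hc (fun x => win h x.1 x.2.1) Z ≤ Psi κ K h L (n + 1) - Psi κ K h L n := by
    rw [h1, h2]; linarith
  have h5 : ∀ j, ω.Hc (fun x => win h x.1 (sh j x.2.1)) Z = ω.Hc (fun x => win h x.1 x.2.1) Z := by
    intro j
    refine FD.Hc_eq_of_law fun F => ?_
    simp only [ω, Z, FD.E_bind, FD.E_map]
    refine FD.E_congr fun c => FD.E_congr fun ξ0 => ?_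
    conv_rhs => rw [← hsh c j, FD.E_map, hsh c j]
  have h6 : ∀ i : ℕ, ω.Hc (fun x => win (i * h) x.1 x.2.1) Z ≤
      i * ω.Hc (fun x => win h x.1 x.2.1) Z := by
    intro i
    induction i with
    | zero =>
      refine (FD.Hc_le_H _ _ _).trans ?_
      rw [ω.H_const fun a a' => win_eq_iff.2 (by simp)]
      simp
    | succ i ih =>
      have a1 : ω.Hc (fun x => win ((i + 1) * h) x.1 x.2.1) Z ≤
          ω.Hc (fun x => (win (i * h) x.1 x.2.1, win h x.1 (sh (i * h) x.2.1))) Z := by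
        refine FD.Hc_le_of_det fun a a' hh _ => ?_
        simp only [Prod.mk.injEq, win_eq_iff, sh] at hh ⊢
        intro j hj
        rcases Nat.lt_or_ge j (i * h) with hj' | hj'
        · exact hh.1 j hj'
        · have := hh.2 (j - i * h) (by rw [Nat.succ_mul] at hj; omega)
          rwa [Nat.sub_add_cancel hj'] at this
      have a2 := ω.Hc_pair_le_add (fun x => win (i * h) x.1 x.2.1)
        (fun x => win h x.1 (sh (i * h) x.2.1)) Z
      rw [h5] at a2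
      push_cast
      linarith
  have h7 : ω.Hc (fun x => gam (k * h) x.2.1) Z ≤ ω.Hc (fun x => win (k * h) x.1 x.2.1) Z := by
    refine FD.Hc_le_of_det fun a a' hh _ => ?_
    simp only [gam, win_eq_iff] at hh ⊢
    intro j hj
    linear_combination hh j hj - hh 0 (by omega)
  have h8 := ω.H_sub_le_Hc (fun x => gam (k * h) x.2.1) Z
  have h9 : (κ.bind K).H (gam (k * h)) = ω.H (fun x => gam (k * h) x.2.1) :=
    FD.H_eq_of_law fun F => by simp [ω]
  have h10 : ((κ.bind K).map (fun ξ => ξ 0)).H (Y L) = ω.H (fun x => Y L x.1) :=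
    FD.H_eq_of_law fun F => by simp [ω]
  have h11 : ω.H Z = Psi κ K h L n + ((κ.bind K).map (fun ξ => ξ 0)).H (Y L) := by
    rw [h2, h10, FD.Hc_def]; ring
  have h12 := mul_le_mul_of_nonneg_left h4 (Nat.cast_nonneg (α := ℝ) k)
  linarith [h6 k]

theorem Psi_ge (κ : FD ℕ) (K : ℕ → FD Seq) (h : ℕ) (L : Finset ℕ)
    (hsh : ∀ c j, (K c).map (sh j) = K c) (k : ℕ) (hk : 0 < k) (β : ℝ) (n : ℕ)
    (hβ : ∀ i < n, Psi κ K h L i + ((κ.bind K).map (fun ξ => ξ 0)).H (Y L) ≤ β) :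
    n * (((κ.bind K).H (gam (k * h)) - β) / k) ≤ Psi κ K h L n := by
  induction n with
  | zero => simp [psi_zero]
  | succ n ih =>
    have h1 := ih fun i hi => hβ i (by omega)
    have h2 := psi_succ κ K h L hsh k n
    have h3 := hβ n (by omega)
    have hk' : (0 : ℝ) < k := by exact_mod_cast hk
    have h4 : ((κ.bind K).H (gam (k * h)) - β) / k ≤ Psi κ K h L (n + 1) - Psi κ K h L n := by
      rw [div_le_iff₀ hk']; linarith
    push_cast
    linarith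

end Crest.Agent.R2
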