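import Crest.Agent.R2.Iter
import Crest.Agent.R2.Boost
import Crest.Agent.R2.Psi
import Crest.Agent.R2.Gain

/-!
The scales of one group and the three estimates for a dyadic block of primes.
-/

set_option autoImplicit false

namespace Crest.Agent.R2

open Finset Real

lemma cube_le {a : ℕ} (ha : 10 ≤ a) : a ^ 3 ≤ 2 ^ a := by
  induction a, ha using Nat.le_induction with
  | base => norm_num
  | succ n hn ih =>
    have h1 : (n + 1) ^ 3 ≤ 2 * n ^ 3 := by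
      have : 10 * n ^ 2 ≤ n ^ 3 := by nlinarith
      have : 10 * n ≤ n ^ 2 := by nlinarith
      nlinarith
    rw [pow_succ 2 n]; omega

lemma big1 {a : ℕ} (ha : 100 ≤ a) : (53 + 2 * a) * (22 + a) ≤ 2 ^ a := by
  have := cube_le (show 10 ≤ a by omega)
  have h2 : 100 * a ^ 2 ≤ a ^ 3 := by nlinarith
  nlinarith

lemma big2 {a : ℕ} (ha : 100 ≤ a) : 1000 * a ≤ 2 ^ a := by
  have := cube_le (show 10 ≤ a by omega)
  have h2 : 100 * a ^ 2 ≤ a ^ 3 := by nlinarith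
  nlinarith

lemma p2 {i j : ℕ} (h : i ≤ j) : 2 ^ i ≤ 2 ^ j := Nat.pow_le_pow_right (by norm_num) h

lemma p2r {i j : ℕ} (h : i ≤ j) : (2 : ℝ) ^ i ≤ 2 ^ j := pow_le_pow_right₀ (by norm_num) h

lemma log_le_of_le_pow {x : ℝ} {k : ℕ} (h0 : 0 < x) (h : x ≤ 2 ^ k) : log x ≤ k := by
  have h1 := log_le_log h0 h
  rw [log_pow] at h1
  have h2 : log 2 < 1 := by have := log_two_lt_d9; linarith
  have : (0 : ℝ) ≤ k := Nat.cast_nonneg k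
  nlinarith

lemma log_four_le {r k : ℕ} (h : r ≤ 2 ^ k) : log (4 * r + 1) ≤ (k + 3 : ℕ) := by
  refine log_le_of_le_pow (by positivity) ?_
  have : 4 * r + 1 ≤ 2 ^ (k + 3) := by
    have : 1 ≤ 2 ^ k := Nat.one_le_two_pow
    rw [pow_add]; omega
  exact_mod_cast this

/-- lowest scales of the group -/
def Lb2 (a : ℕ) (L : List ℕ) : List ℕ := geo (2 ^ (53 + 2 * a)) (22 + a) (2 ^ 2 ^ a) ++ L

/-- middle scales of the group -/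
def Ub1 (a : ℕ) : List ℕ := geo (2 ^ (53 + 2 * a)) (22 + a) (2 ^ (6 * 2 ^ a))

/-- middle and lowest scales -/
def Lb1 (a : ℕ) (L : List ℕ) : List ℕ := Ub1 a ++ Lb2 a L

/-- upper scales of the group -/
def Ua (a : ℕ) : List ℕ := geo (2 ^ 35) (30 * 2 ^ a) (2 ^ (8 * 2 ^ a))

/-- rich dyadic blocks -/
def Rich (a e : ℕ) : Prop := 2 ^ e ≤ 2 ^ 15 * 2 ^ a * (pool e).card

lemma Rich.ne {a e : ℕ} (h : Rich a e) : (pool e).Nonempty := by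
  rw [← card_pos]
  by_contra h0
  have h1 : (pool e).card = 0 := by omega
  have h2 : 0 < 2 ^ e := by positivity
  unfold Rich at h
  rw [h1] at h
  omega

namespace Wk

variable (W : Wk)

lemma T_Lb2 {a b : ℕ} {L : List ℕ} (ha : 100 ≤ a) (hT : W.T L ≤ 2 ^ b)
    (hb : 2 ^ (26 + a) * b ≤ 2 ^ 2 ^ a) :
    ∃ b2, W.T (Lb2 a L) ≤ 2 ^ b2 ∧ 2 ^ (26 + a) * b2 ≤ 2 ^ (2 * 2 ^ a) := by
  obtain ⟨b2, h1, h2⟩ := W.T_geo (Λ := 2 ^ (53 + 2 * a)) (κ := 2 ^ (26 + a)) Nat.one_le_two_pow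
    (by calc 5 * 2 ^ (26 + a) ≤ 2 ^ 3 * 2 ^ (26 + a) := by omega
      _ ≤ _ := by rw [← pow_add]; exact p2 (by omega)) (22 + a) Nat.one_le_two_pow hT hb
  refine ⟨b2, h1, h2.trans ?_⟩
  rw [← pow_mul, ← pow_add]
  exact p2 (by have := big1 ha; omega)

lemma T_Lb1 {a b : ℕ} {L : List ℕ} (ha : 100 ≤ a) (hT : W.T L ≤ 2 ^ b)
    (hb : 2 ^ (26 + a) * b ≤ 2 ^ 2 ^ a) :
    ∃ b1, W.T (Lb1 a L) ≤ 2 ^ b1 ∧ 2 ^ (26 + a) * b1 ≤ 2 ^ (7 * 2 ^ a) := by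
  obtain ⟨b2, h3, h4⟩ := W.T_Lb2 ha hT hb
  obtain ⟨b1, h1, h2⟩ := W.T_geo (Λ := 2 ^ (53 + 2 * a)) (κ := 2 ^ (26 + a)) Nat.one_le_two_pow
    (by calc 5 * 2 ^ (26 + a) ≤ 2 ^ 3 * 2 ^ (26 + a) := by omega
      _ ≤ _ := by rw [← pow_add]; exact p2 (by omega)) (22 + a) (s := 2 ^ (6 * 2 ^ a))
      Nat.one_le_two_pow h3 (h4.trans (p2 (by omega)))
  refine ⟨b1, h1, h2.trans ?_⟩
  rw [← pow_mul, ← pow_add]
  exact p2 (by have := big1 ha; omega)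

lemma T_Ua {a b : ℕ} {L : List ℕ} (ha : 100 ≤ a) (hT : W.T L ≤ 2 ^ b)
    (hb : 2 ^ (26 + a) * b ≤ 2 ^ 2 ^ a) (i : ℕ) :
    ∃ b', W.T (geo (2 ^ 35) i (2 ^ (8 * 2 ^ a)) ++ Lb1 a L) ≤ 2 ^ b' ∧
      2 ^ 17 * b' ≤ 2 ^ (8 * 2 ^ a + 35 * i) := by
  obtain ⟨b1, h3, h4⟩ := W.T_Lb1 ha hT hb
  have h5 : 2 ^ 17 * b1 ≤ 2 ^ (8 * 2 ^ a) :=
    (Nat.mul_le_mul_right _ (p2 (by omega))).trans (h4.trans (p2 (by omega)))
  obtain ⟨b', h1, h2⟩ := W.T_geo (Λ := 2 ^ 35) (κ := 2 ^ 17) Nat.one_le_two_pow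
    (by norm_num) i (s := 2 ^ (8 * 2 ^ a)) Nat.one_le_two_pow h3 h5
  refine ⟨b', h1, h2.trans ?_⟩
  rw [← pow_mul, ← pow_add]

/-- precise equidistribution at the small scales -/
lemma iter_b {a dl e : ℕ} (ha : 100 ≤ a) (hdl : W.D ≤ 2 ^ dl) (hda : dl ≤ a)
    (he1 : 32 * 2 ^ a ≤ e) (he2 : e < 1024 * 2 ^ a) (hR : Rich a e) (z j b : ℕ) (L : List ℕ)
    (hz : z ≤ 6 * 2 ^ a) (hT : W.T L ≤ 2 ^ b) (hb : 2 ^ (26 + a) * b ≤ 2 ^ z)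
    (hj : 2 ^ (36 + 2 * a) * (1 + j) ≤ 2 ^ z) (c : ℕ) :
    LL e hR.ne - aa (W.pos (geo (2 ^ (53 + 2 * a)) (22 + a) (2 ^ z) ++ L) c) ∅ (QQ e hR.ne) j ≤
      1 / 2048 := by
  have hA1 := big1 ha
  have hA2 := big2 ha
  have hE : (e + 1 : ℝ) ≤ 1024 * 2 ^ a := by exact_mod_cast he2
  have h := W.iter dl hdl e (by omega) hR.ne ∅ 0 (by simp) (by simp) (1 / 4096) (2 ^ (22 + a))
    (2 ^ (53 + 2 * a)) Nat.one_le_two_pow (by push_cast; rw [pow_add]; linarith)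
    (le_of_eq (by ring)) [] c (22 + a) (2 ^ z) L j b hT ?_ ?_
  · rw [List.nil_append] at h
    refine h.trans ?_
    have : (e + 1 : ℝ) / 2 ^ (22 + a) ≤ 1 / 4096 := by
      rw [div_le_iff₀ (by positivity), pow_add]; linarith
    linarith
  · have h1 : 24 + 5 * dl + (e + 1) + 2 * j * (e + 1) ≤ 2 ^ 11 * 2 ^ a * (1 + j) := by
      have : 2 * j * (e + 1) ≤ 2 ^ 11 * 2 ^ a * j := by
        calc 2 * j * (e + 1) ≤ 2 * j * (1024 * 2 ^ a) := Nat.mul_le_mul_left _ he2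
          _ = _ := by ring
      rw [mul_add (2 ^ 11 * 2 ^ a)]; omega
    have h2 : 2 ^ (36 + 2 * a) * (1 + j) = 8 * 2 ^ (22 + a) * (2 ^ 11 * 2 ^ a * (1 + j)) := by ring
    have h3 : 2 ^ (26 + a) * b = 8 * 2 ^ (22 + a) * (2 * b) := by ring
    have h4 := Nat.mul_le_mul_left (8 * 2 ^ (22 + a)) h1
    nlinarith
  · have h1 : 20 * 2 ^ z * (2 ^ (53 + 2 * a)) ^ (22 + a) * 4096 * (2 ^ 15 * 2 ^ a) ≤ 2 ^ e := by
      calc 20 * 2 ^ z * (2 ^ (53 + 2 * a)) ^ (22 + a) * 4096 * (2 ^ 15 * 2 ^ a)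
          ≤ 32 * 2 ^ z * (2 ^ (53 + 2 * a)) ^ (22 + a) * 4096 * (2 ^ 15 * 2 ^ a) := by gcongr; norm_num
        _ = 2 ^ (32 + z + (53 + 2 * a) * (22 + a) + a) := by
          rw [← pow_mul]; generalize (53 + 2 * a) * (22 + a) = q; ring
        _ ≤ _ := p2 (by omega)
    have h2 : 20 * 2 ^ z * (2 ^ (53 + 2 * a)) ^ (22 + a) * 4096 ≤ (pool e).card := by
      refine Nat.le_of_mul_le_mul_right (h1.trans ?_) (show 0 < 2 ^ 15 * 2 ^ a by positivity)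
      rw [mul_comm]; exact hR
    have h3 : (20 * 2 ^ z * (2 ^ (53 + 2 * a)) ^ (22 + a) * 4096 : ℝ) ≤ (pool e).card := by
      exact_mod_cast h2
    push_cast
    linarith

/-- inside every middle block, for half of the primes few residues are rare -/
lemma rare_half {a dl e b : ℕ} {L : List ℕ} (ha : 100 ≤ a) (hdl : W.D ≤ 2 ^ dl) (hda : dl ≤ a)
    (he1 : 32 * 2 ^ a ≤ e) (he2 : e < 1024 * 2 ^ a) (hR : Rich a e) (hT : W.T L ≤ 2 ^ b)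
    (hb : 2 ^ (26 + a) * b ≤ 2 ^ 2 ^ a) (c : ℕ) :
    (QQ e hR.ne).pr (fun p => 2 ^ (e - 2 * 2 ^ a) ≤ (rare (W.pos (Lb1 a L) c) p).card) ≤ 1 / 2 := by
  have hA2 := big2 ha
  obtain ⟨b2, h3, h4⟩ := W.T_Lb2 ha hT hb
  have h := boost (W.C (Ub1 a) c) (W.pos (Lb2 a L)) e hR.ne (2 ^ (e - 2 * 2 ^ a))
    (2 ^ (2 * 2 ^ a + 6)) (2 ^ (5 * 2 ^ a)) (W.D * W.T (Lb2 a L)) (1 / 2048) (by positivity)
    (by rw [← pow_add, show 2 * 2 ^ a + 6 + (e - 2 * 2 ^ a) = 6 + e by omega, pow_add]; norm_num)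
    (FD.AE.of_forall fun c' => ⟨_, W.pos_ae _ c'⟩)
    (FD.AE.of_forall fun c' => W.iter_b ha hdl hda he1 he2 hR (2 ^ a) 0 b L (by omega) hT hb
      (by simpa using p2 (by omega)) c')
    (by
      rw [← W.pos_append]
      refine W.iter_b ha hdl hda he1 he2 hR (6 * 2 ^ a) _ b2 _ le_rfl h3
        (h4.trans (p2 (by omega))) ?_ c
      calc 2 ^ (36 + 2 * a) * (1 + 2 ^ (5 * 2 ^ a))
          ≤ 2 ^ (36 + 2 * a) * (2 ^ (5 * 2 ^ a) + 2 ^ (5 * 2 ^ a)) := by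
            gcongr; exact Nat.one_le_two_pow
        _ = 2 ^ (37 + 2 * a + 5 * 2 ^ a) := by ring
        _ ≤ _ := p2 (by omega))
  rw [← W.pos_append] at h
  refine h.trans ?_
  have h5 : W.D * W.T (Lb2 a L) ≤ 2 ^ (dl + b2) := by rw [pow_add]; exact Nat.mul_le_mul hdl h3
  have h6 := log_four_le h5
  have h7 : dl + b2 + 3 ≤ 2 ^ (2 * 2 ^ a) := by
    have h8 : 2 * b2 ≤ 2 ^ (26 + a) * b2 :=
      Nat.mul_le_mul_right _ (le_trans (by norm_num) (p2 (show 1 ≤ 26 + a by omega)))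
    have h9 : 2 * 2 ^ a < 2 ^ (2 * 2 ^ a) := Nat.lt_two_pow_self
    omega
  have h8 : log (4 * (W.D * W.T (Lb2 a L) : ℕ) + 1) ≤ 2 ^ (2 * 2 ^ a) :=
    h6.trans (by exact_mod_cast h7)
  have h9 : ((2 ^ (2 * 2 ^ a + 6) : ℕ) : ℝ) * (2 * log (4 * (W.D * W.T (Lb2 a L) : ℕ) + 1)) /
      ((2 ^ (5 * 2 ^ a) : ℕ) : ℝ) ≤ 1 / 4 := by
    rw [div_le_iff₀ (by positivity)]
    push_cast at h8 ⊢
    calc (2 : ℝ) ^ (2 * 2 ^ a + 6) * (2 * log (4 * (W.D * W.T (Lb2 a L)) + 1))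
        ≤ 2 ^ (2 * 2 ^ a + 6) * (2 * 2 ^ (2 * 2 ^ a)) := by gcongr
      _ = 1 / 4 * 2 ^ (4 * 2 ^ a + 9) := by ring
      _ ≤ _ := by gcongr; exacts [by norm_num, by omega]
  linarith

/-- equidistribution at the large scales, conditionally on the earlier primes -/
lemma near_unif {a dl e b : ℕ} {L : List ℕ} (ha : 100 ≤ a) (hdl : W.D ≤ 2 ^ dl) (hda : dl ≤ a)
    (he1 : 32 * 2 ^ a ≤ e) (he2 : e < 1024 * 2 ^ a) (hR : Rich a e) (hT : W.T L ≤ 2 ^ b)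
    (hb : 2 ^ (26 + a) * b ≤ 2 ^ 2 ^ a) (U : List ℕ) (L0 : Finset ℕ)
    (hL : ∑ p ∈ L0, log p ≤ (2 ^ (e - 540) : ℕ)) (hL0 : ∀ p ∈ L0, p ≠ 0) :
    LL e hR.ne - aa (W.pos (U ++ (Ua a ++ Lb1 a L)) 0) L0 (QQ e hR.ne) (2 ^ (e - a - 550)) ≤
      2 ^ a / 4 := by
  have hA2 := big2 ha
  have hE : (e + 1 : ℝ) ≤ 1024 * 2 ^ a := by exact_mod_cast he2
  obtain ⟨i, hi1, hi2⟩ : ∃ i, 8 * 2 ^ a + 35 * i + 478 ≤ e ∧ e < 8 * 2 ^ a + 35 * i + 513 :=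
    ⟨(e - 478 - 8 * 2 ^ a) / 35, by omega, by omega⟩
  obtain ⟨t, ht⟩ : ∃ t, 30 * 2 ^ a = i + (13 + t) := ⟨30 * 2 ^ a - i - 13, by omega⟩
  obtain ⟨b', h1, h2⟩ := W.T_Ua ha hT hb i
  have hl : U ++ (Ua a ++ Lb1 a L) =
      (U ++ geo (2 ^ 35) t (2 ^ (8 * 2 ^ a + 35 * i) * (2 ^ 35) ^ 13)) ++
        (geo (2 ^ 35) 13 (2 ^ (8 * 2 ^ a + 35 * i)) ++
          (geo (2 ^ 35) i (2 ^ (8 * 2 ^ a)) ++ Lb1 a L)) := by
    rw [Ua, ht, geo_add, geo_add, ← pow_mul 2 35 i, ← pow_add]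
    simp only [List.append_assoc]
  rw [hl]
  refine (W.iter dl hdl e (by omega) hR.ne L0 _ hL hL0 (2 ^ a / 8) (2 ^ 13) (2 ^ 35)
    Nat.one_le_two_pow (by push_cast; linarith) (by norm_num) _ 0 13 _ _ _ b' h1 ?_ ?_).trans
    (by linarith)
  · obtain ⟨f, rfl⟩ : ∃ f, e = f + a + 550 := ⟨e - a - 550, by omega⟩
    rw [show f + a + 550 - 540 = f + a + 10 by omega, show f + a + 550 - a - 550 = f by omega]
    have h3 : 2 * 2 ^ f * (f + a + 550 + 1) ≤ 2 * 2 ^ (f + a + 10) := by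
      calc 2 * 2 ^ f * (f + a + 550 + 1) ≤ 2 * 2 ^ f * (1024 * 2 ^ a) :=
            Nat.mul_le_mul_left _ he2
        _ = _ := by ring
    have h4 : 2 ^ (a + 11) ≤ 2 ^ (f + a + 11) := p2 (by omega)
    have h5 : 2 ^ (f + a + 10 + 19) ≤ 2 ^ (8 * 2 ^ a + 35 * i) := p2 (by omega)
    rw [pow_add 2 a 11] at h4
    rw [pow_succ 2 (f + a + 10)] at h4
    rw [pow_add 2 (f + a + 10) 19] at h5
    omega
  · have h3 : 2 ^ (8 * 2 ^ a + 35 * i + 478) ≤ 2 ^ 15 * 2 ^ a * (pool e).card :=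
      (p2 hi1).trans hR
    have h5 : 20 * 2 ^ (8 * 2 ^ a + 35 * i) * (2 ^ 35) ^ 13 * 8 ≤ 2 ^ a * (pool e).card := by
      refine Nat.le_of_mul_le_mul_left (le_trans ?_ (h3.trans (le_of_eq (mul_assoc _ _ _))))
        (show 0 < 2 ^ 15 by positivity)
      calc 2 ^ 15 * (20 * 2 ^ (8 * 2 ^ a + 35 * i) * (2 ^ 35) ^ 13 * 8)
          ≤ 2 ^ 15 * (2 ^ 5 * 2 ^ (8 * 2 ^ a + 35 * i) * (2 ^ 35) ^ 13 * 2 ^ 3) := by
            gcongr <;> norm_num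
        _ = _ := by
            rw [← pow_mul, ← pow_add, ← pow_add, ← pow_add, ← pow_add]
            exact congrArg (fun k => 2 ^ k) (by omega)
    have h6 : (20 * ((2 ^ (8 * 2 ^ a + 35 * i) : ℕ) : ℝ) * (((2 ^ 35 : ℕ) : ℝ)) ^ 13 * 8) ≤
        2 ^ a * (pool e).card := by exact_mod_cast h5
    generalize (20 * ((2 ^ (8 * 2 ^ a + 35 * i) : ℕ) : ℝ) * (((2 ^ 35 : ℕ) : ℝ)) ^ 13) = q at h6 ⊢
    linarith

end Wk

end Crest.Agent.R2
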