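import Crest.Agent.R2.Res
import Crest.Agent.R2.Chord

/-!
The hierarchical law on (cyclic pieces of) the walk: definitions and formal properties.
-/

set_option autoImplicit false

namespace Crest.Agent.R2

open Finset Real

/-- sequences of lattice points -/
abbrev Seq := ℕ → ℤ × ℤ

/-- shift -/
def sh (h : ℕ) (ξ : Seq) : Seq := fun j => ξ (j + h)

/-- an injective walk with steps `≤ D`, and the size `S + 1` of the bottom blocks -/
structure Wk where
  D : ℕ
  X : ℕ → ℤ × ℤ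
  S : ℕ
  hD : 1 ≤ D
  inj : Function.Injective X
  step : ∀ t, nm (X (t + 1) - X t) ≤ D

/-- the cyclic ordering `0, 2, 4, …, 5, 3, 1` of `range N` -/
def cyc (N i : ℕ) : ℕ := if 2 * i < N then 2 * i else 2 * (N - i) - 1

/-- the scales `s Λ^(n-1), …, s Λ, s` -/
def geo (Λ : ℕ) : ℕ → ℕ → List ℕ
  | 0, _ => []
  | n + 1, s => geo Λ n (s * Λ) ++ [s]

lemma geo_add (Λ n m s : ℕ) : geo Λ (n + m) s = geo Λ m (s * Λ ^ n) ++ geo Λ n s := by
  induction n generalizing s with
  | zero => simp [geo]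
  | succ n ih =>
    rw [show n + 1 + m = (n + m) + 1 by ring, geo, geo, ih, List.append_assoc,
      show s * Λ * Λ ^ n = s * Λ ^ (n + 1) by ring]

namespace Wk

variable (W : Wk)

/-- number of chords at scale `s` -/
def ell (s : ℕ) : ℕ := 2 ^ s / (18 * W.D) + 1

lemma ell_ne (s : ℕ) : (range (W.ell s)).Nonempty := ⟨0, by simp [ell]⟩

/-- direction of the chords of the block of scale `s` starting at `c` -/
noncomputable def chZ (s c : ℕ) : ℤ × ℤ :=
  (chord W.D W.hD W.X W.inj W.step (2 ^ s) Nat.one_le_two_pow c).choose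

/-- end points of the chords -/
noncomputable def ch (s c k : ℕ) (b : Bool) : ℕ :=
  if b then (chord W.D W.hD W.X W.inj W.step (2 ^ s) Nat.one_le_two_pow c).choose_spec.choose k
  else (chord W.D W.hD W.X W.inj W.step (2 ^ s)
    Nat.one_le_two_pow c).choose_spec.choose_spec.choose k

lemma ch_spec (s c : ℕ) : W.chZ s c ≠ 0 ∧
    (∀ k < W.ell s, (∀ b, c ≤ W.ch s c k b ∧ W.ch s c k b ≤ c + 4 * (2 ^ s) ^ 2) ∧
      nm (W.X (W.ch s c k true) - W.X (W.ch s c k false)) ≤ 2 * 2 ^ s ∧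
      (det (W.X (W.ch s c k true) - W.X (W.ch s c k false)) (W.chZ s c)).natAbs ≤
        4 * W.D * nm (W.chZ s c)) ∧
    ∀ k < W.ell s, ∀ k' < W.ell s,
      W.X (W.ch s c k true) - W.X (W.ch s c k false) =
        W.X (W.ch s c k' true) - W.X (W.ch s c k' false) → k = k' := by
  obtain ⟨h1, h2, h3⟩ := (chord W.D W.hD W.X W.inj W.step (2 ^ s)
    Nat.one_le_two_pow c).choose_spec.choose_spec.choose_spec
  refine ⟨h1, fun k hk => ?_, h3⟩
  obtain ⟨a1, a2, a3, a4, a5, a6⟩ := h2 k hk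
  refine ⟨fun b => ?_, a5, a6⟩
  cases b
  · exact ⟨a3, a4⟩
  · exact ⟨a1, a2⟩

/-- the cyclic sequence of the bottom block starting at `c`, read from position `i` -/
def seq (c i : ℕ) : Seq := fun j => W.X (c + cyc (W.S + 1) ((i + j) % (W.S + 1)))

/-- law in a bottom block -/
noncomputable def bot (c : ℕ) : FD Seq :=
  (FD.unif (range (W.S + 1)) nonempty_range_add_one).map (W.seq c)

/-- a fair coin -/
noncomputable def coin : FD Bool := FD.unif univ univ_nonempty

/-- choose a chord and one of its end points -/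
noncomputable def lev (s c : ℕ) : FD ℕ :=
  (FD.unif (range (W.ell s)) (W.ell_ne s)).bind fun k => coin.map fun b => W.ch s c k b

/-- descend through the scales of the list: law of the start of the sub-block -/
noncomputable def C : List ℕ → ℕ → FD ℕ
  | [], c => FD.pure c
  | s :: L, c => (W.lev s c).bind (C L)

/-- the hierarchical law -/
noncomputable def P (L : List ℕ) (c : ℕ) : FD Seq := (W.C L c).bind W.bot

/-- the law of the position -/
noncomputable def pos (L : List ℕ) (c : ℕ) : FD (ℤ × ℤ) := (W.P L c).map (fun ξ => ξ 0)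

/-- length of a block -/
def T : List ℕ → ℕ
  | [] => W.S
  | s :: L => 4 * (2 ^ s) ^ 2 + T L

/-- the exchangeable pair at scale `s` -/
noncomputable def pair (U : List ℕ) (s : ℕ) (L : List ℕ) (c : ℕ) : FD ((ℤ × ℤ) × (ℤ × ℤ)) :=
  (W.C U c).bind fun c1 => (FD.unif (range (W.ell s)) (W.ell_ne s)).bind fun k =>
    coin.bind fun b => (W.pos L (W.ch s c1 k b)).bind fun u =>
      (W.pos L (W.ch s c1 k (!b))).map fun u' => (u, u')

lemma E_coin (f : Bool → ℝ) : coin.E f = (f true + f false) / 2 := by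
  simp [coin, FD.E_unif]

lemma C_append (U L : List ℕ) (c : ℕ) : W.C (U ++ L) c = (W.C U c).bind (W.C L) := by
  induction U generalizing c with
  | nil => simp [C]
  | cons s U ih =>
    rw [List.cons_append, C, C, FD.bind_assoc]
    congr 1
    funext c'
    exact ih c'

lemma P_append (U L : List ℕ) (c : ℕ) : W.P (U ++ L) c = (W.C U c).bind (W.P L) := by
  unfold P
  rw [C_append, FD.bind_assoc]

lemma pos_append (U L : List ℕ) (c : ℕ) : W.pos (U ++ L) c = (W.C U c).bind (W.pos L) :=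
  FD.ext_E fun f => by simp [pos, P_append]

lemma E_pos_cons (s : ℕ) (L : List ℕ) (c : ℕ) (f : ℤ × ℤ → ℝ) :
    (W.pos (s :: L) c).E f = (FD.unif (range (W.ell s)) (W.ell_ne s)).E fun k =>
      coin.E fun b => (W.pos L (W.ch s c k b)).E f := by
  simp [pos, P, C, lev]

lemma pair_fst (U : List ℕ) (s : ℕ) (L : List ℕ) (c : ℕ) :
    (W.pair U s L c).map Prod.fst = W.pos (U ++ s :: L) c :=
  FD.ext_E fun f => by simp [pair, pos_append, E_pos_cons]

lemma pair_snd (U : List ℕ) (s : ℕ) (L : List ℕ) (c : ℕ) :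
    (W.pair U s L c).map Prod.snd = W.pos (U ++ s :: L) c :=
  FD.ext_E fun f => by simp [pair, pos_append, E_pos_cons, E_coin, add_comm]

lemma cyc_lt {N i : ℕ} (hi : i < N) : cyc N i < N := by
  unfold cyc; split_ifs <;> omega

lemma cyc_inj {N i j : ℕ} (hi : i < N) (hj : j < N) (h : cyc N i = cyc N j) : i = j := by
  unfold cyc at h; split_ifs at h <;> omega

lemma cyc_step {N : ℕ} (hN : 0 < N) (i : ℕ) :
    cyc N ((i + 1) % N) ≤ cyc N (i % N) + 2 ∧ cyc N (i % N) ≤ cyc N ((i + 1) % N) + 2 := by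
  have h1 : i % N < N := Nat.mod_lt _ hN
  have h2 : (i + 1) % N = (i % N + 1) % N := by simp
  rw [h2]
  generalize i % N = r at h1
  rcases Nat.lt_or_ge (r + 1) N with h | h
  · rw [Nat.mod_eq_of_lt h]; unfold cyc; split_ifs <;> omega
  · have : r + 1 = N := by omega
    rw [this, Nat.mod_self]; unfold cyc; split_ifs <;> omega

lemma nm_X_le {a b n : ℕ} (h1 : a ≤ b + n) (h2 : b ≤ a + n) : nm (W.X a - W.X b) ≤ W.D * n := by
  rcases le_total a b with h | h
  · obtain ⟨d, rfl⟩ := Nat.exists_eq_add_of_le h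
    rw [nm_sub_comm]
    exact (nm_walk_le W.step a d).trans (Nat.mul_le_mul_left _ (by omega))
  · obtain ⟨d, rfl⟩ := Nat.exists_eq_add_of_le h
    exact (nm_walk_le W.step b d).trans (Nat.mul_le_mul_left _ (by omega))

lemma C_ae (L L' : List ℕ) (c : ℕ) :
    (W.C L c).AE fun c' => c ≤ c' ∧ c' + W.T L' ≤ c + W.T (L ++ L') := by
  induction L generalizing c with
  | nil => exact FD.AE_pure (by simp)
  | cons s L ih =>
    refine FD.AE_bind (FD.AE_bind (FD.AE_unif fun k hk => FD.AE_map (FD.AE.of_forall fun b => ?_)))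
    have := ((W.ch_spec s c).2.1 k (mem_range.1 hk)).1 b
    refine (ih _).mono fun c' h => ?_
    rw [List.cons_append, T]
    omega

/-- almost sure properties of the hierarchical law -/
lemma P_ae (L : List ℕ) (c : ℕ) : (W.P L c).AE fun ξ =>
    (∀ j, ∃ t, c ≤ t ∧ t ≤ c + W.T L ∧ ξ j = W.X t) ∧ (∀ j, nm (ξ (j + 1) - ξ j) ≤ 2 * W.D) ∧
      ∀ i ≤ W.S, ∀ j ≤ W.S, ξ i = ξ j → i = j := by
  refine FD.AE_bind ((W.C_ae L [] c).mono fun c' hc =>
    FD.AE_map (FD.AE.of_forall fun i0 => ⟨fun j => ?_, fun j => ?_, fun i hi j hj h => ?_⟩))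
  · have := cyc_lt (Nat.mod_lt (i0 + j) (Nat.add_one_pos W.S))
    rw [List.append_nil, T] at hc
    exact ⟨_, by omega, by omega, rfl⟩
  · have := cyc_step (Nat.add_one_pos W.S) (i0 + j)
    rw [mul_comm]
    exact W.nm_X_le (by rw [← add_assoc]; omega) (by rw [← add_assoc]; omega)
  · have h1 := Nat.add_left_cancel (W.inj h)
    have h2 := cyc_inj (Nat.mod_lt _ (Nat.succ_pos _)) (Nat.mod_lt _ (Nat.succ_pos _)) h1
    have h3 : i ≡ j [MOD W.S + 1] := Nat.ModEq.add_left_cancel' i0 h2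
    exact Nat.ModEq.eq_of_lt_of_lt h3 (by omega) (by omega)

lemma pos_ae (L : List ℕ) (c : ℕ) :
    (W.pos L c).AE fun u => nm (u - W.X c) ≤ W.D * W.T L := by
  refine FD.AE_map ((W.P_ae L c).mono fun ξ h => ?_)
  obtain ⟨t, h1, h2, h3⟩ := h.1 0
  rw [h3]
  exact W.nm_X_le h2 (by omega)

lemma bot_shift_one (c : ℕ) : (W.bot c).map (sh 1) = W.bot c := by
  refine FD.ext_E fun f => ?_
  simp only [bot, FD.E_map, FD.E_unif]
  congr 1
  have h1 : ∀ i, sh 1 (W.seq c i) = W.seq c (i + 1) := fun i => by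
    funext j; simp only [sh, seq]; rw [show i + (j + 1) = i + 1 + j by ring]
  simp only [h1]
  have h2 : W.seq c (W.S + 1) = W.seq c 0 := by
    funext j; simp [seq]
  rw [sum_range_succ (fun i => f (W.seq c (i + 1))), sum_range_succ' (fun i => f (W.seq c i)), h2]

lemma bot_shift (c h : ℕ) : (W.bot c).map (sh h) = W.bot c := by
  induction h with
  | zero => exact FD.ext_E fun f => by rw [FD.E_map]; rfl
  | succ h ih =>
    refine FD.ext_E fun f => ?_
    conv_rhs => rw [← ih, ← W.bot_shift_one c]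
    simp only [FD.E_map]
    rfl

/-- exact shift invariance -/
lemma P_shift (L : List ℕ) (c h : ℕ) : (W.P L c).map (sh h) = W.P L c := by
  refine FD.ext_E fun f => ?_
  simp only [P, FD.E_map, FD.E_bind]
  refine FD.E_congr fun c' => ?_
  conv_rhs => rw [← W.bot_shift c' h, FD.E_map]

lemma T_cons_le {s b : ℕ} {L : List ℕ} (hT : W.T L ≤ 2 ^ b) (hb : b ≤ 2 * s + 2) :
    W.T (s :: L) ≤ 2 ^ (2 * s + 3) := by
  have : 2 ^ b ≤ 2 ^ (2 * s + 2) := Nat.pow_le_pow_right (by norm_num) hb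
  rw [T, show 4 * (2 ^ s) ^ 2 = 2 ^ (2 * s + 2) by ring, show 2 ^ (2 * s + 3) =
    2 ^ (2 * s + 2) + 2 ^ (2 * s + 2) by ring]
  omega

/-- length of the block below the `n`-th scale of a geometric family -/
lemma T_geo {Λ κ : ℕ} (hκ : 1 ≤ κ) (hΛ : 5 * κ ≤ Λ) (n : ℕ) {s b : ℕ} {L : List ℕ} (hs : 1 ≤ s)
    (hT : W.T L ≤ 2 ^ b) (hb : κ * b ≤ s) :
    ∃ b', W.T (geo Λ n s ++ L) ≤ 2 ^ b' ∧ κ * b' ≤ s * Λ ^ n := by
  induction n generalizing s b L with
  | zero => exact ⟨b, by simpa [geo] using hT, by simpa using hb⟩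
  | succ n ih =>
    have h1 : W.T (s :: L) ≤ 2 ^ (2 * s + 3) := W.T_cons_le hT (by nlinarith)
    obtain ⟨b', h2, h3⟩ := ih (s := s * Λ) (L := s :: L) (by nlinarith) h1 (by nlinarith)
    refine ⟨b', ?_, by rw [pow_succ']; linarith [mul_assoc s Λ (Λ ^ n)]⟩
    simpa [geo] using h2

end Wk

end Crest.Agent.R2
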