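import Crest.Agent.R2.Res

/-!
TASK (rid 2) Rec: the basic recursion for `aa` coming from an exchangeable pair.

Write `x = (x1, x2) ~ ν`, `Δ = x2 - x1`.  For lists `l` (length `j`) and `ρ` (length `M`) put
`T0 = L ∪ l.toFinset`, `T1 = L ∪ (l ++ ρ).toFinset`, `A = Y T1 x1`, `A' = Y T1 x2`,
`B = Y T0 x1`, `B' = Y T0 x2`, `Δρ = Y ρ.toFinset Δ`.  With `Hc_anti`, `Hc_pair_le_add`,
`Hc_le_of_det`, `Hc_chain`, `H_sub_le_Hc`, `H_pair_le`, `H_Y_le` (`phi_sub`, `Y_eq_iff`):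
`2 (H_μ(Y T1) - H_μ(Y T0)) = Hc(A|B) + Hc(A'|B') ≥ Hc((A,A') | (B,B')) ≥ Hc((A,Δρ) | (B,B'))
 = Hc(A | Δρ,(B,B')) + Hc(Δρ | (B,B')) ≥ Hc(A | (Δ,B)) + H(Δρ) - 2 ∑_{T0} log p`,
`Hc(A|(Δ,B)) = H(Δ,A) - H(Δ,B)`, `∑_{T0} log p ≤ σ + j lam` (`sum_toFinset_le`, `AE_iid`).
Average with `E_iid_add` (`iid Q (j+M)`): with `F = FF μ L Q = Fs Q (fun T => μ.H (Y (L ∪ T)))` and
`G = Fs Q (fun T => ν.H (fun x => (Δ, Y (L ∪ T) x1)))` (submodular by `submod_H`),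
`2 (F (j+M) - F j) ≥ M ℒ - β - 2 (σ + j lam) + G (j+M) - G j`.
`F (j+M) - F j ≤ M aa j` (`Fs_sub_le`); `G (j+M) - G j ≥ M b` with `b = G (j+M+1) - G (j+M)`
(`le_Fs_sub`); `M' b ≥ G (j+M+M') - G (j+M)` (`Fs_sub_le`) `≥ F (j+M+M') - F (j+M) - η`
(as `F n ≤ G n ≤ F n + η`) `≥ M' aa (j+M+M') - η` (`le_Fs_sub`).
-/

set_option autoImplicit false

namespace Crest.Agent.R2

open Finset Real

/-- the pointwise entropy inequality for two sets of primes `T0`, `R` -/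
lemma rec_point (ν : FD ((ℤ × ℤ) × (ℤ × ℤ))) (μ : FD (ℤ × ℤ)) (h1 : ν.map Prod.fst = μ)
    (h2 : ν.map Prod.snd = μ) (T0 T1 R : Finset ℕ) (h01 : T0 ⊆ T1) (hR : R ⊆ T1)
    (hT0 : ∀ p ∈ T0, p ≠ 0) :
    ν.H (fun x => (x.2 - x.1, Y T1 x.1)) - ν.H (fun x => (x.2 - x.1, Y T0 x.1)) +
      ν.H (fun x => Y R (x.2 - x.1)) - 2 * ∑ p ∈ T0, log p ≤
      2 * (μ.H (Y T1) - μ.H (Y T0)) := by
  have e1 : ∀ T : Finset ℕ, μ.H (Y T) = ν.H (fun x => Y T x.1) := fun T => by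
    rw [← h1, FD.H_map]
  have e2 : ∀ T : Finset ℕ, μ.H (Y T) = ν.H (fun x => Y T x.2) := fun T => by
    rw [← h2, FD.H_map]
  have hsub : ∀ u v : ℤ × ℤ, Y T1 u = Y T1 v → Y T0 u = Y T0 v := fun u v h => by
    rw [Y_eq_iff] at h ⊢
    exact fun p hp => h p (h01 hp)
  have c1 : ν.Hc (fun x => Y T1 x.1) (fun x => Y T0 x.1) = μ.H (Y T1) - μ.H (Y T0) := by
    rw [FD.Hc_def, e1, e1]
    congr 1
    refine FD.H_eq_of_det fun a a' => ?_
    simp only [Prod.mk.injEq]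
    exact ⟨fun h => ⟨h, hsub _ _ h⟩, fun h => h.1⟩
  have c2 : ν.Hc (fun x => Y T1 x.2) (fun x => Y T0 x.2) = μ.H (Y T1) - μ.H (Y T0) := by
    rw [FD.Hc_def, e2, e2]
    congr 1
    refine FD.H_eq_of_det fun a a' => ?_
    simp only [Prod.mk.injEq]
    exact ⟨fun h => ⟨h, hsub _ _ h⟩, fun h => h.1⟩
  have s1 : ν.Hc (fun x => Y T1 x.1) (fun x => (Y T0 x.1, Y T0 x.2)) ≤
      ν.Hc (fun x => Y T1 x.1) (fun x => Y T0 x.1) :=
    FD.Hc_anti _ fun _ _ h => (Prod.ext_iff.1 h).1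
  have s2 : ν.Hc (fun x => Y T1 x.2) (fun x => (Y T0 x.1, Y T0 x.2)) ≤
      ν.Hc (fun x => Y T1 x.2) (fun x => Y T0 x.2) :=
    FD.Hc_anti _ fun _ _ h => (Prod.ext_iff.1 h).2
  have s3 := ν.Hc_pair_le_add (fun x => Y T1 x.1) (fun x => Y T1 x.2)
    (fun x => (Y T0 x.1, Y T0 x.2))
  have s4 : ν.Hc (fun x => (Y T1 x.1, Y R (x.2 - x.1))) (fun x => (Y T0 x.1, Y T0 x.2)) ≤
      ν.Hc (fun x => (Y T1 x.1, Y T1 x.2)) (fun x => (Y T0 x.1, Y T0 x.2)) := by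
    refine FD.Hc_le_of_det fun a a' h _ => ?_
    simp only [Prod.mk.injEq] at h ⊢
    refine ⟨h.1, ?_⟩
    have h3 := Y_eq_iff.1 h.1
    have h4 := Y_eq_iff.1 h.2
    rw [Y_eq_iff]
    intro p hp
    rw [phi_sub, phi_sub, h3 p (hR hp), h4 p (hR hp)]
  have s5 := ν.Hc_chain (fun x => Y T1 x.1) (fun x => Y R (x.2 - x.1))
    (fun x => (Y T0 x.1, Y T0 x.2))
  have s6 : ν.Hc (fun x => Y T1 x.1) (fun x => (x.2 - x.1, Y T0 x.1)) ≤
      ν.Hc (fun x => Y T1 x.1) (fun x => (Y R (x.2 - x.1), (Y T0 x.1, Y T0 x.2))) := by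
    refine FD.Hc_anti _ fun a a' h => ?_
    simp only [Prod.mk.injEq] at h ⊢
    refine ⟨by rw [h.1], h.2, ?_⟩
    have h3 := Y_eq_iff.1 h.2
    rw [Y_eq_iff]
    intro p hp
    have h4 := congrArg (phi p) h.1
    rw [phi_sub, phi_sub, h3 p hp] at h4
    exact sub_left_injective h4
  have s7 := ν.H_sub_le_Hc (fun x => Y R (x.2 - x.1)) (fun x => (Y T0 x.1, Y T0 x.2))
  have s8 := ν.H_pair_le (fun x => Y T0 x.1) (fun x => Y T0 x.2)
  have s9 := H_Y_le ν (fun x => x.1) T0 hT0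
  have s10 := H_Y_le ν (fun x => x.2) T0 hT0
  have s11 : ν.Hc (fun x => Y T1 x.1) (fun x => (x.2 - x.1, Y T0 x.1)) =
      ν.H (fun x => (x.2 - x.1, Y T1 x.1)) - ν.H (fun x => (x.2 - x.1, Y T0 x.1)) := by
    rw [FD.Hc_def]
    congr 1
    refine FD.H_eq_of_det fun a a' => ?_
    simp only [Prod.mk.injEq]
    exact ⟨fun h => ⟨h.2, h.1, hsub _ _ h.2⟩, fun h => ⟨h.2.1, h.1⟩⟩
  linarith

lemma rec_sum_le (L : Finset ℕ) (σ lam : ℝ) (j : ℕ) (hL : ∑ p ∈ L, log p ≤ σ) (l : List ℕ)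
    (hl : l.length = j) (hl' : ∀ p ∈ l, log p ≤ lam) :
    ∑ p ∈ L ∪ l.toFinset, log (p : ℝ) ≤ σ + j * lam := by
  have h0 : ∀ p : ℕ, 0 ≤ log (p : ℝ) := fun p => log_natCast_nonneg p
  have h1 : ∑ p ∈ L ∪ l.toFinset, log (p : ℝ) ≤
      ∑ p ∈ L, log (p : ℝ) + ∑ p ∈ l.toFinset, log (p : ℝ) := by
    rw [← sum_union_inter]
    have : 0 ≤ ∑ p ∈ L ∩ l.toFinset, log (p : ℝ) := sum_nonneg fun p _ => h0 p
    linarith
  have h2 := sum_toFinset_le l (fun p => log (p : ℝ)) h0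
  have h3 : (l.map (fun p : ℕ => log (p : ℝ))).sum ≤ j * lam := by
    have := List.sum_le_card_nsmul (l.map (fun p : ℕ => log (p : ℝ))) lam (by
      intro x hx
      obtain ⟨p, hp, rfl⟩ := List.mem_map.1 hx
      exact hl' p hp)
    rwa [List.length_map, hl, nsmul_eq_mul] at this
  linarith

theorem rec_step (ν : FD ((ℤ × ℤ) × (ℤ × ℤ))) (μ : FD (ℤ × ℤ)) (h1 : ν.map Prod.fst = μ)
    (h2 : ν.map Prod.snd = μ) (Q : FD ℕ) (L : Finset ℕ) (σ lam η β ℒ : ℝ) (j M M' : ℕ)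
    (hM : 0 < M) (hM' : 0 < M') (hL : ∑ p ∈ L, log p ≤ σ) (hL0 : ∀ p ∈ L, p ≠ 0)
    (hQ : Q.AE (fun p => p ≠ 0 ∧ log p ≤ lam))
    (hη : ν.H (fun x => x.2 - x.1) ≤ η)
    (hβ : M * ℒ - β ≤ (FD.iid Q M).E (fun l => ν.H (fun x => Y l.toFinset (x.2 - x.1)))) :
    ℒ + aa μ L Q (j + M + M') - (β + 2 * (σ + j * lam)) / M - η / M' ≤ 2 * aa μ L Q j := by
  set G : ℕ → ℝ := Fs Q (fun T => ν.H (fun x => (x.2 - x.1, Y (L ∪ T) x.1))) with hG
  have hGs : Submod (fun T => ν.H (fun x => (x.2 - x.1, Y (L ∪ T) x.1))) :=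
    submod_H ν (fun x => x.1) (fun x => x.2 - x.1) L
  have e1 : ∀ T : Finset ℕ, μ.H (Y T) = ν.H (fun x => Y T x.1) := fun T => by
    rw [← h1, FD.H_map]
  have hFG : ∀ n, FF μ L Q n ≤ G n := fun n => by
    refine FD.E_mono fun l => ?_
    beta_reduce
    rw [e1]
    exact FD.H_le_of_det fun _ _ h => (Prod.ext_iff.1 h).2
  have hGF : ∀ n, G n ≤ FF μ L Q n + η := fun n => by
    have : FF μ L Q n + η = (FD.iid Q n).E (fun l => μ.H (Y (L ∪ l.toFinset)) + η) := by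
      rw [FD.E_add, FD.E_const]; rfl
    rw [this]
    refine FD.E_mono fun l => ?_
    beta_reduce
    rw [e1]
    have := ν.H_pair_le (fun x => x.2 - x.1) (fun x => Y (L ∪ l.toFinset) x.1)
    linarith
  have hmain : G (j + M) - G j + (M * ℒ - β) - 2 * (σ + j * lam) ≤
      2 * (FF μ L Q (j + M) - FF μ L Q j) := by
    have hav : (FD.iid Q j).E (fun l => (FD.iid Q M).E (fun ρ =>
          ν.H (fun x => (x.2 - x.1, Y (L ∪ (l ++ ρ).toFinset) x.1)) -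
            ν.H (fun x => (x.2 - x.1, Y (L ∪ l.toFinset) x.1)) +
            ν.H (fun x => Y ρ.toFinset (x.2 - x.1)) - 2 * (σ + j * lam))) ≤
        (FD.iid Q j).E (fun l => (FD.iid Q M).E (fun ρ =>
          2 * (μ.H (Y (L ∪ (l ++ ρ).toFinset)) - μ.H (Y (L ∪ l.toFinset))))) := by
      refine FD.E_mono_ae ((FD.AE_iid hQ j).mono fun l hl => FD.E_mono fun ρ => ?_)
      have hs := rec_sum_le L σ lam j hL l hl.1 (fun p hp => (hl.2 p hp).2)
      have hp := rec_point ν μ h1 h2 (L ∪ l.toFinset) (L ∪ (l ++ ρ).toFinset) ρ.toFinset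
        (union_subset_union_right (by rw [List.toFinset_append]; exact subset_union_left))
        (by rw [List.toFinset_append]; exact subset_union_right.trans subset_union_right)
        (fun p hp => by
          rcases mem_union.1 hp with hp | hp
          · exact hL0 p hp
          · exact (hl.2 p (List.mem_toFinset.1 hp)).1)
      linarith
    simp only [FD.E_sub, FD.E_add, FD.E_const, FD.E_const_mul] at hav
    have g1 : G (j + M) = (FD.iid Q j).E (fun l => (FD.iid Q M).E (fun ρ =>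
        ν.H (fun x => (x.2 - x.1, Y (L ∪ (l ++ ρ).toFinset) x.1)))) := by
      rw [hG, Fs, FD.E_iid_add]
    have g2 : G j = (FD.iid Q j).E (fun l =>
        ν.H (fun x => (x.2 - x.1, Y (L ∪ l.toFinset) x.1))) := rfl
    have f1 : FF μ L Q (j + M) = (FD.iid Q j).E (fun l => (FD.iid Q M).E (fun ρ =>
        μ.H (Y (L ∪ (l ++ ρ).toFinset)))) := by
      rw [FF, Fs, FD.E_iid_add]
    have f2 : FF μ L Q j = (FD.iid Q j).E (fun l => μ.H (Y (L ∪ l.toFinset))) := rfl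
    rw [g1, g2, f1, f2]
    linarith
  have a1 : FF μ L Q (j + M) - FF μ L Q j ≤ M * aa μ L Q j := Fs_sub_le Q (submod_H' μ L) j M
  have a2 : M * (G (j + M + 1) - G (j + M)) ≤ G (j + M) - G j := le_Fs_sub Q hGs j M
  have a3 : G (j + M + M') - G (j + M) ≤ M' * (G (j + M + 1) - G (j + M)) :=
    Fs_sub_le Q hGs (j + M) M'
  have a4 : M' * aa μ L Q (j + M + M') ≤ FF μ L Q (j + M + M') - FF μ L Q (j + M) :=
    le_Fs_sub Q (submod_H' μ L) (j + M) M'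
  have hMr : (0 : ℝ) < M := by exact_mod_cast hM
  have hMr' : (0 : ℝ) < M' := by exact_mod_cast hM'
  set b := G (j + M + 1) - G (j + M) with hb
  have b1 : aa μ L Q (j + M + M') - η / M' ≤ b := by
    have : M' * aa μ L Q (j + M + M') - η ≤ M' * b := by
      linarith [hFG (j + M + M'), hGF (j + M)]
    have h3 : aa μ L Q (j + M + M') - η / M' = (M' * aa μ L Q (j + M + M') - η) / M' := by
      field_simp
    rw [h3, div_le_iff₀ hMr']
    linarith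
  have b2 : ℒ + b - (β + 2 * (σ + j * lam)) / M ≤ 2 * aa μ L Q j := by
    have h3 : ℒ + b - (β + 2 * (σ + j * lam)) / M =
        (M * ℒ + M * b - (β + 2 * (σ + j * lam))) / M := by
      field_simp
    rw [h3, div_le_iff₀ hMr]
    linarith
  linarith

end Crest.Agent.R2
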