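import Crest.Agent.R2.Pair
import Crest.Agent.R2.Rec

/-!
TASK (rid 2) Iter: one application of `rec_step` per scale halves the entropy deficiency.

Write `E = e + 1`, `m = (pool e).card`, `ℒ = LL e hne`, `d j = ℒ - aa μ L0 Q j` with
`μ = W.pos (U ++ (geo Λ n s ++ L)) c`.  Induction on `n`, generalising `s L j b`.
`n = 0`: `d j ≤ ℒ ≤ E` (`aa_nonneg`, `LL_le`).
Step: `geo Λ (n+1) s ++ L = geo Λ n (s Λ) ++ s :: L`, so the list is `U' ++ s :: L` with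
`U' = U ++ geo Λ n (s Λ)`.  Take `M = s / E` (`M ≥ 1`, `E M ≤ s < 2 E M` because `E ≤ s`),
`M' = 48 ρ M`, and apply `rec_step` to `W.pair U' s L c` (`pair_fst`, `pair_snd`, `pair_H`,
`pair_low`, `lam = E`, `log_le_of_mem_pool'`, `QQ_ae`).  With `log 2 ≤ 1`, `D ≤ 2^dl`,
`T L ≤ 2^b`, `T (s :: L) ≤ 2^(2s+3)` (`T_cons_le`):
`η ≤ 2 (2 s + 5 + dl) ≤ 6 s`, so `η / M' ≤ E / (4 ρ) ≤ τ / 4`;
`β ≤ (17 + 3 dl + E) + 5 M^2 E / m + 1 + 2 (b + 3 + dl)`, so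
`β + 2 (σ + j E) ≤ Γ + 5 M^2 E / m` with `Γ = 24 + 5 dl + E + 2 b + 2 σ + 2 j E ≤ s / (4 ρ)`;
`Γ / M ≤ E / (2 ρ) ≤ τ / 2` and `5 M E / m ≤ 5 s / m ≤ τ / 4` (`20 s ≤ 20 s Λ^(n+1) ≤ τ m`).
Hence `2 d j ≤ d j' + τ`, `j' = j + M + M'`.  The hypothesis applies to `s Λ`, `s :: L`, `j'`,
`b' = 2 s + 3`: `Γ' ≤ Γ + (4 s + 6) + 98 ρ s ≤ 109 ρ s` and `4 ρ Γ' ≤ 436 ρ^2 s ≤ s Λ`.
So `d j ≤ (τ + E / 2^n + τ) / 2`.
-/

set_option autoImplicit false

namespace Crest.Agent.R2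

open Finset Real

lemma iter_log_le {x : ℝ} {n : ℕ} (h0 : 0 < x) (h : x ≤ 2 ^ n) : log x ≤ n := by
  have h1 := log_le_log h0 h
  rw [log_pow] at h1
  have h2 : log 2 < 1 := by have := log_two_lt_d9; linarith
  have : (0 : ℝ) ≤ n := by positivity
  nlinarith

lemma iter_log_box {x n k a : ℕ} (hx : x ≤ 2 ^ n) (ha : a + 1 ≤ 2 ^ k) :
    log ((a : ℝ) * (x : ℕ) + 1) ≤ (n + k : ℕ) := by
  refine iter_log_le (by positivity) ?_
  have h1 : 1 ≤ 2 ^ n := Nat.one_le_two_pow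
  have : a * x + 1 ≤ 2 ^ (n + k) := by
    rw [pow_add]
    calc a * x + 1 ≤ a * 2 ^ n + 2 ^ n := add_le_add (Nat.mul_le_mul_left _ hx) h1
      _ = 2 ^ n * (a + 1) := by ring
      _ ≤ _ := Nat.mul_le_mul_left _ ha
  exact_mod_cast this

/-- one step of the iteration -/
theorem Wk.iter_step (W : Wk) (dl : ℕ) (hdl : W.D ≤ 2 ^ dl) (e : ℕ) (he : 1 ≤ e)
    (hne : (pool e).Nonempty) (L0 : Finset ℕ) (σ : ℕ) (hL : ∑ p ∈ L0, log p ≤ σ)
    (hL0 : ∀ p ∈ L0, p ≠ 0) (τ : ℝ) (ρ : ℕ) (hρ : 1 ≤ ρ) (hτ : (e + 1 : ℝ) ≤ ρ * τ)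
    (U : List ℕ) (c : ℕ) (s : ℕ) (L : List ℕ) (j b : ℕ)
    (hT : W.T L ≤ 2 ^ b)
    (hs : 4 * ρ * (24 + 5 * dl + (e + 1) + 2 * b + 2 * σ + 2 * j * (e + 1)) ≤ s)
    (hm : (20 * s : ℝ) ≤ τ * (pool e).card) :
    2 * (LL e hne - aa (W.pos (U ++ s :: L) c) L0 (QQ e hne) j) ≤
      (LL e hne - aa (W.pos (U ++ s :: L) c) L0 (QQ e hne)
        (j + s / (e + 1) + 48 * ρ * (s / (e + 1)))) + τ := by
  set Γ := 24 + 5 * dl + (e + 1) + 2 * b + 2 * σ + 2 * j * (e + 1) with hΓ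
  have hs4 : 4 * Γ ≤ s := le_trans (Nat.mul_le_mul_right _ (by omega)) hs
  set M := s / (e + 1) with hM
  have hM1 : 1 ≤ M := (Nat.le_div_iff_mul_le (by omega)).2 (by omega)
  have hMs : (e + 1) * M ≤ s := Nat.mul_div_le s (e + 1)
  have hsM : s ≤ 2 * ((e + 1) * M) := by
    have h1 := Nat.lt_mul_div_succ s (show 0 < e + 1 by omega)
    rw [← hM, mul_add, mul_one] at h1
    have h2 : (e + 1) * 1 ≤ (e + 1) * M := Nat.mul_le_mul_left _ hM1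
    omega
  have hT' : W.T (s :: L) ≤ 2 ^ (2 * s + 3) := W.T_cons_le hT (by omega)
  have hη : (W.pair U s L c).H (fun x => x.2 - x.1) ≤ 6 * s := by
    refine (W.pair_H U s L c).trans ?_
    have h1 : W.D * W.T (s :: L) ≤ 2 ^ (dl + (2 * s + 3)) := by
      rw [pow_add]; exact Nat.mul_le_mul hdl hT'
    have h2 := iter_log_box (a := 2) (k := 2) h1 (by norm_num)
    have h3 : ((dl + (2 * s + 3) + 2 : ℕ) : ℝ) ≤ (3 * s : ℕ) := by exact_mod_cast (by omega)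
    push_cast at h2 h3 ⊢
    linarith
  have hm0 : (0 : ℝ) < (pool e).card := by exact_mod_cast hne.card_pos
  have hβ : M * LL e hne - ((24 + 5 * dl + e + 2 * b : ℝ) +
      5 * M ^ 2 / (pool e).card * (e + 1)) ≤ (FD.iid (QQ e hne) M).E
        (fun l => (W.pair U s L c).H (fun x => Y l.toFinset (x.2 - x.1))) := by
    refine le_trans ?_ (W.pair_low U s L c e he hne M hMs)
    have h1 : W.D * W.T L ≤ 2 ^ (dl + b) := by
      rw [pow_add]; exact Nat.mul_le_mul hdl hT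
    have h2 := iter_log_box (a := 4) (k := 3) h1 (by norm_num)
    have hD : (0 : ℝ) < W.D := by exact_mod_cast W.hD
    have h3 : log (74016 * W.D ^ 3 * 2 ^ e : ℝ) ≤ (17 + 3 * dl + e : ℕ) := by
      refine iter_log_le (by positivity) ?_
      have h4 : (W.D : ℝ) ≤ 2 ^ dl := by exact_mod_cast hdl
      have h5 : (W.D : ℝ) ^ 3 ≤ (2 ^ dl) ^ 3 := pow_le_pow_left₀ hD.le h4 3
      rw [pow_add, pow_add, mul_comm 3 dl, pow_mul]
      refine mul_le_mul_of_nonneg_right ?_ (by positivity)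
      exact mul_le_mul (by norm_num) h5 (by positivity) (by positivity)
    have h6 : log 2 < 1 := by have := log_two_lt_d9; linarith
    have h7 : 5 * (M : ℝ) ^ 2 / (pool e).card * ((e + 1) * log 2) ≤
        5 * M ^ 2 / (pool e).card * (e + 1) := by
      refine mul_le_mul_of_nonneg_left ?_ (by positivity)
      have : (0 : ℝ) ≤ e + 1 := by positivity
      nlinarith
    push_cast at h2 h3 ⊢
    linarith
  have hQ : (QQ e hne).AE (fun p => p ≠ 0 ∧ log p ≤ (e + 1 : ℝ)) :=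
    (QQ_ae e hne).mono fun p hp => ⟨(mem_pool.1 hp).2.1.ne_zero, log_le_of_mem_pool' hp⟩
  have key := rec_step (W.pair U s L c) _ (W.pair_fst U s L c) (W.pair_snd U s L c) (QQ e hne) L0
    σ (e + 1) (6 * s) _ (LL e hne) j M (48 * ρ * M) hM1 (by positivity) hL hL0 hQ hη hβ
  have hMr : (1 : ℝ) ≤ M := by exact_mod_cast hM1
  have hρr : (1 : ℝ) ≤ ρ := by exact_mod_cast hρ
  have hsMr : (s : ℝ) ≤ 2 * ((e + 1) * M) := by exact_mod_cast hsM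
  have hMsr : ((e + 1) * M : ℝ) ≤ s := by exact_mod_cast hMs
  have hsτ : (s : ℝ) ≤ 2 * (ρ * τ * M) := by nlinarith
  have b1 : (6 * s : ℝ) / ((48 * ρ * M : ℕ) : ℝ) ≤ τ / 4 := by
    push_cast
    rw [div_le_iff₀ (by positivity)]
    nlinarith
  have b2 : ((24 + 5 * dl + e + 2 * b : ℝ) + 5 * M ^ 2 / (pool e).card * (e + 1) +
      2 * (σ + j * (e + 1))) / M ≤ 3 * τ / 4 := by
    rw [div_le_iff₀ (by positivity)]
    have h1 : (4 * ρ * Γ : ℝ) ≤ s := by exact_mod_cast hs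
    have h2 : (Γ : ℝ) ≤ τ / 2 * M := by
      refine le_of_mul_le_mul_left ?_ (show (0 : ℝ) < 4 * ρ by positivity)
      nlinarith
    have h3 : 5 * (M : ℝ) ^ 2 / (pool e).card * (e + 1) ≤ τ / 4 * M := by
      rw [div_mul_eq_mul_div, div_le_iff₀ hm0]
      nlinarith
    have h4 : (Γ : ℝ) = 24 + 5 * dl + (e + 1) + 2 * b + 2 * σ + 2 * j * (e + 1) := by
      rw [hΓ]; push_cast; ring
    nlinarith
  linarith

theorem Wk.iter (W : Wk) (dl : ℕ) (hdl : W.D ≤ 2 ^ dl) (e : ℕ) (he : 1 ≤ e)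
    (hne : (pool e).Nonempty) (L0 : Finset ℕ) (σ : ℕ) (hL : ∑ p ∈ L0, log p ≤ σ)
    (hL0 : ∀ p ∈ L0, p ≠ 0) (τ : ℝ) (ρ Λ : ℕ) (hρ : 1 ≤ ρ) (hτ : (e + 1 : ℝ) ≤ ρ * τ)
    (hΛ : 512 * ρ ^ 2 ≤ Λ) (U : List ℕ) (c : ℕ) (n s : ℕ) (L : List ℕ) (j b : ℕ)
    (hT : W.T L ≤ 2 ^ b)
    (hs : 4 * ρ * (24 + 5 * dl + (e + 1) + 2 * b + 2 * σ + 2 * j * (e + 1)) ≤ s)
    (hm : (20 * s * Λ ^ n : ℝ) ≤ τ * (pool e).card) :
    LL e hne - aa (W.pos (U ++ (geo Λ n s ++ L)) c) L0 (QQ e hne) j ≤ τ + (e + 1) / 2 ^ n := by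
  have hρr : (1 : ℝ) ≤ ρ := by exact_mod_cast hρ
  have hτ0 : 0 ≤ τ := by
    by_contra h
    push Not at h
    have : (0 : ℝ) ≤ e := by positivity
    nlinarith
  have hΛ1 : 1 ≤ Λ := by nlinarith
  induction n generalizing s L j b with
  | zero =>
    have h1 := LL_le e hne
    have h2 := aa_nonneg (W.pos (U ++ (geo Λ 0 s ++ L)) c) L0 (QQ e hne) j
    simp only [pow_zero, div_one]
    linarith
  | succ n ih =>
    have hs4 : 4 * (24 + 5 * dl + (e + 1) + 2 * b + 2 * σ + 2 * j * (e + 1)) ≤ s :=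
      le_trans (Nat.mul_le_mul_right _ (by omega)) hs
    have hm' : (20 * s : ℝ) ≤ τ * (pool e).card := by
      refine le_trans ?_ hm
      have : (1 : ℝ) ≤ (Λ : ℝ) ^ (n + 1) := one_le_pow₀ (by exact_mod_cast hΛ1)
      have h0 : (0 : ℝ) ≤ 20 * s := by positivity
      nlinarith
    have h1 := W.iter_step dl hdl e he hne L0 σ hL hL0 τ ρ hρ hτ (U ++ geo Λ n (s * Λ)) c s L j b
      hT hs hm'
    have hMs : (e + 1) * (s / (e + 1)) ≤ s := Nat.mul_div_le s (e + 1)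
    have h2 := ih (s * Λ) (s :: L) (j + s / (e + 1) + 48 * ρ * (s / (e + 1))) (2 * s + 3)
      (W.T_cons_le hT (by omega)) (by
        set M := s / (e + 1)
        have a1 : 2 * (j + M + 48 * ρ * M) * (e + 1) =
            2 * j * (e + 1) + 2 * ((e + 1) * M) + 96 * (ρ * ((e + 1) * M)) := by ring
        have a2 : ρ * ((e + 1) * M) ≤ ρ * s := Nat.mul_le_mul_left _ hMs
        have a3 : 1 * s ≤ ρ * s := Nat.mul_le_mul_right _ hρ
        have a4 : 24 + 5 * dl + (e + 1) + 2 * (2 * s + 3) + 2 * σ +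
            2 * (j + M + 48 * ρ * M) * (e + 1) ≤ 128 * (ρ * s) := by
          rw [a1]; omega
        calc _ ≤ 4 * ρ * (128 * (ρ * s)) := Nat.mul_le_mul_left _ a4
          _ = s * (512 * ρ ^ 2) := by ring
          _ ≤ s * Λ := Nat.mul_le_mul_left _ hΛ)
      (by refine le_trans (le_of_eq ?_) hm; push_cast; ring)
    have e1 : U ++ (geo Λ (n + 1) s ++ L) = U ++ geo Λ n (s * Λ) ++ s :: L := by simp [geo]
    have e2 : U ++ (geo Λ n (s * Λ) ++ s :: L) = U ++ geo Λ n (s * Λ) ++ s :: L := by simp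
    rw [e1]
    rw [e2] at h2
    have e3 : ((e : ℝ) + 1) / 2 ^ (n + 1) = (e + 1) / 2 ^ n / 2 := by rw [pow_succ, div_div]
    rw [e3]
    linarith

end Crest.Agent.R2
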