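import Crest.Agent.R2.Defs

/-!
TASK (rid 2) Primes: many dyadic blocks contain many primes `≡ 1 (mod 4)`.

Use `ArithmeticFunction.vonMangoldt.LSeries_residueClass_lower_bound` (`q = 4`, `a = 1`,
`φ(4) = 2`) at `x = 1 + 1/B`, `B = 256 A`: `128 A - C ≤ ∑' n, residueClass 1 n / n^x`.
The non-primes contribute at most the constant `C' = ∑' n, (if n.Prime then 0 else
residueClass 1 n) / n` (`summable_residueClass_non_primes_div`, `n^x ≥ n`).  A prime `p ≡ 1 (4)`
lies in `pool e`, `e = Nat.log 2 p`, and contributes `log p / p^x ≤ (log p / 2^e) 2^(-e/B)`.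
Put `b e = ∑ p ∈ pool e, log p / 2^e`.  Then `b e ≤ log 4`: the primes of `pool e` lie in
`(2^e, 2^(e+1)]`, divide `(2^e+2^e).choose (2^e) ≤ 2^(2^(e+1))` (`Nat.Prime.dvd_choose_add`,
`Finset.prod_primes_dvd`, `Nat.choose_le_two_pow`).  Blocks `e < 32 A` give at most
`32 A log 4 ≤ 44.4 A`; blocks `e ≥ 1024 A = 4 B` give at most
`log 4 * ∑_{j ≥ 4} B 2^(-j) = log 4 * B / 8 ≤ 44.4 A` (`2^(-e/B) ≤ 2^(-⌊e/B⌋)`); a bad block
`32 A ≤ e < 1024 A` (`2^15 A |pool e| < 2^e`) has `b e ≤ 1024 A log 2 / (2^15 A) ≤ 0.0217`, in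
total `≤ 21.6 A`; a good block has `b e ≤ 1.387`.  Hence
`17 A - C - C' ≤ 1.387 * #good`, and `#good ≥ A` for large `A`.
(It is enough to bound finite partial sums `∑ n < 2^M`, `Summable.tsum_le_of_sum_range_le` or
`Real.tsum_le_of_sum_range_le`.)
-/

set_option autoImplicit false

namespace Crest.Agent.R2

open Finset

open ArithmeticFunction.vonMangoldt in
lemma pr_res_prime (n : ℕ) :
    (if n.Prime then residueClass (1 : ZMod 4) n else 0) =
      if n.Prime ∧ n % 4 = 1 then Real.log n else 0 := by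
  by_cases hp : n.Prime
  · have h4 : ((n : ZMod 4) = 1) ↔ n % 4 = 1 := by
      have := (ZMod.natCast_eq_natCast_iff' n 1 4)
      simpa using this
    by_cases h : n % 4 = 1
    · rw [if_pos hp, if_pos ⟨hp, h⟩]
      unfold residueClass
      rw [Set.indicator_of_mem (by simpa using h4.2 h)]
      exact ArithmeticFunction.vonMangoldt_apply_prime hp
    · rw [if_pos hp, if_neg (fun hh => h hh.2)]
      unfold residueClass
      rw [Set.indicator_of_notMem (by simpa using fun hh => h (h4.1 hh))]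
  · simp [hp]

lemma pr_block (e : ℕ) : ∑ p ∈ pool e, Real.log p ≤ 2 ^ e * Real.log 4 := by
  have hdvd : ∏ p ∈ pool e, p ∣ (2 ^ e + 2 ^ e).choose (2 ^ e) := by
    apply Finset.prod_primes_dvd
    · intro p hp
      exact (mem_pool.1 hp).2.1.prime
    · intro p hp
      obtain ⟨⟨h1, h2⟩, hpp, h4⟩ := mem_pool.1 hp
      have hlt : 2 ^ e < p := by
        rcases h1.lt_or_eq with h | h
        · exact h
        · exfalso
          rcases e with _ | e
          · simp at h; rw [← h] at hpp; exact Nat.not_prime_one hpp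
          · rw [pow_succ] at h; omega
      refine hpp.dvd_choose_add hlt hlt ?_
      rw [pow_succ] at h2; omega
  have hle : ∏ p ∈ pool e, p ≤ 2 ^ (2 ^ e + 2 ^ e) :=
    (Nat.le_of_dvd (Nat.choose_pos (Nat.le_add_right _ _)) hdvd).trans (Nat.choose_le_two_pow _ _)
  have hne : ∀ p ∈ pool e, (p : ℝ) ≠ 0 := fun p hp => by
    have := (mem_pool.1 hp).2.1.pos
    positivity
  rw [← Real.log_prod hne]
  have h1 : (∏ p ∈ pool e, (p : ℝ)) ≤ 4 ^ (2 ^ e) := by
    have : ((∏ p ∈ pool e, p : ℕ) : ℝ) ≤ ((2 ^ (2 ^ e + 2 ^ e) : ℕ) : ℝ) := by exact_mod_cast hle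
    rw [Nat.cast_prod] at this
    refine this.trans (le_of_eq ?_)
    push_cast
    rw [pow_add, ← mul_pow]; norm_num
  have h0 : 0 < ∏ p ∈ pool e, (p : ℝ) :=
    Finset.prod_pos fun p hp => by have := (mem_pool.1 hp).2.1.pos; positivity
  calc Real.log (∏ p ∈ pool e, (p : ℝ)) ≤ Real.log (4 ^ (2 ^ e)) := Real.log_le_log h0 h1
    _ = _ := by rw [Real.log_pow]; push_cast; ring

lemma pr_bad (e : ℕ) : ∑ p ∈ pool e, Real.log p ≤ (pool e).card * ((e + 1) * Real.log 2) := by
  have : ∀ p ∈ pool e, Real.log p ≤ (e + 1) * Real.log 2 := by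
    intro p hp
    obtain ⟨⟨h1, h2⟩, hpp, h4⟩ := mem_pool.1 hp
    have h0 : (0 : ℝ) < p := by have := hpp.pos; positivity
    have h3 : (p : ℝ) ≤ 2 ^ (e + 1) := by exact_mod_cast h2.le
    calc Real.log p ≤ Real.log (2 ^ (e + 1)) := Real.log_le_log h0 h3
      _ = _ := by rw [Real.log_pow]; push_cast; ring
  simpa using Finset.sum_le_card_nsmul _ _ _ this

/-- block sums -/
lemma pr_partial (s : ℝ) (hs : 0 ≤ s) (M : ℕ) :
    ∑ n ∈ range (2 ^ M), (if n.Prime ∧ n % 4 = 1 then Real.log n else 0) / (n : ℝ) ^ (1 + s) ≤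
      ∑ e ∈ range M, (∑ p ∈ pool e, Real.log p) / 2 ^ e * ((2 : ℝ) ^ (-s)) ^ e := by
  induction M with
  | zero => simp
  | succ M ih =>
    rw [Finset.sum_range_succ, ← Finset.sum_range_add_sum_Ico _
      (Nat.pow_le_pow_right (by norm_num) (Nat.le_succ M) : 2 ^ M ≤ 2 ^ (M + 1))]
    refine add_le_add ih ?_
    rw [Finset.sum_div, Finset.sum_mul, pool, Finset.sum_filter]
    refine Finset.sum_le_sum fun n hn => ?_
    split_ifs with h
    · have h1 : (2 : ℝ) ^ M ≤ n := by exact_mod_cast (Finset.mem_Ico.1 hn).1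
      have h2 : (0 : ℝ) < 2 ^ M := by positivity
      have hl : 0 ≤ Real.log n := Real.log_natCast_nonneg n
      have h3 : ((2 : ℝ) ^ M) ^ (1 + s) ≤ (n : ℝ) ^ (1 + s) :=
        Real.rpow_le_rpow h2.le h1 (by linarith)
      have h4 : ((2 : ℝ) ^ (-s)) ^ M = (((2 : ℝ) ^ M) ^ s)⁻¹ := by
        rw [← Real.rpow_natCast, ← Real.rpow_mul (by norm_num), ← Real.rpow_natCast,
          ← Real.rpow_mul (by norm_num), ← Real.rpow_neg (by norm_num)]
        congr 1; ring
      calc Real.log n / (n : ℝ) ^ (1 + s) ≤ Real.log n / ((2 : ℝ) ^ M) ^ (1 + s) :=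
            div_le_div_of_nonneg_left hl (by positivity) h3
        _ = _ := by
            rw [h4, Real.rpow_add h2, Real.rpow_one]
            field_simp
    · simp

lemma pr_tail (B : ℕ) (hB : 0 < B) (M : ℕ) :
    ∑ e ∈ (range M).filter (fun e => 4 * B ≤ e), ((2 : ℝ) ^ (-(1 / (B : ℝ)))) ^ e ≤
      (1 + B / Real.log 2) / 16 := by
  set r : ℝ := (2 : ℝ) ^ (-(1 / (B : ℝ))) with hr
  have hB' : (0 : ℝ) < B := by exact_mod_cast hB
  have hl : 0 < Real.log 2 := Real.log_pos (by norm_num)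
  have hr0 : 0 < r := by positivity
  have hr1 : r * (1 + Real.log 2 / B) ≤ 1 := by
    have h1 : r = Real.exp (-(Real.log 2 / B)) := by
      rw [hr, Real.rpow_def_of_pos (by norm_num)]; congr 1; ring
    have h2 := Real.add_one_le_exp (Real.log 2 / B)
    rw [h1, Real.exp_neg]
    rw [inv_mul_le_iff₀ (Real.exp_pos _)]
    linarith
  have ht : 0 < Real.log 2 / B := by positivity
  have hr2 : r < 1 := by nlinarith
  have h4 : r ^ (4 * B) = 1 / 16 := by
    rw [hr, ← Real.rpow_natCast, ← Real.rpow_mul (by norm_num)]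
    have : -(1 / (B : ℝ)) * ((4 * B : ℕ) : ℝ) = -((4 : ℕ) : ℝ) := by
      push_cast; field_simp
    rw [this, Real.rpow_neg (by norm_num), Real.rpow_natCast]; norm_num
  have h5 : ∑ e ∈ (range M).filter (fun e => 4 * B ≤ e), r ^ e ≤ r ^ (4 * B) / (1 - r) := by
    have : (range M).filter (fun e => 4 * B ≤ e) = Finset.Ico (4 * B) M := by
      ext e; simp; omega
    rw [this]
    exact geom_sum_Ico_le_of_lt_one hr0.le hr2
  refine h5.trans ?_
  rw [h4, div_le_div_iff₀ (by linarith) (by norm_num)]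
  have h6 : (B : ℝ) / Real.log 2 = 1 / (Real.log 2 / B) := by field_simp
  rw [h6]
  set t := Real.log 2 / B
  have h7 : 1 ≤ (1 + 1 / t) * (1 - r) := by
    have : (1 + 1 / t) * (1 - r) = (1 + t - r * (1 + t)) / t := by field_simp; ring
    rw [this, le_div_iff₀ ht]; linarith
  linarith

lemma pr_sum (A : ℕ) (hA : 0 < A) (M : ℕ) :
    ∑ e ∈ range M, (∑ p ∈ pool e, Real.log p) / 2 ^ e *
        ((2 : ℝ) ^ (-(1 / ((256 * A : ℕ) : ℝ)))) ^ e ≤
      99 * A + 1 + 1.4 * ((Finset.Ico (32 * A) (1024 * A)).filter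
        (fun e => 2 ^ e ≤ 2 ^ 15 * A * (pool e).card)).card := by
  set r : ℝ := (2 : ℝ) ^ (-(1 / ((256 * A : ℕ) : ℝ))) with hr
  set G := (Finset.Ico (32 * A) (1024 * A)).filter
        (fun e => 2 ^ e ≤ 2 ^ 15 * A * (pool e).card) with hG
  have hA' : (0 : ℝ) < A := by exact_mod_cast hA
  have hr0 : 0 < r := by positivity
  have hr1 : r ≤ 1 := Real.rpow_le_one_of_one_le_of_nonpos (by norm_num) (by
    have : (0 : ℝ) ≤ 1 / ((256 * A : ℕ) : ℝ) := by positivity
    linarith)
  have hl2 := Real.log_two_lt_d9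
  have hl2' := Real.log_two_gt_d9
  have hl4 : Real.log 4 = 2 * Real.log 2 := by
    rw [show (4 : ℝ) = 2 ^ 2 by norm_num, Real.log_pow]; norm_num
  have hpt : ∀ e, (∑ p ∈ pool e, Real.log p) / 2 ^ e * r ^ e ≤
      (if e ∈ range (32 * A) then Real.log 4 else 0) +
      (if 4 * (256 * A) ≤ e then Real.log 4 * r ^ e else 0) +
      (if e ∈ range (1024 * A) then (0.0217 : ℝ) else 0) +
      (if e ∈ G then Real.log 4 else 0) := by
    intro e
    have h2 : (0 : ℝ) < 2 ^ e := by positivity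
    have hb : (∑ p ∈ pool e, Real.log p) / 2 ^ e ≤ Real.log 4 := by
      rw [div_le_iff₀ h2]; have := pr_block e; linarith
    have hb0 : 0 ≤ (∑ p ∈ pool e, Real.log p) / 2 ^ e :=
      div_nonneg (Finset.sum_nonneg fun p _ => Real.log_natCast_nonneg p) h2.le
    have hre : r ^ e ≤ 1 := pow_le_one₀ hr0.le hr1
    have hre0 : 0 < r ^ e := by positivity
    have hb1 : (∑ p ∈ pool e, Real.log p) / 2 ^ e * r ^ e ≤
        (∑ p ∈ pool e, Real.log p) / 2 ^ e := mul_le_of_le_one_right hb0 hre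
    have hb2 : (∑ p ∈ pool e, Real.log p) / 2 ^ e * r ^ e ≤ Real.log 4 * r ^ e :=
      mul_le_mul_of_nonneg_right hb hre0.le
    have hl40 : 0 ≤ Real.log 4 := by linarith
    have hq : 0 ≤ Real.log 4 * r ^ e := by positivity
    by_cases h1 : e ∈ range (32 * A)
    · rw [if_pos h1]; split_ifs <;> linarith
    by_cases h3 : 4 * (256 * A) ≤ e
    · rw [if_pos h3]; split_ifs <;> linarith
    by_cases h4 : e ∈ G
    · rw [if_pos h4]; split_ifs <;> linarith
    have h5 : e ∈ range (1024 * A) := by rw [Finset.mem_range]; omega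
    rw [if_neg h1, if_neg h3, if_neg h4, if_pos h5]
    have h6 : 2 ^ 15 * A * (pool e).card < 2 ^ e := by
      by_contra hc
      apply h4
      rw [hG, Finset.mem_filter, Finset.mem_Ico]
      rw [Finset.mem_range] at h1 h5
      exact ⟨⟨by omega, h5⟩, by omega⟩
    have h7 : (2 : ℝ) ^ 15 * A * (pool e).card ≤ 2 ^ e := by exact_mod_cast h6.le
    have h8 : (e : ℝ) + 1 ≤ 1024 * A := by
      rw [Finset.mem_range] at h5
      exact_mod_cast (Nat.succ_le_of_lt h5)
    have h9 : (∑ p ∈ pool e, Real.log p) / 2 ^ e ≤ 0.0217 := by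
      rw [div_le_iff₀ h2]
      refine (pr_bad e).trans ?_
      have hc : (0 : ℝ) ≤ (pool e).card := by positivity
      have h10 : ((e : ℝ) + 1) * Real.log 2 ≤ 1024 * A * 0.6932 :=
        mul_le_mul h8 (by linarith) (by linarith) (by positivity)
      calc ((pool e).card : ℝ) * ((e + 1) * Real.log 2)
          ≤ (pool e).card * (1024 * A * 0.6932) := mul_le_mul_of_nonneg_left h10 hc
        _ ≤ 0.0217 * (2 ^ 15 * A * (pool e).card) := by
            have : (0 : ℝ) ≤ A * (pool e).card := by positivity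
            nlinarith
        _ ≤ _ := by linarith
    linarith
  refine (Finset.sum_le_sum fun e _ => hpt e).trans ?_
  have key : ∀ (S : Finset ℕ) (c : ℝ), 0 ≤ c →
      ∑ e ∈ range M, (if e ∈ S then c else 0) ≤ S.card * c := by
    intro S c hc
    rw [Finset.sum_ite_mem, Finset.sum_const, nsmul_eq_mul]
    refine mul_le_mul_of_nonneg_right ?_ hc
    exact_mod_cast Finset.card_le_card Finset.inter_subset_right
  rw [Finset.sum_add_distrib, Finset.sum_add_distrib, Finset.sum_add_distrib]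
  have k1 := key (range (32 * A)) (Real.log 4) (by linarith)
  have k3 := key (range (1024 * A)) 0.0217 (by norm_num)
  have k4 := key G (Real.log 4) (by linarith)
  have k2 : ∑ e ∈ range M, (if 4 * (256 * A) ≤ e then Real.log 4 * r ^ e else 0) ≤
      Real.log 4 * ((1 + ((256 * A : ℕ) : ℝ) / Real.log 2) / 16) := by
    rw [← Finset.sum_filter, ← Finset.mul_sum]
    exact mul_le_mul_of_nonneg_left (pr_tail (256 * A) (by omega) M) (by linarith)
  have k5 : Real.log 4 * ((1 + ((256 * A : ℕ) : ℝ) / Real.log 2) / 16) =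
      Real.log 2 / 8 + 32 * A := by
    rw [hl4]; push_cast; field_simp; ring
  rw [Finset.card_range] at k1 k3
  push_cast at k1 k3
  have hG0 : (0 : ℝ) ≤ G.card := by positivity
  have k6 : (G.card : ℝ) * Real.log 4 ≤ 1.4 * G.card := by nlinarith
  have k7 : 32 * (A : ℝ) * Real.log 4 ≤ 44.4 * A := by nlinarith
  linarith

theorem primes_supply : ∃ A0 : ℕ, ∀ A : ℕ, A0 ≤ A →
    A ≤ ((Finset.Ico (32 * A) (1024 * A)).filter
      (fun e => 2 ^ e ≤ 2 ^ 15 * A * (pool e).card)).card := by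
  have hu : IsUnit (1 : ZMod 4) := isUnit_one
  obtain ⟨C, hC⟩ := ArithmeticFunction.vonMangoldt.LSeries_residueClass_lower_bound hu
  have hsum := ArithmeticFunction.vonMangoldt.summable_residueClass_non_primes_div (1 : ZMod 4)
  set C' := ∑' n : ℕ, (if n.Prime then 0 else
    ArithmeticFunction.vonMangoldt.residueClass (1 : ZMod 4) n) / (n : ℝ) with hC'
  obtain ⟨A0, hA0⟩ := exists_nat_ge (C + C' + 1)
  refine ⟨A0 + 1, fun A hA => ?_⟩
  have hA1 : 0 < A := by omega
  have hA' : (1 : ℝ) ≤ A := by exact_mod_cast hA1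
  have hA2 : (A0 : ℝ) ≤ A := by exact_mod_cast (by omega : A0 ≤ A)
  set G := (Finset.Ico (32 * A) (1024 * A)).filter
        (fun e => 2 ^ e ≤ 2 ^ 15 * A * (pool e).card) with hG
  set s : ℝ := 1 / ((256 * A : ℕ) : ℝ) with hs
  have hs0 : 0 < s := by positivity
  have hs1 : s ≤ 1 := by
    rw [hs, div_le_one (by positivity)]; push_cast; linarith
  have h1 := hC (x := 1 + s) ⟨by linarith, by linarith⟩
  have htot : Nat.totient 4 = 2 := by decide
  have h2 : ((Nat.totient 4 : ℕ) : ℝ)⁻¹ / (1 + s - 1) = 128 * A := by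
    rw [htot, add_sub_cancel_left, hs]; push_cast; field_simp; norm_num
  rw [h2] at h1
  have h3 : ∑' n, ArithmeticFunction.vonMangoldt.residueClass (1 : ZMod 4) n / (n : ℝ) ^ (1 + s) ≤
      C' + (99 * A + 1 + 1.4 * G.card) := by
    refine Real.tsum_le_of_sum_range_le (fun n => div_nonneg
      (ArithmeticFunction.vonMangoldt.residueClass_nonneg _ _) (by positivity)) fun N => ?_
    have hpt : ∀ n : ℕ, ArithmeticFunction.vonMangoldt.residueClass (1 : ZMod 4) n /
        (n : ℝ) ^ (1 + s) ≤ (if n.Prime then 0 else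
          ArithmeticFunction.vonMangoldt.residueClass (1 : ZMod 4) n) / (n : ℝ) +
          (if n.Prime ∧ n % 4 = 1 then Real.log n else 0) / (n : ℝ) ^ (1 + s) := by
      intro n
      rw [← pr_res_prime]
      split_ifs with hp
      · simp
      · rcases n.eq_zero_or_pos with rfl | hn
        · simp
        · rw [zero_div, add_zero]
          refine div_le_div_of_nonneg_left
            (ArithmeticFunction.vonMangoldt.residueClass_nonneg _ _) (mod_cast hn) ?_
          conv_lhs => rw [← Real.rpow_one n]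
          exact Real.rpow_le_rpow_of_exponent_le (by norm_cast) (by linarith)
    refine (Finset.sum_le_sum fun n _ => hpt n).trans ?_
    rw [Finset.sum_add_distrib]
    refine add_le_add (hsum.sum_le_tsum _ fun n _ => ?_) ?_
    · refine div_nonneg ?_ (Nat.cast_nonneg _)
      split_ifs
      · exact le_rfl
      · exact ArithmeticFunction.vonMangoldt.residueClass_nonneg _ _
    · refine le_trans ?_ ((pr_partial s hs0.le N).trans (pr_sum A hA1 N))
      refine Finset.sum_le_sum_of_subset_of_nonneg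
        (Finset.range_subset_range.2 (Nat.lt_two_pow_self).le) fun n _ _ => ?_
      refine div_nonneg ?_ (by positivity)
      split_ifs
      · exact Real.log_natCast_nonneg n
      · exact le_rfl
  have h4 : (A : ℝ) ≤ G.card := by linarith
  exact_mod_cast h4

end Crest.Agent.R2
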