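import Crest.Agent.R2.Block
import Crest.Agent.R2.Primes

/-!
The decrement of a group, the tower of groups, and the theorem on walks.
-/

set_option autoImplicit false
set_option exponentiation.threshold 1000

namespace Crest.Agent.R2

open Finset Real

namespace Wk

variable (W : Wk)

/-- entropy rate of windows of length `h` -/
noncomputable def ff (L : List ℕ) (h : ℕ) : ℝ := (W.P L 0).H (gam h) / h

lemma H_gam_P_le {dl : ℕ} (hdl : W.D ≤ 2 ^ dl) (L : List ℕ) (h : ℕ) :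
    (W.P L 0).H (gam h) ≤ h * (2 * (dl + 3 : ℕ)) := by
  refine (H_gam_le _ (2 * W.D) h ((W.P_ae L 0).mono fun ξ h => h.2.1)).trans ?_
  have := log_four_le hdl
  have h2 : (2 * ((2 * W.D : ℕ) : ℝ) + 1) = 4 * W.D + 1 := by push_cast; ring
  rw [h2]
  gcongr

theorem group {x : (p : ℕ) → ZMod p} (hx : W.Avoid x) {a dl b : ℕ} {L : List ℕ}
    (ha : 100 ≤ a) (hdl : W.D ≤ 2 ^ dl) (hda : dl ≤ a) (hT : W.T L ≤ 2 ^ b)
    (hb : 2 ^ (26 + a) * b ≤ 2 ^ 2 ^ a) (hS : 2 ^ (9 * 2 ^ a) ≤ W.S + 1) (U : List ℕ)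
    (hP : 2 ^ a ≤ ((Finset.Ico (32 * 2 ^ a) (1024 * 2 ^ a)).filter
      (fun e => 2 ^ e ≤ 2 ^ 15 * 2 ^ a * (pool e).card)).card)
    (k : ℕ) (hk : 2 ^ (2000 * 2 ^ a) ≤ k) :
    W.ff (U ++ (Ua a ++ Lb1 a L)) (k * 2 ^ (9 * 2 ^ a)) ≤
      W.ff (U ++ (Ua a ++ Lb1 a L)) (2 ^ (9 * 2 ^ a)) - 1 / 2 ^ 566 := by
  classical
  have hA2 := big2 ha
  obtain ⟨L0, h1, h2, h3⟩ := W.blocks hx ha hdl hda hT hb hS U (1024 * 2 ^ a) (by omega) le_rfl
  obtain ⟨b1, t1, t2⟩ := W.T_Lb1 ha hT hb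
  set κ := W.C (U ++ Ua a) 0 with hκ
  set K := W.P (Lb1 a L) with hK
  have hμ : κ.bind K = W.P (U ++ (Ua a ++ Lb1 a L)) 0 := by
    rw [hκ, hK, ← P_append, List.append_assoc]
  obtain ⟨A, hA⟩ : ∃ A, A = 2 ^ a := ⟨_, rfl⟩
  have hAr : (2 : ℝ) ^ a = A := by rw [hA]; push_cast; rfl
  rw [hAr] at h3
  have hcard : A ≤ ((Ico (32 * 2 ^ a) (1024 * 2 ^ a)).filter (Rich a)).card := by
    rw [hA]; convert hP; rfl
  rw [← hA] at hA2 h2 h3 t2 hk hcard ⊢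
  clear hP hb hS hT
  set h := 2 ^ (9 * A) with hh
  set n := 2 ^ (1024 * A + 13 + a - 9 * A) with hn
  have hk0 : 0 < k := lt_of_lt_of_le (by positivity) hk
  have hh0 : (0 : ℝ) < h := by positivity
  have hn0 : (0 : ℝ) < n := by positivity
  have hA0 : (0 : ℝ) < A := by have : 0 < A := by omega
                               exact_mod_cast this
  -- the cost of the displacement
  have hone : ∀ L' : Finset ℕ, Psi κ K h L' 1 ≤
      (W.P (U ++ (Ua a ++ Lb1 a L)) 0).H (gam h) + (2 ^ (7 * A) : ℕ) := by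
    intro L'
    have h4 := Psi_one_le κ K h L' (W.D * W.T (Lb1 a L)) (FD.AE.of_forall fun c => ⟨W.X c,
      (W.P_ae _ c).mono fun ξ hξ => by
        obtain ⟨t, s1, s2, s3⟩ := hξ.1 0
        rw [s3]; exact W.nm_X_le s2 (by omega)⟩)
    rw [hμ] at h4
    have h5 : W.D * W.T (Lb1 a L) ≤ 2 ^ (dl + b1) := by rw [pow_add]; exact Nat.mul_le_mul hdl t1
    have h6 := log_four_le h5
    have h7 : 2 * (dl + b1 + 3) ≤ 2 ^ (7 * A) := by
      have h8 : 4 * b1 ≤ 2 ^ (26 + a) * b1 :=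
        Nat.mul_le_mul_right _ (le_trans (by norm_num) (p2 (show 2 ≤ 26 + a by omega)))
      have h9 : 7 * A < 2 ^ (7 * A) := Nat.lt_two_pow_self
      omega
    have h8 : (2 * (dl + b1 + 3 : ℕ) : ℝ) ≤ (2 ^ (7 * A) : ℕ) := by exact_mod_cast h7
    linarith
  have hgam := W.H_gam_P_le hdl (U ++ (Ua a ++ Lb1 a L)) h
  have hge := Psi_ge κ K h L0 (fun c j => W.P_shift _ c j) k hk0 (2 ^ (1025 * A) : ℕ) n
    (fun i hi => by
      have h4 := Psi_mul κ K h L0 i 1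
      rw [mul_one] at h4
      have h5 := (H_Y_le ((κ.bind K).map (fun ξ => ξ 0)) id L0 h1).trans h2
      have h6 : Psi κ K h L0 1 ≤ (h * (2 * (dl + 3)) + 2 ^ (7 * A) : ℕ) := by
        have := hone L0
        push_cast at this hgam ⊢
        linarith
      have h7 : i * (h * (2 * (dl + 3)) + 2 ^ (7 * A)) + 2 ^ (1024 * A - 540) ≤ 2 ^ (1025 * A) := by
        have s1 : 2 ^ (7 * A) ≤ h := p2 (by omega)
        have s2 : h * (2 * (dl + 3)) + 2 ^ (7 * A) ≤ h * 2 ^ a := by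
          calc h * (2 * (dl + 3)) + 2 ^ (7 * A) ≤ h * (2 * (dl + 3)) + h := by omega
            _ = h * (2 * (dl + 3) + 1) := by ring
            _ ≤ h * 2 ^ a := Nat.mul_le_mul_left _ (by omega)
        have s3 : n * (h * 2 ^ a) = 2 ^ (1024 * A + 13 + 2 * a) := by
          rw [hn, hh, ← pow_add, ← pow_add]; exact congrArg (fun k => 2 ^ k) (by omega)
        have s4 : i * (h * (2 * (dl + 3)) + 2 ^ (7 * A)) ≤ n * (h * 2 ^ a) :=
          Nat.mul_le_mul hi.le s2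
        have s5 : 2 ^ (1024 * A + 13 + 2 * a) ≤ 2 ^ (1025 * A - 1) := p2 (by omega)
        have s6 : 2 ^ (1024 * A - 540) ≤ 2 ^ (1025 * A - 1) := p2 (by omega)
        have s7 : 2 ^ (1025 * A) = 2 * 2 ^ (1025 * A - 1) := by
          rw [← pow_succ']; exact congrArg (fun k => 2 ^ k) (by omega)
        omega
      have h8 : ((i * (h * (2 * (dl + 3)) + 2 ^ (7 * A)) + 2 ^ (1024 * A - 540) : ℕ) : ℝ) ≤
        (2 ^ (1025 * A) : ℕ) := by exact_mod_cast h7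
      rw [Nat.cast_add, Nat.cast_mul] at h8
      have h9 := mul_le_mul_of_nonneg_left h6 (Nat.cast_nonneg (α := ℝ) i)
      exact le_trans (add_le_add (h4.trans h9) h5) h8)
  rw [hμ] at hge
  have h4 := le_of_mul_le_mul_left (hge.trans h3) hn0
  have h5 := hone ∅
  have h6 : (h : ℝ) / 2 ^ 565 ≤
      ((Ico (32 * A) (1024 * A)).filter (Rich a)).card * ((h : ℝ) / (2 ^ 565 * A)) := by
    calc (h : ℝ) / 2 ^ 565 = A * ((h : ℝ) / (2 ^ 565 * A)) := by field_simp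
      _ ≤ _ := mul_le_mul_of_nonneg_right (by exact_mod_cast hcard)
          (div_nonneg hh0.le (mul_nonneg (pow_nonneg zero_le_two _) hA0.le))
  have h7 : ((2 ^ (7 * A) : ℕ) : ℝ) ≤ h / 2 ^ 567 := by
    rw [le_div_iff₀ (by positivity)]
    have : 2 ^ (7 * A) * 2 ^ 567 ≤ h := by rw [← pow_add]; exact p2 (by omega)
    exact_mod_cast this
  have hk0' : (0 : ℝ) < k := by exact_mod_cast hk0
  have h8 : ((2 ^ (1025 * A) : ℕ) : ℝ) / k ≤ h / 2 ^ 567 := by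
    rw [div_le_div_iff₀ hk0' (by positivity)]
    have : 2 ^ (1025 * A) * 2 ^ 567 ≤ h * k := by
      calc 2 ^ (1025 * A) * 2 ^ 567 = 1 * 2 ^ (1025 * A + 567) := by rw [← pow_add, one_mul]
        _ ≤ h * k := Nat.mul_le_mul Nat.one_le_two_pow ((p2 (by omega)).trans hk)
    exact_mod_cast this
  unfold ff
  rw [sub_div] at h4
  have h9 : (W.P (U ++ (Ua a ++ Lb1 a L)) 0).H (gam (k * h)) / k ≤
      (W.P (U ++ (Ua a ++ Lb1 a L)) 0).H (gam h) - h / 2 ^ 566 := by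
    have e1 : (h : ℝ) / 2 ^ 565 = 4 * (h / 2 ^ 567) := by ring
    have e2 : (h : ℝ) / 2 ^ 566 = 2 * (h / 2 ^ 567) := by ring
    rw [e1] at h6
    rw [e2]
    generalize (h : ℝ) / 2 ^ 567 = q at *
    linarith
  rw [Nat.cast_mul, ← div_div]
  calc _ ≤ ((W.P (U ++ (Ua a ++ Lb1 a L)) 0).H (gam h) - h / 2 ^ 566) / h := by gcongr
    _ = _ := by field_simp

end Wk

/-- the scales of the groups `a, a + 11, …` -/
def Lev (a : ℕ) : ℕ → List ℕ
  | 0 => []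
  | g + 1 => Ua (a + 11 * g) ++ Lb1 (a + 11 * g) (Lev a g)

lemma Lev_split (a : ℕ) {g G : ℕ} (h : g ≤ G) : ∃ U, Lev a G = U ++ Lev a g := by
  induction G, h using Nat.le_induction with
  | base => exact ⟨[], rfl⟩
  | succ G _ ih =>
    obtain ⟨U, hU⟩ := ih
    refine ⟨Ua (a + 11 * G) ++ (Ub1 (a + 11 * G) ++ (geo (2 ^ (53 + 2 * (a + 11 * G)))
      (22 + (a + 11 * G)) (2 ^ 2 ^ (a + 11 * G)) ++ U)), ?_⟩
    rw [Lev, hU]
    simp only [Lb1, Lb2, List.append_assoc]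

lemma T_Lev (W : Wk) {a b0 : ℕ} (ha : 100 ≤ a) (hS : W.S ≤ 2 ^ b0)
    (hb : 2 ^ (26 + a) * b0 ≤ 2 ^ 2 ^ a) (g : ℕ) :
    ∃ b, W.T (Lev a g) ≤ 2 ^ b ∧ 2 ^ (26 + (a + 11 * g)) * b ≤ 2 ^ 2 ^ (a + 11 * g) := by
  induction g with
  | zero => exact ⟨b0, hS, hb⟩
  | succ g ih =>
    obtain ⟨b, h1, h2⟩ := ih
    obtain ⟨b', h3, h4⟩ := W.T_Ua (show 100 ≤ a + 11 * g by omega) h1 h2 (30 * 2 ^ (a + 11 * g))
    refine ⟨b', h3, ?_⟩
    have h5 := big2 (show 100 ≤ a + 11 * g by omega)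
    have h6 : b' ≤ 2 ^ 17 * b' := Nat.le_mul_of_pos_left _ (by positivity)
    calc 2 ^ (26 + (a + 11 * (g + 1))) * b'
        ≤ 2 ^ (26 + (a + 11 * (g + 1))) * 2 ^ (8 * 2 ^ (a + 11 * g) + 35 * (30 * 2 ^ (a + 11 * g))) :=
          Nat.mul_le_mul_left _ (h6.trans h4)
      _ ≤ _ := by
          rw [← pow_add]
          refine p2 ?_
          rw [show a + 11 * (g + 1) = a + 11 * g + 11 by ring, pow_add 2 (a + 11 * g) 11]
          omega

theorem walkThm : WalkThm := by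
  intro D X hD hinj hstep x hx
  obtain ⟨A0, hA0⟩ := primes_supply
  obtain ⟨G, h3⟩ : ∃ G : ℕ, (2 * (D + 3 : ℕ) : ℝ) < G * (1 / 2 ^ 566) := by
    obtain ⟨G, hG⟩ := exists_nat_gt ((2 * (D + 3 : ℕ) : ℝ) / (1 / 2 ^ 566))
    exact ⟨G, (div_lt_iff₀ (by positivity)).1 hG⟩
  obtain ⟨a, ha⟩ : ∃ a, a = 100 + D + A0 + G := ⟨_, rfl⟩
  let W : Wk := ⟨D, X, 2 ^ (9 * 2 ^ (a + 11 * G)), hD, hinj, hstep⟩
  have hdl : W.D ≤ 2 ^ D := Nat.lt_two_pow_self.le
  have ha100 : 100 ≤ a := by omega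
  have hb0 : 2 ^ (26 + a) * (9 * 2 ^ (a + 11 * G)) ≤ 2 ^ 2 ^ a := by
    have := big2 ha100
    have hGa : G ≤ a := by omega
    calc 2 ^ (26 + a) * (9 * 2 ^ (a + 11 * G)) ≤ 2 ^ (26 + a) * (2 ^ 4 * 2 ^ (a + 11 * G)) := by
          gcongr; norm_num
      _ ≤ _ := by rw [← pow_add, ← pow_add]; exact p2 (by omega)
  have key : ∀ g ≤ G, W.ff (Lev a G) (2 ^ (9 * 2 ^ (a + 11 * g))) ≤
      2 * (D + 3 : ℕ) - g * (1 / 2 ^ 566) := by
    intro g hg
    induction g with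
    | zero =>
      unfold Wk.ff
      rw [Nat.cast_zero, zero_mul, sub_zero, div_le_iff₀' (by positivity)]
      exact W.H_gam_P_le hdl _ _
    | succ g ih =>
      obtain ⟨U, hU⟩ := Lev_split a hg
      obtain ⟨b, h1, h2⟩ := T_Lev W ha100 le_rfl hb0 g
      have h3 := W.group hx (show 100 ≤ a + 11 * g by omega) hdl (by omega) h1 h2
        ((p2 (Nat.mul_le_mul_left _ (p2 (by omega)))).trans (Nat.le_succ _)) U
        (hA0 _ (le_trans (by omega) (Nat.lt_two_pow_self (n := a + 11 * g)).le))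
        (2 ^ (9 * 2047 * 2 ^ (a + 11 * g))) (p2 (by omega))
      have h4 : 2 ^ (9 * 2047 * 2 ^ (a + 11 * g)) * 2 ^ (9 * 2 ^ (a + 11 * g)) =
          2 ^ (9 * 2 ^ (a + 11 * (g + 1))) := by
        rw [← pow_add, show a + 11 * (g + 1) = a + 11 * g + 11 by ring, pow_add 2 (a + 11 * g) 11]
        exact congrArg (fun k => 2 ^ k) (by omega)
      rw [h4, ← Lev, ← hU] at h3
      have h5 := ih (by omega)
      push_cast at h5 ⊢
      linarith
  have h1 := key G le_rfl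
  have h2 : 0 ≤ W.ff (Lev a G) (2 ^ (9 * 2 ^ (a + 11 * G))) :=
    div_nonneg (FD.H_nonneg _ _) (Nat.cast_nonneg _)
  linarith

end Crest.Agent.R2
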