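import Crest.Agent.R2.Hier
import Crest.Agent.R2.Bwalk

/-!
TASK (rid 2) Pair: entropy bounds for the displacement of the exchangeable pair `W.pair`.

`pair_H`: almost surely (unfold `pair`; `AE_bind`, `AE_unif`, `AE_map`, `P_ae`/`pos_ae`, `ch_spec`)
both points are `X t`, `X t'` with `t, t' ∈ [c1, c1 + T (s :: L)]` (use `P_ae` through `pos`, and
`nm_X_le`), so the difference has `nm ≤ D T (s :: L)`; `H_box_le`.

`pair_low`: fix a list `l`, `T = l.toFinset`.  By concavity (`E_H_le_bind`) it suffices (after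
`E_comm`) to bound, for each `c1`, the law `ν c1 = unif.bind fun k => coin.bind …`.  Let `ν'` be the
same law remembering `(k, b, u, u')` (so `ν c1 = ν'.map …`, `H_map`, `ext_E`), and
`v k = X (ch s c1 k true) - X (ch s c1 k false)`.  The error
`err = (u' - u) - (X (ch s c1 k (!b)) - X (ch s c1 k b))` has `nm ≤ 2 D T L` (`pos_ae`,
`nm_sub_le`), and `Y T (v k)` is determined by `(Y T (u' - u), err, b)` (`phi_sub`, `phi_neg`), so
`H(Y T (v k)) ≤ H(Y T (u'-u)) + 2 log (4 D T L + 1) + log 2` (`H_le_of_det`, `H_pair_le`,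
`H_box_le`, `H_le_log_card`), where `ν'.H (Y T (v k)) = (unif (range ℓ)).H (Y T ∘ v)`
(`H_eq_of_law`).  Apply `bwalk` with `R = 2^s`, `w = 4 D`, `ℓ = ell s`, `Z = chZ s c1`
(`ch_spec`; `ℓ ≤ R`; `R / ℓ ≤ 18 D`, so `257 (4D)^2 2^e R / ℓ ≤ 74016 D^3 2^e`).
-/

set_option autoImplicit false

namespace Crest.Agent.R2

open Finset Real

lemma pair_pos_t (W : Wk) (L : List ℕ) (c : ℕ) :
    (W.pos L c).AE fun u => ∃ t, c ≤ t ∧ t ≤ c + W.T L ∧ u = W.X t :=
  FD.AE_map ((W.P_ae L c).mono fun _ h => h.1 0)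

theorem Wk.pair_H (W : Wk) (U : List ℕ) (s : ℕ) (L : List ℕ) (c : ℕ) :
    (W.pair U s L c).H (fun x => x.2 - x.1) ≤ 2 * log (2 * (W.D * W.T (s :: L) : ℕ) + 1) := by
  refine H_box_le _ _ _ ?_
  refine FD.AE_bind (FD.AE.of_forall fun c1 => FD.AE_bind (FD.AE_unif fun k hk =>
    FD.AE_bind (FD.AE.of_forall fun b => FD.AE_bind ((pair_pos_t W L _).mono fun u hu =>
      FD.AE_map ((pair_pos_t W L _).mono fun u' hu' => ?_)))))
  obtain ⟨t, h1, h2, rfl⟩ := hu
  obtain ⟨t', h1', h2', rfl⟩ := hu'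
  have hb := ((W.ch_spec s c1).2.1 k (mem_range.1 hk)).1
  have hb1 := hb b
  have hb2 := hb (!b)
  refine W.nm_X_le ?_ ?_ <;> rw [Wk.T] <;> omega

/-- the law of the pair in a fixed block, remembering the chord and the coin -/
noncomputable def pair_full (W : Wk) (s : ℕ) (L : List ℕ) (c1 : ℕ) :
    FD (ℕ × Bool × (ℤ × ℤ) × (ℤ × ℤ)) :=
  (FD.unif (range (W.ell s)) (W.ell_ne s)).bind fun k =>
    Wk.coin.bind fun b => (W.pos L (W.ch s c1 k b)).bind fun u =>
      (W.pos L (W.ch s c1 k (!b))).map fun u' => (k, b, u, u')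

lemma pair_eq (W : Wk) (U : List ℕ) (s : ℕ) (L : List ℕ) (c : ℕ) :
    W.pair U s L c = (W.C U c).bind fun c1 => (pair_full W s L c1).map fun y => y.2.2 :=
  FD.ext_E fun f => by simp [Wk.pair, pair_full]

/-- the chord vector -/
noncomputable def pair_v (W : Wk) (s c1 k : ℕ) : ℤ × ℤ :=
  W.X (W.ch s c1 k true) - W.X (W.ch s c1 k false)

/-- the displacement error -/
noncomputable def pair_err (W : Wk) (s c1 : ℕ) (y : ℕ × Bool × (ℤ × ℤ) × (ℤ × ℤ)) : ℤ × ℤ :=
  (y.2.2.2 - y.2.2.1) - (W.X (W.ch s c1 y.1 (!y.2.1)) - W.X (W.ch s c1 y.1 y.2.1))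

lemma pair_err_ae (W : Wk) (s : ℕ) (L : List ℕ) (c1 : ℕ) :
    (pair_full W s L c1).AE fun y => nm (pair_err W s c1 y) ≤ 2 * (W.D * W.T L) := by
  refine FD.AE_bind (FD.AE.of_forall fun k =>
    FD.AE_bind (FD.AE.of_forall fun b => FD.AE_bind ((W.pos_ae L _).mono fun u hu =>
      FD.AE_map ((W.pos_ae L _).mono fun u' hu' => ?_))))
  have : pair_err W s c1 (k, b, u, u') =
      (u' - W.X (W.ch s c1 k (!b))) - (u - W.X (W.ch s c1 k b)) := by
    simp only [pair_err]; abel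
  rw [this]
  have := nm_sub_le (u' - W.X (W.ch s c1 k (!b))) (u - W.X (W.ch s c1 k b))
  omega

lemma pair_block (W : Wk) (s : ℕ) (L : List ℕ) (c1 : ℕ) (T : Finset ℕ) :
    (FD.unif (range (W.ell s)) (W.ell_ne s)).H (fun k => Y T (pair_v W s c1 k)) ≤
      ((pair_full W s L c1).map fun y => y.2.2).H (fun x => Y T (x.2 - x.1)) +
        (log 2 + 2 * log (4 * (W.D * W.T L : ℕ) + 1)) := by
  have h0 : (FD.unif (range (W.ell s)) (W.ell_ne s)).H (fun k => Y T (pair_v W s c1 k)) =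
      (pair_full W s L c1).H (fun y => Y T (pair_v W s c1 y.1)) :=
    FD.H_eq_of_law fun F => by simp [pair_full]
  have h1 : (pair_full W s L c1).H (fun y => Y T (pair_v W s c1 y.1)) ≤
      (pair_full W s L c1).H
        (fun y => (Y T (y.2.2.2 - y.2.2.1), (y.2.1, pair_err W s c1 y))) := by
    refine FD.H_le_of_det fun y y' h => Y_eq_iff.2 fun p hp => ?_
    obtain ⟨k, b, u, u'⟩ := y
    obtain ⟨k', b', w, w'⟩ := y'
    simp only [Prod.mk.injEq] at h
    obtain ⟨hY, hb, herr⟩ := h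
    subst hb
    have e1 := Y_eq_iff.1 hY p hp
    have e2 := congrArg (phi p) herr
    simp only [pair_err, pair_v, phi_sub] at e1 e2 ⊢
    cases b
    · simp only [Bool.not_false] at e2
      linear_combination e1 - e2
    · simp only [Bool.not_true] at e2
      linear_combination e2 - e1
  have h2 := (pair_full W s L c1).H_pair_le (fun y => Y T (y.2.2.2 - y.2.2.1))
    (fun y => (y.2.1, pair_err W s c1 y))
  have h3 := (pair_full W s L c1).H_pair_le (fun y => y.2.1) (fun y => pair_err W s c1 y)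
  have h4 := (pair_full W s L c1).H_le_log_card (fun y => y.2.1) univ
    (FD.AE.of_forall fun _ => mem_univ _)
  have h5 := H_box_le _ _ _ (pair_err_ae W s L c1)
  have h6 : (2 : ℝ) * ((2 * (W.D * W.T L) : ℕ) : ℝ) + 1 = 4 * (W.D * W.T L : ℕ) + 1 := by
    push_cast; ring
  rw [h6] at h5
  have h7 : (((univ : Finset Bool).card : ℕ) : ℝ) = 2 := by simp
  rw [h7] at h4
  rw [h0, FD.H_map]
  linarith

lemma pair_log_le (W : Wk) (s e : ℕ) :
    log (257 * ((4 * W.D : ℕ) : ℝ) ^ 2 * 2 ^ e * ((2 ^ s : ℕ) : ℝ) / (W.ell s : ℝ)) ≤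
      log (74016 * W.D ^ 3 * 2 ^ e) := by
  have hD : (0 : ℝ) < W.D := by exact_mod_cast W.hD
  have hl : (0 : ℝ) < W.ell s := by
    have : 0 < W.ell s := Nat.succ_pos _
    exact_mod_cast this
  have hR : (0 : ℝ) < ((2 ^ s : ℕ) : ℝ) := by positivity
  have h1 : 2 ^ s ≤ 18 * W.D * W.ell s :=
    (Nat.lt_mul_div_succ (2 ^ s) (by have := W.hD; omega)).le
  have h2 : ((2 ^ s : ℕ) : ℝ) ≤ 18 * W.D * W.ell s := by exact_mod_cast h1
  refine log_le_log (by push_cast; positivity) ?_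
  rw [div_le_iff₀ hl]
  calc 257 * ((4 * W.D : ℕ) : ℝ) ^ 2 * 2 ^ e * ((2 ^ s : ℕ) : ℝ)
      ≤ 257 * ((4 * W.D : ℕ) : ℝ) ^ 2 * 2 ^ e * (18 * W.D * W.ell s) :=
        mul_le_mul_of_nonneg_left h2 (by positivity)
    _ = 74016 * W.D ^ 3 * 2 ^ e * W.ell s := by push_cast; ring

theorem Wk.pair_low (W : Wk) (U : List ℕ) (s : ℕ) (L : List ℕ) (c : ℕ) (e : ℕ) (he : 1 ≤ e)
    (hne : (pool e).Nonempty) (M : ℕ) (hM : (e + 1) * M ≤ s) :
    M * LL e hne - (log (74016 * W.D ^ 3 * 2 ^ e) +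
        5 * M ^ 2 / (pool e).card * ((e + 1) * log 2) + log 2 +
        2 * log (4 * (W.D * W.T L : ℕ) + 1)) ≤
      (FD.iid (QQ e hne) M).E
        (fun l => (W.pair U s L c).H (fun x => Y l.toFinset (x.2 - x.1))) := by
  have hD := W.hD
  have hb : ∀ c1 : ℕ, M * LL e hne - (log (74016 * W.D ^ 3 * 2 ^ e) +
        5 * M ^ 2 / (pool e).card * ((e + 1) * log 2)) ≤
      (FD.iid (QQ e hne) M).E (fun l => (FD.unif (range (W.ell s)) (W.ell_ne s)).H
        (fun k => Y l.toFinset (pair_v W s c1 k))) := by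
    intro c1
    obtain ⟨hZ, hv, hinj⟩ := W.ch_spec s c1
    have hℓ : W.ell s ≤ 2 ^ s :=
      Nat.succ_le_of_lt (Nat.div_lt_self (by positivity) (by omega))
    have := bwalk (W.chZ s c1) hZ (4 * W.D) (by omega) e he hne (2 ^ s) M (W.ell s) (W.ell_ne s)
      hℓ (Nat.pow_le_pow_right (by norm_num) hM) (pair_v W s c1)
      (fun k hk => (hv k hk).2) hinj
    have h2 := pair_log_le W s e
    linarith
  have hl : ∀ l : List ℕ, (W.C U c).E (fun c1 => (FD.unif (range (W.ell s)) (W.ell_ne s)).H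
        (fun k => Y l.toFinset (pair_v W s c1 k))) -
        (log 2 + 2 * log (4 * (W.D * W.T L : ℕ) + 1)) ≤
      (W.pair U s L c).H (fun x => Y l.toFinset (x.2 - x.1)) := by
    intro l
    rw [pair_eq]
    refine le_trans ?_ (FD.E_H_le_bind _ _ _)
    rw [sub_le_iff_le_add, ← FD.E_const (W.C U c) (log 2 + 2 * log (4 * (W.D * W.T L : ℕ) + 1)),
      ← FD.E_add]
    exact FD.E_mono fun c1 => pair_block W s L c1 _
  refine le_trans ?_ (FD.E_mono hl)
  rw [FD.E_sub, FD.E_const, FD.E_comm]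
  have := FD.le_E_of_ae (μ := W.C U c) (FD.AE.of_forall hb)
  linarith

end Crest.Agent.R2
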