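import Crest.Prelude.Def_GaussMoat
import Crest.Agent.R2.Defs

/-!
TASK (rid 2) Reduce: the Gaussian moat statement follows from `WalkThm`.

Suppose the claim fails for `D`; let `D' = ⌈D⌉₊ + 1`, and write `z : ℤ[i]` as `(z.re, z.im)`.
An edge has `nm ≤ D'` (`|re|, |im| ≤ ‖·‖`).  For every `n` we find an injective sequence
`z 0, …, z n` of Gaussian primes with steps `nm ≤ D'` and all `nm (z i) > n`:
let `C = (2n+1)^2` (`card_box`), `L = (C+1)(n+1)`, `B = (2 D' L+1)^2`; some component `c` is
infinite or has more than `B` vertices; take `v ∈ c.supp` and `w ∈ c.supp` with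
`w - v ∉ box (D' L)`; a path (`Reachable.exists_isPath` / `Walk.toPath`) from `v` to `w` has
length `> L`, `getVert` is injective on `[0, length]` and all its vertices are irreducible
(each is an end point of an edge).  Among the `C+1` disjoint segments
`[j (n+1), j (n+1) + n]` one contains no vertex of `box n` (pigeonhole).
Now let `U = hyperfilter ℕ` (or any non-principal ultrafilter).  `z^(n) t - z^(n) 0 ∈ box (D' t)`
(for `t ≤ n`) takes finitely many values, so it is `U`-eventually equal to some `X t`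
(`Ultrafilter.eventually_exists_mem_iff`-like lemmas / `Ultrafilter.finite_biUnion_mem_iff`);
likewise `- phi p (z^(n) 0)` is `U`-eventually equal to some `x p` for every prime `p`.
`X` is injective with steps `≤ D'`.  If `phi p (X t) = x p` then for some `n > max p t`,
`phi p (z^(n) t) = 0`, so `p ∣ N(z)` (`dvd_norm_of_phi`) for the Gaussian prime `z = z^(n) t`.
Then `N(z) ∈ {p, p^2}`: `z` is prime (PID/Euclidean domain) and `p ∣ z * star z`; a prime factor
`π` of `p` in `ℤ[i]` divides `z` or `star z`, so is associated to it, and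
`N(z) = N(π) ∣ N(p) = p^2`.  Thus `nm z ≤ p < n`: contradiction.
-/

set_option autoImplicit false

namespace Crest.Agent.R2

open Crest.NumberTheoryR

/-- coordinates of a Gaussian integer -/
def red_co (z : GaussianInt) : ℤ × ℤ := (z.re, z.im)

lemma red_co_inj : Function.Injective red_co := fun z w h => by
  simp only [red_co, Prod.mk.injEq] at h
  exact Zsqrtd.ext h.1 h.2

lemma red_adj {D : ℝ} {z w : GaussianInt} (h : (gaussianPrimeGraph D).Adj z w) :
    nm (red_co w - red_co z) ≤ ⌈D⌉₊ + 1 := by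
  have h1 : ‖GaussianInt.toComplex (z - w)‖ ≤ D := h.2.2.2
  have h2 := Complex.abs_re_le_norm (GaussianInt.toComplex (z - w))
  have h3 := Complex.abs_im_le_norm (GaussianInt.toComplex (z - w))
  rw [← GaussianInt.intCast_re] at h2
  rw [← GaussianInt.intCast_im] at h3
  have h4 := Nat.le_ceil D
  rw [nm_sub_comm, nm_le_iff]
  constructor
  · have : ((|(z - w).re| : ℤ) : ℝ) ≤ ((⌈D⌉₊ + 1 : ℕ) : ℤ) := by push_cast at h2 ⊢; linarith
    exact_mod_cast this
  · have : ((|(z - w).im| : ℤ) : ℝ) ≤ ((⌈D⌉₊ + 1 : ℕ) : ℤ) := by push_cast at h3 ⊢; linarith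
    exact_mod_cast this

lemma red_small {z : GaussianInt} (hz : Irreducible z) {p : ℕ} (hp : p.Prime)
    (h : (p : ℤ) ∣ z.re ^ 2 + z.im ^ 2) : nm (red_co z) ≤ p := by
  have hN : z.norm = z.re ^ 2 + z.im ^ 2 := by rw [Zsqrtd.norm_def]; ring
  have hpN : (p : GaussianInt).norm = (p : ℤ) ^ 2 := by rw [Zsqrtd.norm_natCast]; ring
  have hp1 : (1 : ℤ) < p := by exact_mod_cast hp.one_lt
  have hp0 : (p : GaussianInt) ≠ 0 := by exact_mod_cast hp.ne_zero
  have hpu : ¬IsUnit (p : GaussianInt) := by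
    rw [← Zsqrtd.norm_eq_one_iff' (by norm_num), hpN]
    nlinarith
  obtain ⟨π, hπ, hπp⟩ := WfDvdMonoid.exists_irreducible_factor hpu hp0
  have h1 : (p : GaussianInt) ∣ z * star z := by
    rw [← Zsqrtd.norm_eq_mul_conj, hN]
    exact_mod_cast Int.cast_dvd_cast (α := GaussianInt) _ _ h
  have key : ∀ y : GaussianInt, Irreducible y → π ∣ y → y.norm ≤ (p : ℤ) ^ 2 := by
    intro y hy hd
    obtain ⟨k, hk⟩ := (hπ.dvd_symm hy hd).trans hπp
    refine Int.le_of_dvd (by positivity) ⟨k.norm, ?_⟩
    rw [← hpN, hk, Zsqrtd.norm_mul]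
  have h2 : z.norm ≤ (p : ℤ) ^ 2 := by
    rcases hπ.prime.dvd_or_dvd (hπp.trans h1) with h3 | h3
    · exact key z hz h3
    · have hz' : Irreducible (star z) :=
        (MulEquiv.irreducible_iff (starRingAut : GaussianInt ≃+* GaussianInt)).2 hz
      have := key _ hz' h3
      rwa [Zsqrtd.norm_conj] at this
  rw [hN] at h2
  rw [nm_le_iff]
  exact ⟨abs_le_of_sq_le_sq' (by simp only [red_co]; nlinarith [sq_nonneg z.im]) (by positivity)
      |> abs_le.2,
    abs_le_of_sq_le_sq' (by simp only [red_co]; nlinarith [sq_nonneg z.re]) (by positivity)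
      |> abs_le.2⟩

lemma red_seg {D : ℝ} (hfail : ∀ B : ℕ, ∃ c : (gaussianPrimeGraph D).ConnectedComponent,
    ¬(c.supp.Finite ∧ c.supp.ncard ≤ B)) (n : ℕ) :
    ∃ z : ℕ → GaussianInt, (∀ i ≤ n, ∀ j ≤ n, z i = z j → i = j) ∧
      (∀ i ≤ n, Irreducible (z i) ∧ n < nm (red_co (z i))) ∧
      ∀ i, nm (red_co (z (i + 1)) - red_co (z i)) ≤ ⌈D⌉₊ + 1 := by
  set D' := ⌈D⌉₊ + 1 with hD'
  set C := (2 * n + 1) ^ 2 with hC
  set L := (C + 1) * (n + 1) with hL
  obtain ⟨c, hc⟩ := hfail ((2 * (D' * L) + 1) ^ 2)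
  obtain ⟨v, hv⟩ := c.nonempty_supp
  have hw : ∃ w ∈ c.supp, red_co w - red_co v ∉ box (D' * L) := by
    by_contra hcon
    push Not at hcon
    have hinj : Set.InjOn (fun w => red_co w - red_co v) c.supp := fun a _ b _ hab =>
      red_co_inj (sub_left_injective hab)
    refine hc ⟨Set.Finite.of_injOn (t := (box (D' * L) : Set (ℤ × ℤ))) hcon hinj
      (Finset.finite_toSet _), ?_⟩
    rw [← card_box, ← Set.ncard_coe_finset]
    exact Set.ncard_le_ncard_of_injOn _ hcon hinj (Finset.finite_toSet _)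
  obtain ⟨w, hw, hwv⟩ := hw
  have hr : (gaussianPrimeGraph D).Reachable v w :=
    SimpleGraph.ConnectedComponent.reachable_of_mem_supp c hv hw
  obtain ⟨P, hP⟩ := hr.exists_isPath
  have hstep : ∀ t, nm (red_co (P.getVert (t + 1)) - red_co (P.getVert t)) ≤ D' := by
    intro t
    by_cases ht : t < P.length
    · exact red_adj (P.adj_getVert_succ ht)
    · rw [P.getVert_of_length_le (by omega), P.getVert_of_length_le (by omega), sub_self, nm_zero]
      exact Nat.zero_le _
  have hlen : L < P.length := by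
    have h1 := nm_walk_le (X := fun t => red_co (P.getVert t)) hstep 0 P.length
    simp only [zero_add, SimpleGraph.Walk.getVert_length, SimpleGraph.Walk.getVert_zero] at h1
    rw [mem_box, not_le] at hwv
    exact lt_of_mul_lt_mul_left (hwv.trans_le h1) (Nat.zero_le _)
  have hbd : ∀ j ≤ C, ∀ i ≤ n, j * (n + 1) + i < P.length := by
    intro j hj i hi
    have := Nat.mul_le_mul_right (n + 1) hj
    rw [hL, add_mul, one_mul] at hlen
    omega
  have hseg : ∃ j ≤ C, ∀ i ≤ n, red_co (P.getVert (j * (n + 1) + i)) ∉ box n := by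
    by_contra hcon
    push Not at hcon
    choose! f hf hf' using hcon
    have h1 := Finset.card_le_card_of_injOn (s := Finset.range (C + 1)) (t := box n)
      (fun j => red_co (P.getVert (j * (n + 1) + f j)))
      (fun j hj => hf' j (Nat.lt_succ_iff.1 (Finset.mem_range.1 hj)))
      (fun a ha b hb hab => by
        have ha' := Nat.lt_succ_iff.1 (Finset.mem_range.1 ha)
        have hb' := Nat.lt_succ_iff.1 (Finset.mem_range.1 hb)
        have h2 := hP.getVert_injOn (hbd a ha' _ (hf a ha')).le (hbd b hb' _ (hf b hb')).le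
          (red_co_inj hab)
        have h3 := hf a ha'
        have h4 := hf b hb'
        rcases lt_trichotomy a b with h | h | h
        · have := Nat.mul_le_mul_right (n + 1) (Nat.succ_le_of_lt h)
          rw [Nat.succ_mul] at this
          omega
        · exact h
        · have := Nat.mul_le_mul_right (n + 1) (Nat.succ_le_of_lt h)
          rw [Nat.succ_mul] at this
          omega)
    rw [Finset.card_range, card_box] at h1
    omega
  obtain ⟨j, hj, hj'⟩ := hseg
  refine ⟨fun i => P.getVert (j * (n + 1) + i), fun a ha b hb hab => ?_, fun i hi => ⟨?_, ?_⟩,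
    fun i => hstep _⟩
  · have := hP.getVert_injOn (hbd j hj a ha).le (hbd j hj b hb).le hab
    omega
  · exact (P.adj_getVert_succ (hbd j hj i hi)).2.1
  · have := hj' i hi
    rwa [mem_box, not_le] at this

theorem reduce (hmain : WalkThm) :
    ∀ D : ℝ, ∃ B : ℕ, ∀ c : (gaussianPrimeGraph D).ConnectedComponent,
      c.supp.Finite ∧ c.supp.ncard ≤ B := by
  intro D
  by_contra hcon
  have hfail : ∀ B : ℕ, ∃ c : (gaussianPrimeGraph D).ConnectedComponent,
      ¬(c.supp.Finite ∧ c.supp.ncard ≤ B) := fun B => by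
    by_contra h
    exact hcon ⟨B, fun c => by_contra fun hc => h ⟨c, hc⟩⟩
  choose z hinj hirr hstep using red_seg hfail
  set D' := ⌈D⌉₊ + 1 with hD'
  let U := Filter.hyperfilter ℕ
  have hU : ∀ m : ℕ, ∀ᶠ n in (U : Filter ℕ), m ≤ n := fun m =>
    Nat.hyperfilter_le_atTop (Filter.eventually_ge_atTop m)
  have hX : ∀ t, ∃ u : ℤ × ℤ, ∀ᶠ n in (U : Filter ℕ), red_co (z n t) - red_co (z n 0) = u := by
    intro t
    have h1 : ∀ᶠ n in (U : Filter ℕ), ∃ u ∈ (box (D' * t) : Set (ℤ × ℤ)),
        red_co (z n t) - red_co (z n 0) = u := Filter.Eventually.of_forall fun n =>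
      ⟨_, mem_box.2 (by simpa using nm_walk_le (X := fun t => red_co (z n t)) (hstep n) 0 t), rfl⟩
    obtain ⟨u, -, hu⟩ := (Ultrafilter.eventually_exists_mem_iff (Finset.finite_toSet _)).1 h1
    exact ⟨u, hu⟩
  choose X hX using hX
  have hx : ∀ p : ℕ, ∃ x : ZMod p, p.Prime →
      ∀ᶠ n in (U : Filter ℕ), -phi p (red_co (z n 0)) = x := by
    intro p
    by_cases hp : p.Prime
    · have : NeZero p := ⟨hp.ne_zero⟩
      have h1 : ∀ᶠ n in (U : Filter ℕ), ∃ x : ZMod p, -phi p (red_co (z n 0)) = x :=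
        Filter.Eventually.of_forall fun n => ⟨_, rfl⟩
      obtain ⟨x, hx⟩ := Ultrafilter.eventually_exists_iff.1 h1
      exact ⟨x, fun _ => hx⟩
    · exact ⟨0, fun h => absurd h hp⟩
  choose x hx using hx
  refine hmain D' X (by omega) (fun s t hst => ?_) (fun t => ?_) x fun p hp h4 t ht => ?_
  · obtain ⟨n, h1, h2, h3, h4⟩ := ((hX s).and ((hX t).and ((hU s).and (hU t)))).exists
    refine hinj n s h3 t h4 (red_co_inj ?_)
    rw [hst, ← h2] at h1
    exact sub_left_injective h1
  · obtain ⟨n, h1, h2⟩ := ((hX (t + 1)).and (hX t)).exists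
    rw [← h1, ← h2, sub_sub_sub_cancel_right]
    exact hstep n t
  · obtain ⟨n, h1, h2, h3, h5⟩ := ((hX t).and ((hx p hp).and ((hU t).and (hU p)))).exists
    rw [← h1, ← h2, phi_sub] at ht
    have h6 : phi p (red_co (z n t)) = 0 := by linear_combination ht
    have h7 := red_small (hirr n t h3).1 hp (dvd_norm_of_phi hp h4 h6)
    have h8 := (hirr n t h3).2
    omega

end Crest.Agent.R2
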