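import Crest.Agent.R2.Defs
import Crest.Agent.R2.Ent

/-!
Residue vectors `Y T`, their entropies, and averages of submodular set functions over
independent random primes.
-/

set_option autoImplicit false

namespace Crest.Agent.R2

open Finset Real

/-- the residues modulo the primes of `T` -/
noncomputable def Y (T : Finset ℕ) (u : ℤ × ℤ) : (p : ℕ) → ZMod p :=
  fun p => if p ∈ T then phi p u else 0

lemma Y_eq_iff {T : Finset ℕ} {u v : ℤ × ℤ} : Y T u = Y T v ↔ ∀ p ∈ T, phi p u = phi p v := by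
  constructor
  · intro h p hp
    have := congrFun h p
    simpa [Y, hp] using this
  · intro h
    funext p
    unfold Y
    split_ifs with hp
    · exact h p hp
    · rfl

/-- all residues modulo `p` (for `p ≠ 0`) -/
noncomputable def zs (p : ℕ) : Finset (ZMod p) := (range p).image (fun n : ℕ => (n : ZMod p))

lemma mem_zs {p : ℕ} (hp : p ≠ 0) (x : ZMod p) : x ∈ zs p := by
  have : NeZero p := ⟨hp⟩
  exact mem_image.2 ⟨x.val, mem_range.2 (ZMod.val_lt x), ZMod.natCast_zmod_val x⟩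

lemma card_zs (p : ℕ) : (zs p).card = p := by
  unfold zs
  rw [card_image_of_injOn, card_range]
  intro a ha b hb hab
  have := (ZMod.natCast_eq_natCast_iff' a b p).1 hab
  rwa [Nat.mod_eq_of_lt (by simpa using ha), Nat.mod_eq_of_lt (by simpa using hb)] at this

lemma H_phi_le {α : Type*} (μ : FD α) (X : α → ℤ × ℤ) {p : ℕ} (hp : p ≠ 0) :
    μ.H (fun a => phi p (X a)) ≤ log p := by
  have := μ.H_le_log_card (fun a => phi p (X a)) (zs p) (FD.AE.of_forall fun a => mem_zs hp _)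
  rwa [card_zs] at this

lemma H_Y_empty {α : Type*} (μ : FD α) (X : α → ℤ × ℤ) : μ.H (fun a => Y ∅ (X a)) = 0 :=
  μ.H_const fun _ _ => Y_eq_iff.2 (by simp)

lemma Hc_Y_le {α γ : Type*} (μ : FD α) (X : α → ℤ × ℤ) (g : α → γ) (T : Finset ℕ) :
    μ.Hc (fun a => Y T (X a)) g ≤ ∑ p ∈ T, μ.Hc (fun a => phi p (X a)) g := by
  classical
  induction T using Finset.induction_on with
  | empty =>
    have := μ.Hc_le_H (fun a => Y ∅ (X a)) g
    rw [H_Y_empty] at this
    simpa using this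
  | insert p T hp ih =>
    rw [sum_insert hp]
    have h1 : μ.Hc (fun a => Y (insert p T) (X a)) g ≤
        μ.Hc (fun a => (phi p (X a), Y T (X a))) g := by
      refine FD.Hc_le_of_det fun a a' h _ => Y_eq_iff.2 fun q hq => ?_
      simp only [Prod.mk.injEq] at h
      rcases mem_insert.1 hq with rfl | hq
      · exact h.1
      · exact Y_eq_iff.1 h.2 q hq
    have h2 := μ.Hc_pair_le_add (fun a => phi p (X a)) (fun a => Y T (X a)) g
    linarith

lemma H_Y_le {α : Type*} (μ : FD α) (X : α → ℤ × ℤ) (T : Finset ℕ) (hT : ∀ p ∈ T, p ≠ 0) :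
    μ.H (fun a => Y T (X a)) ≤ ∑ p ∈ T, log p := by
  rw [← μ.Hc_const _ (g := fun _ => ()) (fun _ _ => rfl)]
  refine (Hc_Y_le μ X _ T).trans (sum_le_sum fun p hp => ?_)
  exact (μ.Hc_le_H _ _).trans (H_phi_le μ X (hT p hp))

lemma H_box_le {α : Type*} (μ : FD α) (f : α → ℤ × ℤ) (r : ℕ) (h : μ.AE (fun a => nm (f a) ≤ r)) :
    μ.H f ≤ 2 * log (2 * r + 1) := by
  have := μ.H_le_log_card f (box r) (h.mono fun a ha => mem_box.2 ha)
  rw [card_box] at this
  push_cast at this
  rwa [log_pow] at this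

lemma sum_toFinset_le (l : List ℕ) (f : ℕ → ℝ) (hf : ∀ p, 0 ≤ f p) :
    ∑ p ∈ l.toFinset, f p ≤ (l.map f).sum := by
  induction l with
  | nil => simp
  | cons a l ih =>
    rw [List.toFinset_cons, List.map_cons, List.sum_cons]
    by_cases ha : a ∈ l.toFinset
    · rw [insert_eq_of_mem ha]; linarith [hf a]
    · rw [sum_insert ha]; linarith

/-- submodular set functions -/
def Submod (h : Finset ℕ → ℝ) : Prop :=
  ∀ (a : ℕ) (S T : Finset ℕ), S ⊆ T → h (insert a T) - h T ≤ h (insert a S) - h S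

/-- average of a set function at `n` independent random points -/
noncomputable def Fs (Q : FD ℕ) (h : Finset ℕ → ℝ) (n : ℕ) : ℝ :=
  (FD.iid Q n).E (fun l => h l.toFinset)

lemma Fs_succ_sub (Q : FD ℕ) (h : Finset ℕ → ℝ) (n : ℕ) :
    Fs Q h (n + 1) - Fs Q h n =
      Q.E (fun a => (FD.iid Q n).E (fun l => h (insert a l.toFinset) - h l.toFinset)) := by
  unfold Fs
  rw [FD.E_iid_succ]
  simp only [FD.E_sub, FD.E_const, List.toFinset_cons]

lemma Fs_concave (Q : FD ℕ) {h : Finset ℕ → ℝ} (hh : Submod h) (n : ℕ) :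
    Fs Q h (n + 2) - Fs Q h (n + 1) ≤ Fs Q h (n + 1) - Fs Q h n := by
  rw [Fs_succ_sub, Fs_succ_sub]
  refine FD.E_mono fun a => ?_
  rw [FD.E_iid_succ]
  refine FD.E_le_of_ae (FD.AE.of_forall fun b => FD.E_mono fun l => ?_)
  exact hh a _ _ (by rw [List.toFinset_cons]; exact subset_insert _ _)

lemma Fs_anti (Q : FD ℕ) {h : Finset ℕ → ℝ} (hh : Submod h) {i j : ℕ} (hij : i ≤ j) :
    Fs Q h (j + 1) - Fs Q h j ≤ Fs Q h (i + 1) - Fs Q h i := by
  induction j, hij using Nat.le_induction with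
  | base => exact le_rfl
  | succ j _ ih => exact (Fs_concave Q hh j).trans ih

lemma Fs_sub_le (Q : FD ℕ) {h : Finset ℕ → ℝ} (hh : Submod h) (j M : ℕ) :
    Fs Q h (j + M) - Fs Q h j ≤ M * (Fs Q h (j + 1) - Fs Q h j) := by
  induction M with
  | zero => simp
  | succ M ih =>
    have := Fs_anti Q hh (Nat.le_add_right j M)
    rw [← add_assoc]; push_cast; linarith

lemma le_Fs_sub (Q : FD ℕ) {h : Finset ℕ → ℝ} (hh : Submod h) (j M : ℕ) :
    M * (Fs Q h (j + M + 1) - Fs Q h (j + M)) ≤ Fs Q h (j + M) - Fs Q h j := by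
  induction M with
  | zero => simp
  | succ M ih =>
    have := Fs_concave Q hh (j + M)
    have hM : (0 : ℝ) ≤ M := Nat.cast_nonneg M
    rw [← add_assoc]; push_cast
    rw [show j + M + 1 + 1 = j + M + 2 by ring]
    nlinarith

/-- joint entropies of side information and residues are submodular -/
lemma submod_H {α γ : Type*} (μ : FD α) (X : α → ℤ × ℤ) (Z : α → γ) (L : Finset ℕ) :
    Submod (fun T => μ.H (fun a => (Z a, Y (L ∪ T) (X a)))) := by
  intro p S T hST
  have key : ∀ T : Finset ℕ, μ.H (fun a => (Z a, Y (L ∪ insert p T) (X a))) -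
      μ.H (fun a => (Z a, Y (L ∪ T) (X a))) =
      μ.Hc (fun a => phi p (X a)) (fun a => (Z a, Y (L ∪ T) (X a))) := by
    intro T
    rw [FD.Hc_def]
    congr 1
    refine FD.H_eq_of_det fun a a' => ?_
    simp only [Prod.mk.injEq, Y_eq_iff, union_insert, mem_insert, forall_eq_or_imp]
    tauto
  simp only [key]
  refine FD.Hc_anti _ fun a a' h => ?_
  simp only [Prod.mk.injEq, Y_eq_iff] at h ⊢
  exact ⟨h.1, fun q hq => h.2 q (union_subset_union_right hST hq)⟩

lemma submod_H' (μ : FD (ℤ × ℤ)) (L : Finset ℕ) : Submod (fun T => μ.H (Y (L ∪ T))) := by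
  have := submod_H μ id (fun _ => ()) L
  have h : ∀ T : Finset ℕ, μ.H (fun a => ((), Y (L ∪ T) (id a))) = μ.H (Y (L ∪ T)) :=
    fun T => FD.H_eq_of_det fun a a' => by simp
  simpa only [h] using this

/-- mean entropy of the residues modulo `L` and `n` random primes -/
noncomputable def FF (μ : FD (ℤ × ℤ)) (L : Finset ℕ) (Q : FD ℕ) (n : ℕ) : ℝ :=
  Fs Q (fun T => μ.H (Y (L ∪ T))) n

/-- mean conditional entropy of the residue modulo the `(j+1)`-st random prime -/
noncomputable def aa (μ : FD (ℤ × ℤ)) (L : Finset ℕ) (Q : FD ℕ) (j : ℕ) : ℝ :=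
  FF μ L Q (j + 1) - FF μ L Q j

lemma FF_zero (μ : FD (ℤ × ℤ)) (L : Finset ℕ) (Q : FD ℕ) : FF μ L Q 0 = μ.H (Y L) := by
  simp [FF, Fs]

lemma aa_nonneg (μ : FD (ℤ × ℤ)) (L : Finset ℕ) (Q : FD ℕ) (j : ℕ) : 0 ≤ aa μ L Q j := by
  unfold aa FF
  rw [Fs_succ_sub]
  refine FD.E_nonneg fun a => FD.E_nonneg fun l => sub_nonneg.2 (FD.H_le_of_det fun u v h => ?_)
  rw [Y_eq_iff] at h ⊢
  exact fun q hq => h q (union_subset_union_right (subset_insert _ _) hq)

lemma mul_aa_le (μ : FD (ℤ × ℤ)) (L : Finset ℕ) (Q : FD ℕ) (J : ℕ) :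
    J * aa μ L Q J ≤ (FD.iid Q J).E (fun l => μ.H (Y (L ∪ l.toFinset))) - μ.H (Y L) := by
  have := le_Fs_sub Q (submod_H' μ L) 0 J
  rw [zero_add] at this
  rw [← FF_zero μ L Q]
  exact this

lemma aa_empty_zero (μ : FD (ℤ × ℤ)) (Q : FD ℕ) : aa μ ∅ Q 0 = Q.E (fun p => μ.H (phi p)) := by
  unfold aa FF
  rw [Fs_succ_sub]
  refine FD.E_congr fun p => ?_
  have h0 := H_Y_empty μ id
  simp only [id] at h0
  simp only [FD.E_iid_zero, List.toFinset_nil, empty_union]
  rw [show μ.H (Y ∅) = 0 from h0, sub_zero]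
  exact FD.H_eq_of_det fun a a' => by simp [Y_eq_iff]

/-- a uniform random prime of the block `e` -/
noncomputable def QQ (e : ℕ) (hne : (pool e).Nonempty) : FD ℕ := FD.unif (pool e) hne

/-- mean of `log p` over the block `e` -/
noncomputable def LL (e : ℕ) (hne : (pool e).Nonempty) : ℝ := (QQ e hne).E (fun p => log p)

lemma QQ_ae (e : ℕ) (hne : (pool e).Nonempty) : (QQ e hne).AE (fun p => p ∈ pool e) :=
  FD.AE_unif fun _ h => h

lemma log_le_of_mem_pool {e p : ℕ} (hp : p ∈ pool e) : log p ≤ (e + 1) * log 2 := by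
  have h := mem_pool.1 hp
  have h1 : (p : ℝ) ≤ 2 ^ (e + 1) := by exact_mod_cast h.1.2.le
  have h0 : (0 : ℝ) < p := by exact_mod_cast h.2.1.pos
  have := log_le_log h0 h1
  rw [log_pow] at this
  exact_mod_cast this

lemma log_le_of_mem_pool' {e p : ℕ} (hp : p ∈ pool e) : log p ≤ e + 1 := by
  have h := log_le_of_mem_pool hp
  have h2 : log 2 < 1 := by have := log_two_lt_d9; linarith
  have : (0 : ℝ) ≤ e + 1 := by positivity
  nlinarith

lemma LL_le (e : ℕ) (hne : (pool e).Nonempty) : LL e hne ≤ e + 1 :=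
  FD.E_le_of_ae ((QQ_ae e hne).mono fun _ h => log_le_of_mem_pool' h)

open Classical in
/-- the residues of small mass -/
noncomputable def rare (μ : FD (ℤ × ℤ)) (p : ℕ) : Finset (ZMod p) :=
  (zs p).filter (fun x => μ.pr (fun u => phi p u = x) < 1 / (1024 * p))

end Crest.Agent.R2
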