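import Crest.Agent.R2.Hier

/-!
Windows and the entropy potential: definitions.
-/

set_option autoImplicit false

namespace Crest.Agent.R2

open Finset Real

/-- the first `h` points of `ξ`, seen from `u` -/
def win (h : ℕ) (u : ℤ × ℤ) (ξ : Seq) : Seq := fun j => if j < h then ξ j - u else 0

/-- the shape of the window of length `h` -/
def gam (h : ℕ) (ξ : Seq) : Seq := win h (ξ 0) ξ

lemma win_eq_iff {h : ℕ} {u u' : ℤ × ℤ} {ξ ξ' : Seq} :
    win h u ξ = win h u' ξ' ↔ ∀ j < h, ξ j - u = ξ' j - u' := by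
  constructor
  · intro H j hj
    have := congrFun H j
    simpa [win, hj] using this
  · intro H
    funext j
    unfold win
    split_ifs with hj
    · exact H j hj
    · rfl

/-- a point and `n` independent sequences of the same block -/
noncomputable def om (κ : FD ℕ) (K : ℕ → FD Seq) (n : ℕ) : FD ((ℤ × ℤ) × List Seq) :=
  κ.bind fun c => (K c).bind fun ξ => (FD.iid (K c) n).map fun l => (ξ 0, l)

/-- the `n` windows seen from the point -/
def eta (h : ℕ) (x : (ℤ × ℤ) × List Seq) : List Seq := x.2.map (win h x.1)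

/-- the potential -/
noncomputable def Psi (κ : FD ℕ) (K : ℕ → FD Seq) (h : ℕ) (L : Finset ℕ) (n : ℕ) : ℝ :=
  (om κ K n).Hc (eta h) (fun x => Y L x.1)

lemma E_om (κ : FD ℕ) (K : ℕ → FD Seq) (n : ℕ) (F : (ℤ × ℤ) × List Seq → ℝ) :
    (om κ K n).E F =
      κ.E fun c => (K c).E fun ξ => (FD.iid (K c) n).E fun l => F (ξ 0, l) := by
  simp [om]

end Crest.Agent.R2
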